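import Vale.Agent.P283.Bdl.B1
import Mathlib.Analysis.Convex.Continuous

/-!
Sublinear functions on cones: Auerbach bases, one-constraint Farkas lemma, flatness and the cone
theorem for a convex cone with a positive sublinear function without small lattice points.
-/

attribute [-instance] ProperSMul.toContinuousSMul IsTopologicalTorsor.toContinuousSMul IdemSemiring.toCanonicallyOrderedAdd IdemSemiring.toMulLeftMono IdemSemiring.toMulRightMono AddQuantale.instAddLeftMono AddQuantale.instAddRightMono Quantale.instMulLeftMono Quantale.instMulRightMono FiniteDimensional.rclike_to_real IsScalarTower.complexToReal FiniteDimensional.complexToReal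

set_option linter.all false

open Module Set

namespace Vale.Agent.P283.H207

/-- Sublinear functions. -/
structure IsSub {V : Type*} [AddCommGroup V] [Module ℝ V] (ψ : V → ℝ) : Prop where
  add : ∀ x y, ψ (x + y) ≤ ψ x + ψ y
  smul : ∀ (c : ℝ) x, 0 ≤ c → ψ (c • x) = c * ψ x

namespace IsSub

variable {V : Type*} [AddCommGroup V] [Module ℝ V] {ψ : V → ℝ} (hs : IsSub ψ)
include hs

lemma zero : ψ 0 = 0 := by
  have h := hs.smul 0 0 le_rfl
  simpa using h

lemma sum {α : Type*} (s : Finset α) (f : α → V) : ψ (∑ i ∈ s, f i) ≤ ∑ i ∈ s, ψ (f i) := by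
  classical
  induction s using Finset.induction_on with
  | empty => simp [hs.zero]
  | insert a s ha ih =>
    rw [Finset.sum_insert ha, Finset.sum_insert ha]
    exact (hs.add _ _).trans (by linarith)

lemma comp {W : Type*} [AddCommGroup W] [Module ℝ W] (f : W →ₗ[ℝ] V) : IsSub fun x => ψ (f x) where
  add x y := by rw [map_add]; exact hs.add _ _
  smul c x hc := by rw [map_smul]; exact hs.smul _ _ hc

lemma add_linear (f : V →ₗ[ℝ] ℝ) {c : ℝ} (hc : 0 ≤ c) : IsSub fun x => f x + c * ψ x where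
  add x y := by
    rw [map_add]
    have := mul_le_mul_of_nonneg_left (hs.add x y) hc
    linarith
  smul a x ha := by
    rw [map_smul, hs.smul _ _ ha, smul_eq_mul]; ring

lemma add_mul {φ : V → ℝ} (h2 : IsSub φ) {c : ℝ} (hc : 0 ≤ c) : IsSub fun x => φ x + c * ψ x where
  add x y := by
    have := mul_le_mul_of_nonneg_left (hs.add x y) hc
    have := h2.add x y
    linarith
  smul a x ha := by
    rw [hs.smul _ _ ha, h2.smul _ _ ha]; ring

lemma convexOn : ConvexOn ℝ univ ψ := by
  refine ⟨convex_univ, ?_⟩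
  intro x _ y _ a b ha hb _
  refine (hs.add _ _).trans ?_
  rw [hs.smul _ _ ha, hs.smul _ _ hb, smul_eq_mul, smul_eq_mul]

end IsSub

lemma IsSub.continuous {E : Type*} [NormedAddCommGroup E] [NormedSpace ℝ E]
    [FiniteDimensional ℝ E] {ψ : E → ℝ} (hs : IsSub ψ) : Continuous ψ :=
  hs.convexOn.locallyLipschitz.continuous


section Normed

variable {E : Type*} [NormedAddCommGroup E] [NormedSpace ℝ E] [FiniteDimensional ℝ E]
variable {ι : Type*} (h : ι → E →ₗ[ℝ] ℝ) (ψ : E → ℝ) (hsub : IsSub ψ)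
  (hψ : ∀ x, (∀ a, 0 ≤ h a x) → x ≠ 0 → 0 < ψ x)

include hsub hψ in
lemma cone_bdd : ∃ B : ℝ, 0 < B ∧ ∀ x, (∀ a, 0 ≤ h a x) → ‖x‖ ≤ B * ψ x := by
  let S : Set E := {x | ∀ a, 0 ≤ h a x} ∩ Metric.sphere 0 1
  have hclosed : IsClosed {x : E | ∀ a, 0 ≤ h a x} := by
    rw [Set.ofPred_forall]
    exact isClosed_iInter fun a =>
      isClosed_le continuous_const (LinearMap.continuous_of_finiteDimensional (h a))
  have hS : IsCompact S := (isCompact_sphere 0 1).inter_left hclosed
  have hψc : Continuous ψ := hsub.continuous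
  rcases S.eq_empty_or_nonempty with hSe | hSn
  · refine ⟨1, one_pos, ?_⟩
    intro x hx
    by_cases hx0 : x = 0
    · subst hx0; simp [hsub.zero]
    · exfalso
      have hn : 0 < ‖x‖ := norm_pos_iff.mpr hx0
      have : (‖x‖⁻¹ • x) ∈ S := by
        refine ⟨?_, ?_⟩
        · intro a
          rw [map_smul, smul_eq_mul]
          exact mul_nonneg (inv_nonneg.mpr hn.le) (hx a)
        · simp only [mem_sphere_iff_norm, sub_zero, norm_smul, norm_inv, norm_norm, ne_eq, hn.ne', not_false_eq_true, inv_mul_cancel₀]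
      rw [hSe] at this
      exact this
  · obtain ⟨y, hyS, hy⟩ := hS.exists_isMinOn hSn hψc.continuousOn
    have hy0 : y ≠ 0 := by
      rintro rfl
      have := hyS.2
      simp at this
    have hm : 0 < ψ y := hψ y hyS.1 hy0
    refine ⟨(ψ y)⁻¹, inv_pos.mpr hm, ?_⟩
    intro x hx
    by_cases hx0 : x = 0
    · subst hx0; simp [hsub.zero]
    · have hn : 0 < ‖x‖ := norm_pos_iff.mpr hx0
      have hmem : (‖x‖⁻¹ • x) ∈ S := by
        refine ⟨?_, ?_⟩
        · intro a
          rw [map_smul, smul_eq_mul]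
          exact mul_nonneg (inv_nonneg.mpr hn.le) (hx a)
        · simp [norm_smul, hn.ne']
      have h1 : ψ y ≤ ψ (‖x‖⁻¹ • x) := hy hmem
      rw [hsub.smul _ _ (inv_nonneg.mpr hn.le), le_inv_mul_iff₀ hn] at h1
      rw [inv_mul_eq_div, le_div_iff₀ hm]
      exact h1

include hsub hψ in
lemma slice_compact : IsCompact {x : E | (∀ a, 0 ≤ h a x) ∧ ψ x = 1} := by
  obtain ⟨B, hB, hb⟩ := cone_bdd h ψ hsub hψ
  have hψc : Continuous ψ := hsub.continuous
  have hcl : IsClosed {x : E | (∀ a, 0 ≤ h a x) ∧ ψ x = 1} :=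
    (cone_closed h).inter (isClosed_eq hψc continuous_const)
  refine Metric.isCompact_of_isClosed_isBounded hcl ?_
  refine (Metric.isBounded_closedBall (x := (0 : E)) (r := B)).subset ?_
  rintro x ⟨hx, hx1⟩
  have := hb x hx
  rw [hx1, mul_one] at this
  simpa only [Metric.mem_closedBall, dist_zero_right, ge_iff_le] using this

include hsub hψ in
/-- approximate Auerbach basis of a pointed cone -/
lemma auerbach_normed : ∃ (e : ℕ) (v : Fin e → E), e ≤ finrank ℝ E ∧
    (∀ i, (∀ a, 0 ≤ h a (v i)) ∧ ψ (v i) = 1) ∧ LinearIndependent ℝ v ∧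
    ∀ x, (∀ a, 0 ≤ h a x) → ∃ t : Fin e → ℝ, (∀ i, |t i| ≤ ψ x) ∧ x = ∑ i, t i • v i := by
  classical
  let K₁ : Set E := {x : E | (∀ a, 0 ≤ h a x) ∧ ψ x = 1}
  have hK : IsCompact K₁ := slice_compact h ψ hsub hψ
  obtain ⟨e, f, he, hfK, hfspan, hfli⟩ : ∃ (e : ℕ) (f : Fin e → E),
      e = finrank ℝ (Submodule.span ℝ K₁) ∧ (∀ i, f i ∈ K₁) ∧
      Submodule.span ℝ (Set.range f) = Submodule.span ℝ K₁ ∧ LinearIndependent ℝ f := by
    obtain ⟨f, hf⟩ := Submodule.exists_fun_fin_finrank_span_eq ℝ K₁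
    exact ⟨_, f, rfl, hf⟩
  -- functionals dual to `f`
  let b := Basis.span hfli
  have hs : ∀ j : Fin e, ∃ s : E →ₗ[ℝ] ℝ, ∀ i, s (f i) = if i = j then 1 else 0 := by
    intro j
    obtain ⟨g, hg⟩ := LinearMap.exists_extend (b.coord j)
    refine ⟨g, ?_⟩
    intro i
    have h1 : g (f i) = (b.coord j) (b i) := by
      rw [← hg]
      simp [b, Basis.span_apply]
    rw [h1, Basis.coord_apply, Basis.repr_self, Finsupp.single_apply]
  choose s hs using hs
  let A : (Fin e → E) → Matrix (Fin e) (Fin e) ℝ := fun v => Matrix.of fun i j => s j (v i)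
  have hAc : Continuous fun v => |(A v).det| := by
    refine Continuous.abs (Continuous.matrix_det ?_)
    refine continuous_matrix ?_
    intro i j
    exact (LinearMap.continuous_of_finiteDimensional (s j)).comp (continuous_apply i)
  have hcomp : IsCompact (Set.pi Set.univ (fun _ : Fin e => K₁)) :=
    isCompact_univ_pi fun _ => hK
  obtain ⟨v, hvK, hv⟩ := hcomp.exists_isMaxOn ⟨f, fun i _ => hfK i⟩ hAc.continuousOn
  have hvK' : ∀ i, v i ∈ K₁ := fun i => hvK i (Set.mem_univ i)
  have hAf : A f = 1 := by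
    ext i j
    simp [A, hs, Matrix.one_apply]
  have hdet : 1 ≤ |(A v).det| := by
    have h1 : |(A f).det| ≤ |(A v).det| := hv (show f ∈ _ from fun i _ => hfK i)
    rw [hAf] at h1
    simpa only [ge_iff_le, Matrix.det_one, abs_one] using h1
  have hdet0 : (A v).det ≠ 0 := by
    intro h0
    rw [h0] at hdet
    simp at hdet
    linarith only [hdet]
  have hli : LinearIndependent ℝ v := by
    rw [Fintype.linearIndependent_iff]
    intro c hc
    have h1 : Matrix.vecMul c (A v) = 0 := by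
      ext j
      simp only [Matrix.vecMul, dotProduct, A, Matrix.of_apply, Pi.zero_apply]
      have h2 : s j (∑ i, c i • v i) = 0 := by rw [hc, map_zero]
      rw [map_sum] at h2
      simpa only [map_smul, smul_eq_mul] using h2
    have h3 := Matrix.eq_zero_of_vecMul_eq_zero hdet0 h1
    intro i
    exact congrFun h3 i
  have hspan : Submodule.span ℝ (Set.range v) = Submodule.span ℝ K₁ := by
    apply Submodule.eq_of_le_of_finrank_eq
    · rw [Submodule.span_le]
      rintro _ ⟨i, rfl⟩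
      exact Submodule.subset_span (hvK' i)
    · rw [finrank_span_eq_card hli, Fintype.card_fin, he]
  refine ⟨e, v, by rw [he]; exact Submodule.finrank_le _, fun i => hvK' i, hli, ?_⟩
  intro x hx
  by_cases hx0 : x = 0
  · subst hx0
    exact ⟨0, by simp [hsub.zero], by simp only [Pi.zero_apply, zero_smul, Finset.sum_const_zero]⟩
  · have hpos := hψ x hx hx0
    have hx'K : ((ψ x)⁻¹ • x) ∈ K₁ := by
      refine ⟨?_, ?_⟩
      · intro a
        rw [map_smul, smul_eq_mul]
        exact mul_nonneg (inv_nonneg.mpr hpos.le) (hx a)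
      · rw [hsub.smul _ _ (inv_nonneg.mpr hpos.le), inv_mul_cancel₀ hpos.ne']
    have hmem : ((ψ x)⁻¹ • x) ∈ Submodule.span ℝ (Set.range v) := by
      rw [hspan]; exact Submodule.subset_span hx'K
    obtain ⟨t, ht⟩ := (Submodule.mem_span_range_iff_exists_fun ℝ).mp hmem
    have htle : ∀ i, |t i| ≤ 1 := by
      intro i
      have h1 : |(A (Function.update v i ((ψ x)⁻¹ • x))).det| ≤ |(A v).det| := by
        apply hv
        intro j _
        by_cases hj : j = i
        · subst hj; simpa using hx'K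
        · simpa [Function.update_of_ne hj] using hvK' j
      have h2 : A (Function.update v i ((ψ x)⁻¹ • x))
          = (A v).updateRow i (∑ k, t k • (A v) k) := by
        ext j l
        by_cases hj : j = i
        · subst hj
          rw [Matrix.updateRow_self]
          simp only [A, Matrix.of_apply, Function.update_self, ← ht, map_sum, map_smul,
            Finset.sum_apply, Pi.smul_apply]
        · rw [Matrix.updateRow_ne hj]
          simp [A, Function.update_of_ne hj]
      rw [h2, Matrix.det_updateRow_sum, smul_eq_mul, abs_mul] at h1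
      have h3 : 0 < |(A v).det| := by linarith only [hdet]
      by_contra hcon
      push Not at hcon
      nlinarith only [h1, hcon, hdet]
    refine ⟨fun i => ψ x * t i, ?_, ?_⟩
    · intro i
      rw [abs_mul, abs_of_pos hpos]
      have := htle i
      nlinarith only [hpos, this]
    · simp only [mul_smul]
      rw [← Finset.smul_sum, ht, smul_smul, mul_inv_cancel₀ hpos.ne', one_smul]

include hsub hψ in
/-- a one-constraint Farkas lemma with slack -/
lemma one_constraint_normed
    (hpt : ∀ x y, (∀ a, 0 ≤ h a x) → (∀ a, 0 ≤ h a y) → x + y = 0 → x = 0)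
    (u : E →ₗ[ℝ] ℝ) (f : E → ℝ) (hfs : IsSub f)
    (hf : ∀ x, (∀ a, 0 ≤ h a x) → u x = 0 → 0 ≤ f x) (δ : ℝ) (hδ : 0 < δ) :
    ∃ t : ℝ, ∀ x, (∀ a, 0 ≤ h a x) → -(δ * ψ x) ≤ f x + t * u x := by
  let K₁ : Set E := {x : E | (∀ a, 0 ≤ h a x) ∧ ψ x = 1}
  have hK : IsCompact K₁ := slice_compact h ψ hsub hψ
  have huc : Continuous u := LinearMap.continuous_of_finiteDimensional u
  have hψc : Continuous ψ := hsub.continuous
  have hfc : Continuous f := hfs.continuous
  let g : E → ℝ := fun x => f x + δ * ψ x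
  have hgs : IsSub g := hsub.add_mul hfs hδ.le
  have hgc : Continuous g := hgs.continuous
  have hgx : ∀ x, g x = f x + δ * ψ x := fun x => rfl
  -- it suffices to work on the slice
  suffices hmain : ∃ t : ℝ, ∀ x ∈ K₁, 0 ≤ g x + t * u x by
    obtain ⟨t, ht⟩ := hmain
    refine ⟨t, ?_⟩
    intro x hx
    by_cases hx0 : x = 0
    · subst hx0; simp [hsub.zero, hfs.zero]
    · have hpos := hψ x hx hx0
      have hx'K : ((ψ x)⁻¹ • x) ∈ K₁ := by
        refine ⟨?_, ?_⟩
        · intro a
          rw [map_smul, smul_eq_mul]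
          exact mul_nonneg (inv_nonneg.mpr hpos.le) (hx a)
        · rw [hsub.smul _ _ (inv_nonneg.mpr hpos.le), inv_mul_cancel₀ hpos.ne']
      have h1 := ht _ hx'K
      rw [hgs.smul _ _ (inv_nonneg.mpr hpos.le), map_smul, smul_eq_mul] at h1
      have h2 : (ψ x)⁻¹ * g x + t * ((ψ x)⁻¹ * u x) = (ψ x)⁻¹ * (g x + t * u x) := by ring
      rw [h2] at h1
      have h3 : 0 ≤ g x + t * u x := by
        by_contra hcon
        push Not at hcon
        have := mul_neg_of_pos_of_neg (inv_pos.mpr hpos) hcon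
        linarith only [h1, this]
      rw [hgx] at h3
      linarith only [h3]
  have hg0 : ∀ x ∈ K₁, u x = 0 → 0 < g x := by
    intro x hx hux
    have h1 := hf x hx.1 hux
    rw [hgx, hx.2]
    linarith
  let A : Set E := K₁ ∩ {x | g x ≤ 0}
  have hA : IsCompact A := hK.inter_right (isClosed_le hgc continuous_const)
  -- key: combine a point with `u > 0` and one with `u < 0`
  have hcomb : ∀ x ∈ K₁, ∀ y ∈ K₁, 0 < u x → u y < 0 → 0 < (-u y) * g x + u x * g y := by
    intro x hx y hy hux huy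
    have huy' : 0 < -u y := by linarith
    have hxc : ∀ a, 0 ≤ h a ((-u y) • x) := fun a => by
      rw [map_smul, smul_eq_mul]; exact mul_nonneg huy'.le (hx.1 a)
    have hyc : ∀ a, 0 ≤ h a ((u x) • y) := fun a => by
      rw [map_smul, smul_eq_mul]; exact mul_nonneg hux.le (hy.1 a)
    have hne : (-u y) • x + (u x) • y ≠ 0 := by
      intro h0
      have h1 := hpt _ _ hxc hyc h0
      rcases smul_eq_zero.mp h1 with h2 | h2
      · exact huy'.ne' h2
      · have h3 := hx.2
        rw [h2, hsub.zero] at h3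
        exact zero_ne_one h3
    have hzc : ∀ a, 0 ≤ h a ((-u y) • x + (u x) • y) := fun a => by
      rw [map_add]; exact add_nonneg (hxc a) (hyc a)
    have huz : u ((-u y) • x + (u x) • y) = 0 := by
      rw [map_add, map_smul, map_smul, smul_eq_mul, smul_eq_mul]
      ring
    have h1 := hf _ hzc huz
    have h2 := hψ _ hzc hne
    have h3 := hgs.add ((-u y) • x) ((u x) • y)
    rw [hgs.smul _ _ huy'.le, hgs.smul _ _ hux.le, hgx] at h3
    have h4 := mul_pos hδ h2
    linarith only [h1, h3, h4]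
  rcases A.eq_empty_or_nonempty with hAe | ⟨x₁, hx₁⟩
  · refine ⟨0, ?_⟩
    intro x hx
    by_contra hcon
    push Not at hcon
    have : x ∈ A := ⟨hx, by simp only [zero_mul, add_zero] at hcon; exact hcon.le⟩
    rw [hAe] at this
    exact this
  · have hx₁u : u x₁ ≠ 0 := by
      intro h0
      have := hg0 x₁ hx₁.1 h0
      have h2 : g x₁ ≤ 0 := hx₁.2
      linarith
    rcases lt_or_gt_of_ne hx₁u with hneg | hpos
    · -- all of `A` has `u < 0`
      have hAneg : ∀ x ∈ A, u x < 0 := by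
        intro x hx
        rcases lt_trichotomy (u x) 0 with h1 | h1 | h1
        · exact h1
        · exfalso
          have := hg0 x hx.1 h1
          have h2 : g x ≤ 0 := hx.2
          linarith
        · exfalso
          have := hcomb x hx.1 x₁ hx₁.1 h1 hneg
          have h2 : g x ≤ 0 := hx.2
          have h3 : g x₁ ≤ 0 := hx₁.2
          nlinarith only [this, hneg, h2, h1, h3]
      obtain ⟨y, hyA, hy⟩ := hA.exists_isMaxOn ⟨x₁, hx₁⟩
        (f := fun x => g x / u x)
        (hgc.continuousOn.div huc.continuousOn fun x hx => (hAneg x hx).ne)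
      have huy := hAneg y hyA
      refine ⟨-(g y / u y), ?_⟩
      intro x hx
      by_cases hgx0 : g x ≤ 0
      · have h1 : g x / u x ≤ g y / u y := hy ⟨hx, hgx0⟩
        have h2 := hAneg x ⟨hx, hgx0⟩
        rw [div_le_iff_of_neg h2] at h1
        linarith only [h1]
      · push Not at hgx0
        have h3 : 0 ≤ g y / u y := div_nonneg_of_nonpos hyA.2 huy.le
        rcases le_or_gt (u x) 0 with h4 | h4
        · nlinarith only [hgx0, h3, h4]
        · have h5 := hcomb x hx y hyA.1 h4 huy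
          have h6 : g x - (g y / u y) * u x = ((-u y) * g x + u x * g y) / (-u y) := by
            have hne : u y ≠ 0 := huy.ne
            field_simp
            ring
          have h7 : 0 < ((-u y) * g x + u x * g y) / (-u y) := div_pos h5 (by linarith only [huy])
          linarith only [h6, h7]
    · have hApos : ∀ x ∈ A, 0 < u x := by
        intro x hx
        rcases lt_trichotomy (u x) 0 with h1 | h1 | h1
        · exfalso
          have := hcomb x₁ hx₁.1 x hx.1 hpos h1
          have h2 : g x ≤ 0 := hx.2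
          have h3 : g x₁ ≤ 0 := hx₁.2
          nlinarith only [this, hpos, h2, h1, h3]
        · exfalso
          have := hg0 x hx.1 h1
          have h2 : g x ≤ 0 := hx.2
          linarith
        · exact h1
      obtain ⟨y, hyA, hy⟩ := hA.exists_isMinOn ⟨x₁, hx₁⟩
        (f := fun x => g x / u x)
        (hgc.continuousOn.div huc.continuousOn fun x hx => (hApos x hx).ne')
      have huy := hApos y hyA
      refine ⟨-(g y / u y), ?_⟩
      intro x hx
      by_cases hgx0 : g x ≤ 0
      · have h1 : g y / u y ≤ g x / u x := hy ⟨hx, hgx0⟩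
        have h2 := hApos x ⟨hx, hgx0⟩
        rw [le_div_iff₀ h2] at h1
        linarith only [h1]
      · push Not at hgx0
        have h3 : g y / u y ≤ 0 := div_nonpos_of_nonpos_of_nonneg hyA.2 huy.le
        rcases le_or_gt 0 (u x) with h4 | h4
        · nlinarith only [hgx0, h3, h4]
        · have h5 := hcomb y hyA.1 x hx huy h4
          have h6 : g x - (g y / u y) * u x = ((-u x) * g y + u y * g x) / (u y) := by
            have hne : u y ≠ 0 := huy.ne'
            field_simp
            ring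
          have h7 : 0 < ((-u x) * g y + u y * g x) / (u y) := div_pos h5 huy
          linarith only [h6, h7]

end Normed

section General

variable {V : Type*} [AddCommGroup V] [Module ℝ V] [Module.Finite ℝ V]

variable {ι : Type*} (h : ι → V →ₗ[ℝ] ℝ) (ψ : V → ℝ) (hsub : IsSub ψ)
  (hψ : ∀ x, (∀ a, 0 ≤ h a x) → x ≠ 0 → 0 < ψ x)

include hsub hψ in
lemma auerbach : ∃ (e : ℕ) (v : Fin e → V), e ≤ finrank ℝ V ∧
    (∀ i, (∀ a, 0 ≤ h a (v i)) ∧ ψ (v i) = 1) ∧ LinearIndependent ℝ v ∧
    ∀ x, (∀ a, 0 ≤ h a x) → ∃ t : Fin e → ℝ, (∀ i, |t i| ≤ ψ x) ∧ x = ∑ i, t i • v i := by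
  let e := (Module.finBasis ℝ V).equivFun
  let _ : NormedAddCommGroup V := NormedAddCommGroup.induced V (Fin (finrank ℝ V) → ℝ) e e.injective
  let _ : NormedSpace ℝ V := NormedSpace.induced ℝ V (Fin (finrank ℝ V) → ℝ) e
  exact auerbach_normed h ψ hsub hψ

include hsub hψ in
lemma one_constraint
    (hpt : ∀ x y, (∀ a, 0 ≤ h a x) → (∀ a, 0 ≤ h a y) → x + y = 0 → x = 0)
    (u : V →ₗ[ℝ] ℝ) (f : V → ℝ) (hfs : IsSub f)
    (hf : ∀ x, (∀ a, 0 ≤ h a x) → u x = 0 → 0 ≤ f x) (δ : ℝ) (hδ : 0 < δ) :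
    ∃ t : ℝ, ∀ x, (∀ a, 0 ≤ h a x) → -(δ * ψ x) ≤ f x + t * u x := by
  let e := (Module.finBasis ℝ V).equivFun
  let _ : NormedAddCommGroup V := NormedAddCommGroup.induced V (Fin (finrank ℝ V) → ℝ) e e.injective
  let _ : NormedSpace ℝ V := NormedSpace.induced ℝ V (Fin (finrank ℝ V) → ℝ) e
  exact one_constraint_normed h ψ hsub hψ hpt u f hfs hf δ hδ

end General

section Flatness

universe v

/-- Flatness of a cone free of small lattice points. -/
theorem key_lemma (Q : Type v) [AddCommGroup Q] [Module.Finite ℤ Q] {ι : Type*} (h : ι → Q)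
    (ψ : (Q →ₗ[ℤ] ℝ) → ℝ) (hsub : IsSub ψ)
    (hψ : ∀ w : Q →ₗ[ℤ] ℝ, (∀ a, 0 ≤ w (h a)) → w ≠ 0 → 0 < ψ w) (ε : ℝ) (hε : 0 < ε)
    (hlc : ∀ w : Q →ₗ[ℤ] ℤ, (∀ a, 0 ≤ toR w (h a)) → toR w ≠ 0 → ε ≤ ψ (toR w))
    (hn : 0 < finrank ℝ (Q →ₗ[ℤ] ℝ)) :
    ∃ u : Q, (∃ w : Q →ₗ[ℤ] ℝ, w u ≠ 0) ∧
      ∀ w : Q →ₗ[ℤ] ℝ, (∀ a, 0 ≤ w (h a)) → |w u| ≤ (Kc (finrank ℝ (Q →ₗ[ℤ] ℝ)) / ε) * ψ w := by
  classical
  set n := finrank ℝ (Q →ₗ[ℤ] ℝ) with hndef
  have hn1 : (1 : ℝ) ≤ n := by exact_mod_cast hn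
  have hKpos : 0 < Kc n := by unfold Kc; positivity
  by_contra hcon
  push Not at hcon
  obtain ⟨e, v, he, hv, hli, hx⟩ := auerbach (fun a => evalL (h a)) ψ hsub hψ
  have heR : (e : ℝ) ≤ n := by exact_mod_cast he
  -- some vector of the dual
  obtain ⟨m₀, hm₀⟩ : ∃ m₀ : Q, ∃ w : Q →ₗ[ℤ] ℝ, w m₀ ≠ 0 := by
    have hnt : Nontrivial (Q →ₗ[ℤ] ℝ) := Module.nontrivial_of_finrank_pos (R := ℝ) hn
    obtain ⟨w, hw⟩ := exists_ne (0 : Q →ₗ[ℤ] ℝ)
    have : ∃ m, w m ≠ 0 := by
      by_contra hc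
      push Not at hc
      exact hw (LinearMap.ext hc)
    obtain ⟨m, hm⟩ := this
    exact ⟨m, w, hm⟩
  have he0 : 0 < e := by
    rcases Nat.eq_zero_or_pos e with h0 | h0
    · exfalso
      subst h0
      obtain ⟨w, hw, hlt⟩ := hcon m₀ hm₀
      obtain ⟨t, -, ht⟩ := hx w hw
      simp only [Finset.univ_eq_empty, Finset.sum_empty] at ht
      subst ht
      simp [hsub.zero] at hlt
    · exact h0
  have heR1 : (1 : ℝ) ≤ e := by exact_mod_cast he0
  obtain ⟨t, ht⟩ := dual_functionals hli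
  -- the projection
  let π : (Q →ₗ[ℤ] ℝ) →ₗ[ℝ] (Q →ₗ[ℤ] ℝ) := LinearMap.id - ∑ i, (t i).smulRight (v i)
  have hπ : ∀ w, π w = w - ∑ i, t i w • v i := by
    intro w
    simp only [LinearMap.sub_apply, LinearMap.id_coe, id_eq, LinearMap.coe_sum, LinearMap.coe_smulRight, Finset.sum_apply, π]
  have hπv : ∀ i, π (v i) = 0 := by
    intro i
    rw [hπ]
    simp only [ht, ite_smul, one_smul, zero_smul, Finset.sum_ite_eq, Finset.mem_univ, ↓reduceIte, sub_self]
  let b := Module.finBasis ℝ (Q →ₗ[ℤ] ℝ)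
  let S : (Q →ₗ[ℤ] ℝ) → ℝ := fun w => ∑ k, |b.coord k (π w)|
  have hS0 : ∀ w, 0 ≤ S w := fun w => Finset.sum_nonneg fun k _ => abs_nonneg _
  have hSsub : ∀ x y, S (x + y) ≤ S x + S y := by
    intro x y
    simp only [S, map_add]
    rw [← Finset.sum_add_distrib]
    exact Finset.sum_le_sum fun k _ => abs_add_le _ _
  have hShom : ∀ (c : ℝ) x, S (c • x) = |c| * S x := by
    intro c x
    simp only [S, map_smul, smul_eq_mul, abs_mul]
    rw [Finset.mul_sum]
  let lam : ℝ := Kc n / (n * ε)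
  have hlam : 0 < lam := by positivity
  let ρ : ℝ := 4 ^ n / lam
  have hρ : 0 < ρ := by positivity
  -- finiteness and the choice of `η`
  let F : Set (Q →ₗ[ℤ] ℤ) := {w | (∀ i, |t i (toR w)| ≤ 3 * ρ) ∧ S (toR w) ≤ ρ}
  have hdecomp : ∀ (w : Q →ₗ[ℤ] ℝ) (m : Q),
      w m = ∑ i, t i w * v i m + ∑ k, b.coord k (π w) * b k m := by
    intro w m
    have h1 : w = (∑ i, t i w • v i) + π w := by rw [hπ]; abel
    have h2 : π w = ∑ k, b.coord k (π w) • b k := (b.sum_repr (π w)).symm
    have h3 : (π w) m = ∑ k, b.coord k (π w) * b k m := by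
      have h4 := congrArg (fun f : Q →ₗ[ℤ] ℝ => f m) h2
      simp only [LinearMap.sum_apply, LinearMap.smul_apply, smul_eq_mul] at h4
      exact h4
    have h5 := congrArg (fun f : Q →ₗ[ℤ] ℝ => f m) h1
    simp only [LinearMap.sum_apply, LinearMap.smul_apply, smul_eq_mul,
      LinearMap.add_apply] at h5
    rw [h3] at h5
    exact h5
  have hFfin : F.Finite := by
    apply finite_bounded_points
    intro m
    refine ⟨∑ i, 3 * ρ * |v i m| + ∑ k, ρ * |b k m|, ?_⟩
    rintro w ⟨hw1, hw2⟩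
    rw [hdecomp (toR w) m]
    refine (abs_add_le _ _).trans (add_le_add ?_ ?_)
    · refine (Finset.abs_sum_le_sum_abs _ _).trans (Finset.sum_le_sum fun i _ => ?_)
      rw [abs_mul]
      exact mul_le_mul_of_nonneg_right (hw1 i) (abs_nonneg _)
    · refine (Finset.abs_sum_le_sum_abs _ _).trans (Finset.sum_le_sum fun k _ => ?_)
      rw [abs_mul]
      refine mul_le_mul_of_nonneg_right ?_ (abs_nonneg _)
      refine le_trans ?_ hw2
      exact Finset.single_le_sum (f := fun k => |b.coord k (π (toR w))|)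
        (fun k _ => abs_nonneg _) (Finset.mem_univ k)
  have hη : ∃ η : ℝ, 0 < η ∧ η ≤ 1 ∧ ∀ w ∈ F, S (toR w) ≤ η * ρ → S (toR w) = 0 := by
    let G : Set (Q →ₗ[ℤ] ℤ) := {w ∈ F | S (toR w) ≠ 0}
    have hG : G.Finite := hFfin.subset fun w hw => hw.1
    rcases G.eq_empty_or_nonempty with hGe | hGn
    · refine ⟨1, one_pos, le_refl _, ?_⟩
      intro w hw _
      by_contra hne
      have : w ∈ G := ⟨hw, hne⟩
      rw [hGe] at this
      exact this
    · obtain ⟨w₁, hw₁, hmin⟩ := Set.exists_min_image G (fun w => S (toR w)) hG hGn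
      have hpos : 0 < S (toR w₁) := lt_of_le_of_ne (hS0 _) (Ne.symm hw₁.2)
      refine ⟨min 1 (S (toR w₁) / (2 * ρ)), by (clear * - hpos hKpos hn hε; positivity), min_le_left _ _, ?_⟩
      intro w hw hle
      by_contra hne
      have h1 := hmin w ⟨hw, hne⟩
      have h2 : min 1 (S (toR w₁) / (2 * ρ)) * ρ ≤ (S (toR w₁) / (2 * ρ)) * ρ :=
        mul_le_mul_of_nonneg_right (min_le_right _ _) hρ.le
      have h3 : (S (toR w₁) / (2 * ρ)) * ρ = S (toR w₁) / 2 := by (clear * - hρ hpos; field_simp)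
      linarith only [hpos, hle, h1, h2, h3]
  obtain ⟨η, hη0, hη1, hηF⟩ := hη
  let p : (Q →ₗ[ℤ] ℝ) → ℝ := fun w => ∑ i, |t i w| + η⁻¹ * S w
  have hη' : 0 < η⁻¹ := inv_pos.mpr hη0
  have hpcone : ∀ w : Q →ₗ[ℤ] ℝ, (∀ a, 0 ≤ w (h a)) → p w ≤ n * ψ w := by
    intro w hw
    obtain ⟨t', ht', hw'⟩ := hx w hw
    have h1 : ∀ i, t i w = t' i := by
      intro i
      conv_lhs => rw [hw']
      simp only [map_sum, map_smul, ht, smul_eq_mul, mul_ite, mul_one, mul_zero, Finset.sum_ite_eq', Finset.mem_univ, ↓reduceIte]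
    have h2 : π w = 0 := by
      conv_lhs => rw [hw']
      simp only [map_sum, map_smul, hπv, smul_zero, Finset.sum_const_zero]
    have h3 : S w = 0 := by simp only [Basis.coord_apply, h2, map_zero, Finsupp.coe_zero, Pi.zero_apply, abs_zero, Finset.sum_const_zero, S]
    have hψ0 : 0 ≤ ψ w := (abs_nonneg _).trans (ht' ⟨0, he0⟩)
    calc p w = ∑ i, |t' i| := by simp only [h1, h3, mul_zero, add_zero, p]
      _ ≤ ∑ _i : Fin e, ψ w := Finset.sum_le_sum fun i _ => ht' i
      _ = e * ψ w := by simp only [Finset.sum_const, Finset.card_univ, Fintype.card_fin, nsmul_eq_mul]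
      _ ≤ n * ψ w := mul_le_mul_of_nonneg_right heR hψ0
  have hpneg : ∀ w, p (-w) = p w := by
    intro w
    have : S (-w) = S w := by simpa only [neg_smul, one_smul, abs_neg, abs_one, one_mul] using hShom (-1) w
    simp only [map_neg, abs_neg, this, p]
  obtain ⟨w, hw⟩ := transference n Q hndef.symm p
    (by
      intro x y
      show (∑ i, |t i (x + y)|) + η⁻¹ * S (x + y) ≤
        ((∑ i, |t i x|) + η⁻¹ * S x) + ((∑ i, |t i y|) + η⁻¹ * S y)
      have h1 : (∑ i, |t i (x + y)|) ≤ (∑ i, |t i x|) + ∑ i, |t i y| := by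
        rw [← Finset.sum_add_distrib]
        exact Finset.sum_le_sum fun i _ => by rw [map_add]; exact abs_add_le _ _
      have h2 : η⁻¹ * S (x + y) ≤ η⁻¹ * (S x + S y) := mul_le_mul_of_nonneg_left (hSsub x y) hη'.le
      linarith only [h1, h2])
    (by
      intro c x
      show (∑ i, |t i (c • x)|) + η⁻¹ * S (c • x) = |c| * ((∑ i, |t i x|) + η⁻¹ * S x)
      rw [hShom]
      simp only [map_smul, smul_eq_mul, abs_mul]
      rw [← Finset.mul_sum]
      ring)
    (by
      intro m
      refine ⟨∑ i, |v i m| + ∑ k, |b k m|, ?_⟩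
      intro w
      rw [hdecomp w m]
      have h1 : ∑ i, t i w * v i m ≤ (∑ i, |v i m|) * p w := by
        rw [Finset.sum_mul]
        refine Finset.sum_le_sum fun i _ => ?_
        have h2 : |t i w| ≤ p w := by
          have h3 : |t i w| ≤ ∑ i, |t i w| :=
            Finset.single_le_sum (f := fun i => |t i w|) (fun i _ => abs_nonneg _)
              (Finset.mem_univ i)
          have h4 : 0 ≤ η⁻¹ * S w := mul_nonneg hη'.le (hS0 w)
          show |t i w| ≤ ∑ i, |t i w| + η⁻¹ * S w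
          linarith only [h3, h4]
        calc t i w * v i m ≤ |t i w * v i m| := le_abs_self _
          _ = |v i m| * |t i w| := by rw [abs_mul]; ring
          _ ≤ |v i m| * p w := mul_le_mul_of_nonneg_left h2 (abs_nonneg _)
      have h1' : ∑ k, b.coord k (π w) * b k m ≤ (∑ k, |b k m|) * p w := by
        rw [Finset.sum_mul]
        refine Finset.sum_le_sum fun k _ => ?_
        have h2 : |b.coord k (π w)| ≤ p w := by
          have h3 : |b.coord k (π w)| ≤ S w :=
            Finset.single_le_sum (f := fun k => |b.coord k (π w)|) (fun k _ => abs_nonneg _)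
              (Finset.mem_univ k)
          have h4 : 0 ≤ ∑ i, |t i w| := Finset.sum_nonneg fun i _ => abs_nonneg _
          have h5 : S w ≤ η⁻¹ * S w := by
            have : 1 ≤ η⁻¹ := (one_le_inv₀ hη0).mpr hη1
            have := mul_le_mul_of_nonneg_right this (hS0 w)
            linarith only [this]
          show |b.coord k (π w)| ≤ ∑ i, |t i w| + η⁻¹ * S w
          linarith only [h3, h4, h5]
        calc b.coord k (π w) * b k m ≤ |b.coord k (π w) * b k m| := le_abs_self _
          _ = |b k m| * |b.coord k (π w)| := by rw [abs_mul]; ring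
          _ ≤ |b k m| * p w := mul_le_mul_of_nonneg_left h2 (abs_nonneg _)
      rw [add_mul]
      linarith only [h1, h1'])
    lam hlam
    (by
      intro m hm c hc
      obtain ⟨w, hw, hlt⟩ := hcon m hm
      have h1 : |w m| ≤ c * p w := by
        rw [abs_le]
        constructor
        · have := hc (-w)
          rw [hpneg] at this
          simp only [LinearMap.neg_apply] at this
          linarith only [this]
        · exact hc w
      have hw0 : w ≠ 0 := by
        rintro rfl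
        simp [hsub.zero] at hlt
      have hψpos := hψ w hw hw0
      have h2 := hpcone w hw
      have hc0 : 0 < c := by
        by_contra hc0
        push Not at hc0
        have h3 : 0 ≤ p w := by
          show 0 ≤ ∑ i, |t i w| + η⁻¹ * S w
          have := mul_nonneg hη'.le (hS0 w)
          have := Finset.sum_nonneg fun (i : Fin e) (_ : i ∈ Finset.univ) => abs_nonneg (t i w)
          exact add_nonneg (Finset.sum_nonneg fun i _ => abs_nonneg _) (mul_nonneg hη'.le (hS0 w))
        have h4 : c * p w ≤ 0 := mul_nonpos_of_nonpos_of_nonneg hc0 h3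
        have h5 : 0 < (Kc n / ε) * ψ w := by (clear * - hKpos hε hψpos; positivity)
        linarith only [hlt, h1, h4, h5]
      have h3 : (Kc n / ε) * ψ w < (c * n) * ψ w := by
        have := mul_le_mul_of_nonneg_left h2 hc0.le
        calc (Kc n / ε) * ψ w < |w m| := hlt
          _ ≤ c * p w := h1
          _ ≤ c * (n * ψ w) := this
          _ = (c * n) * ψ w := by ring
      have h4 : Kc n / ε < c * n := lt_of_mul_lt_mul_right h3 hψpos.le
      show Kc n / (n * ε) ≤ c
      rw [div_le_iff₀ (by positivity)]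
      rw [div_lt_iff₀ hε] at h4
      linarith only [h4])
    (∑ i, (2 * ρ) • v i)
  -- the lattice point found
  have hw' : ∑ i, |t i (toR w - ∑ i, (2 * ρ) • v i)| + η⁻¹ * S (toR w - ∑ i, (2 * ρ) • v i) ≤ ρ :=
    hw
  have hti : ∀ i, t i (toR w - ∑ i, (2 * ρ) • v i) = t i (toR w) - 2 * ρ := by
    intro i
    rw [map_sub, map_sum]
    simp only [map_smul, ht, smul_eq_mul, mul_ite, mul_one, mul_zero, Finset.sum_ite_eq', Finset.mem_univ, ↓reduceIte]
  have hSw : S (toR w - ∑ i, (2 * ρ) • v i) = S (toR w) := by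
    simp only [Basis.coord_apply, map_sub, map_sum, map_smul, hπv, smul_zero, Finset.sum_const_zero, sub_zero, S]
  rw [hSw] at hw'
  have hSnn : 0 ≤ η⁻¹ * S (toR w) := mul_nonneg hη'.le (hS0 _)
  have hsumnn : 0 ≤ ∑ i, |t i (toR w - ∑ i, (2 * ρ) • v i)| :=
    Finset.sum_nonneg fun i _ => abs_nonneg _
  have htb : ∀ i, |t i (toR w) - 2 * ρ| ≤ ρ := by
    intro i
    rw [← hti i]
    have h3 : |t i (toR w - ∑ i, (2 * ρ) • v i)| ≤ ∑ i, |t i (toR w - ∑ i, (2 * ρ) • v i)| :=
      Finset.single_le_sum (f := fun i => |t i (toR w - ∑ i, (2 * ρ) • v i)|)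
        (fun i _ => abs_nonneg _) (Finset.mem_univ i)
    linarith only [hw', hSnn, h3]
  have hSη : S (toR w) ≤ η * ρ := by
    have h3 : η⁻¹ * S (toR w) ≤ ρ := by linarith only [hw', hsumnn]
    rwa [inv_mul_le_iff₀ hη0] at h3
  have hwF : w ∈ F := by
    refine ⟨fun i => ?_, ?_⟩
    · have h3 := abs_le.mp (htb i)
      rw [abs_le]
      constructor <;> linarith only [h3]
    · refine hSη.trans ?_
      have := mul_le_mul_of_nonneg_right hη1 hρ.le
      linarith only [this]
  have hS00 := hηF w hwF hSη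
  have hπ0 : π (toR w) = 0 := by
    have h3 : ∀ k, b.coord k (π (toR w)) = 0 := by
      intro k
      have h4 := (Finset.sum_eq_zero_iff_of_nonneg
        (fun k _ => abs_nonneg (b.coord k (π (toR w))))).mp hS00 k (Finset.mem_univ k)
      exact abs_eq_zero.mp h4
    apply b.repr.injective
    ext k
    simpa only [map_zero, Finsupp.coe_zero, Pi.zero_apply, Basis.coord_apply] using h3 k
  have hwsum : toR w = ∑ i, t i (toR w) • v i := by
    have := hπ (toR w)
    rw [hπ0] at this
    exact (sub_eq_zero.mp this.symm)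
  have htpos : ∀ i, ρ ≤ t i (toR w) := by
    intro i
    have := (abs_le.mp (htb i)).1
    linarith only [this]
  have htle : ∀ i, t i (toR w) ≤ 3 * ρ := by
    intro i
    have := (abs_le.mp (htb i)).2
    linarith only [this]
  have hcone : ∀ a, 0 ≤ toR w (h a) := by
    intro a
    rw [hwsum]
    simp only [LinearMap.sum_apply, LinearMap.smul_apply, smul_eq_mul]
    exact Finset.sum_nonneg fun i _ =>
      mul_nonneg (hρ.le.trans (htpos i)) ((hv i).1 a)
  have hψw : ψ (toR w) ≤ ∑ i, t i (toR w) := by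
    conv_lhs => rw [hwsum]
    refine (hsub.sum _ _).trans (Finset.sum_le_sum fun i _ => ?_)
    rw [hsub.smul _ _ (hρ.le.trans (htpos i)), (hv i).2, mul_one]
  have hne : toR w ≠ 0 := by
    intro h0
    have h5 := htpos ⟨0, he0⟩
    rw [h0, map_zero] at h5
    linarith only [hρ, h5]
  have hge := hlc w hcone hne
  have hlt : ψ (toR w) < ε := by
    refine lt_of_le_of_lt hψw ?_
    have h5 : ∑ i, t i (toR w) ≤ ∑ _i : Fin e, 3 * ρ := Finset.sum_le_sum fun i _ => htle i
    have h6 : (∑ _i : Fin e, 3 * ρ) = e * (3 * ρ) := by simp only [Finset.sum_const, Finset.card_univ, Fintype.card_fin, nsmul_eq_mul]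
    have h7 : (e : ℝ) * (3 * ρ) ≤ n * (3 * ρ) := mul_le_mul_of_nonneg_right heR (by positivity)
    have h8 : (n : ℝ) * (3 * ρ) = (3 / 7) * ε := by
      show (n : ℝ) * (3 * (4 ^ n / (Kc n / (n * ε)))) = _
      unfold Kc
      have : (n : ℝ) ≠ 0 := by positivity
      field_simp
    have h9 : (3 / 7) * ε < ε := by linarith only [hε, h5, h6, h7, h8]
    linarith only [hε, h5, h6, h7, h8]
  linarith only [hge, hlt]


/-- Cone theorem: a cone free of small lattice points is cut down to zero by boundedly many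
lattice functionals which are bounded below by a multiple of `ψ`. -/
theorem cone_theorem (n : ℕ) : ∀ (Q : Type v) [AddCommGroup Q] [Module.Finite ℤ Q]
    {ι : Type*} (h : ι → Q) (ψ : (Q →ₗ[ℤ] ℝ) → ℝ) (_ : IsSub ψ)
    (_ : ∀ x y : Q →ₗ[ℤ] ℝ, (∀ a, 0 ≤ x (h a)) → (∀ a, 0 ≤ y (h a)) → x + y = 0 → x = 0)
    (_ : ∀ w : Q →ₗ[ℤ] ℝ, (∀ a, 0 ≤ w (h a)) → w ≠ 0 → 0 < ψ w) (ε : ℝ) (_ : 0 < ε)
    (_ : ∀ w : Q →ₗ[ℤ] ℤ, (∀ a, 0 ≤ toR w (h a)) → toR w ≠ 0 → ε ≤ ψ (toR w)),
    finrank ℝ (Q →ₗ[ℤ] ℝ) = n →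
    ∃ L : List Q, L.length = 2 * n ∧
      (∀ u ∈ L, ∀ w : Q →ₗ[ℤ] ℝ, (∀ a, 0 ≤ w (h a)) → -((Tc n / ε) * ψ w) ≤ w u) ∧
      ∀ w : Q →ₗ[ℤ] ℝ, (∀ a, 0 ≤ w (h a)) → w ≠ 0 → ∃ u ∈ L, w u < 0 := by
  induction n with
  | zero =>
    intro Q _ _ ι h ψ hsub hpt hψ ε hε hlc hn
    refine ⟨[], rfl, by simp only [List.not_mem_nil, IsEmpty.forall_iff, implies_true], ?_⟩
    intro w _ hw
    exfalso
    have : Subsingleton (Q →ₗ[ℤ] ℝ) := Module.finrank_zero_iff.mp hn
    exact hw (Subsingleton.elim _ _)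
  | succ n ih =>
    intro Q _ _ ι h ψ hsub hpt hψ ε hε hlc hn
    obtain ⟨u, hu, hub⟩ := key_lemma Q h ψ hsub hψ ε hε hlc (by omega)
    rw [hn] at hub
    let U := Submodule.span ℤ {u}
    have hn' : finrank ℝ ((Q ⧸ U) →ₗ[ℤ] ℝ) = n := by
      have := finrank_pull u hu
      change finrank ℝ ((Q ⧸ U) →ₗ[ℤ] ℝ) + 1 = _ at this
      omega
    have hpullu : ∀ w' : (Q ⧸ U) →ₗ[ℤ] ℝ, pull U w' u = 0 := by
      intro w'
      have h0 : U.mkQ u = 0 := by
        simp [U, Submodule.mem_span_singleton_self]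
      rw [pull_apply, h0, map_zero]
    have hψnn : ∀ w : Q →ₗ[ℤ] ℝ, (∀ a, 0 ≤ w (h a)) → 0 ≤ ψ w := by
      intro w hw
      by_cases hw0 : w = 0
      · subst hw0; simp [hsub.zero]
      · exact (hψ w hw hw0).le
    obtain ⟨L', hL'len, hL'b, hL'neg⟩ := ih (Q ⧸ U) (fun a => U.mkQ (h a)) (fun x => ψ (pull U x)) (hsub.comp (pull U))
      (by
        intro x y hx hy hxy
        refine pull_injective U ?_
        rw [map_zero]
        refine hpt (pull U x) (pull U y) hx hy ?_
        rw [← map_add, hxy, map_zero])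
      (by
        intro w hw hw0
        refine hψ (pull U w) hw ?_
        intro h0
        exact hw0 (pull_injective U (by rw [h0, map_zero])))
      ε hε
      (by
        intro w hw hw0
        have h1 := hlc (w ∘ₗ U.mkQ) (by intro a; rw [toR_pull]; exact hw a)
          (by
            rw [toR_pull]
            intro h0
            exact hw0 (pull_injective U (by rw [h0, map_zero])))
        rw [toR_pull] at h1
        exact h1)
      hn'
    -- lifting
    have hlift : ∀ u' : Q ⧸ U, ∃ û : Q, U.mkQ û = u' ∧ (u' ∈ L' →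
        ∀ w : Q →ₗ[ℤ] ℝ, (∀ a, 0 ≤ w (h a)) → -((Tc (n + 1) / ε) * ψ w) ≤ w û) := by
      intro u'
      obtain ⟨v, rfl⟩ := Submodule.mkQ_surjective U u'
      by_cases hv : U.mkQ v ∈ L'
      · obtain ⟨t, ht⟩ := one_constraint (fun a => evalL (h a)) ψ hsub hψ hpt (evalL u)
          (fun w => w v + (Tc n / ε) * ψ w)
          (hsub.add_linear (evalL v) (div_nonneg (Tc_nonneg n) hε.le))
          (by
            intro w hw hwu
            obtain ⟨w', rfl⟩ := exists_pull u w (by simpa only [evalL_apply] using hwu)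
            have h1 := hL'b _ hv w' (by intro a; exact hw a)
            have h2 : (Tc n / ε) * ψ (pull U w') + w' (U.mkQ v) ≥ 0 := by
              linarith only [h1]
            show 0 ≤ (pull U w') v + (Tc n / ε) * ψ (pull U w')
            rw [pull_apply]
            linarith only [h2])
          (1 / ε) (by positivity)
        let z : ℤ := round t
        have hz : |t - z| ≤ 1 / 2 := abs_sub_round t
        refine ⟨v + z • u, ?_, fun _ => ?_⟩
        · rw [map_add, map_smul]
          have h0 : U.mkQ u = 0 := by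
            simp [U, Submodule.mem_span_singleton_self]
          rw [h0, smul_zero, add_zero]
        · intro w hw
          have h1 := ht w hw
          have h2 : (evalL u) w = w u := rfl
          rw [h2] at h1
          have h3 : w (v + z • u) = w v + z * w u := by
            rw [map_add, map_smul]; simp
          rw [h3]
          have h4 : (z : ℝ) * w u = t * w u - (t - z) * w u := by ring
          have h5 : (t - z) * w u ≤ (1 / 2) * ((Kc (n + 1) / ε) * ψ w) := by
            calc (t - z) * w u ≤ |(t - z) * w u| := le_abs_self _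
              _ = |t - z| * |w u| := abs_mul _ _
              _ ≤ (1 / 2) * ((Kc (n + 1) / ε) * ψ w) :=
                mul_le_mul hz (hub w hw) (abs_nonneg _) (by norm_num)
          have h6 : (Tc (n + 1) / ε) * ψ w
              = (Tc n / ε) * ψ w + (Kc (n + 1) / ε) * ψ w + (1 / ε) * ψ w := by
            simp only [Tc]; ring
          have h7 : 0 ≤ (Kc (n + 1) / ε) * ψ w :=
            mul_nonneg (div_nonneg (Kc_nonneg _) hε.le) (hψnn w hw)
          rw [h6, h4]
          linarith only [h1, h5, h7]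
      · exact ⟨v, rfl, fun h0 => absurd h0 hv⟩
    choose F hF1 hF2 using hlift
    refine ⟨u :: (-u) :: L'.map F, ?_, ?_, ?_⟩
    · simp only [List.length_cons, List.length_map, hL'len]
      ring
    · intro x hx w hw
      have hK : |w u| ≤ (Tc (n + 1) / ε) * ψ w := by
        have h6 : (Tc (n + 1) / ε) * ψ w
            = (Kc (n + 1) / ε) * ψ w + ((Tc n + 1) / ε) * ψ w := by
          simp only [Tc]; ring
        have h7 : 0 ≤ ((Tc n + 1) / ε) * ψ w :=
          mul_nonneg (div_nonneg (by have := Tc_nonneg n; linarith only [this]) hε.le) (hψnn w hw)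
        have := hub w hw
        linarith only [h6, h7, this]
      simp only [List.mem_cons, List.mem_map] at hx
      rcases hx with rfl | rfl | ⟨y, hy, rfl⟩
      · exact (abs_le.mp hK).1
      · rw [map_neg]
        have := (abs_le.mp hK).2
        linarith only [this]
      · exact hF2 y hy w hw
    · intro w hw hw0
      rcases lt_trichotomy (w u) 0 with h1 | h1 | h1
      · exact ⟨u, by simp, h1⟩
      · obtain ⟨w', rfl⟩ := exists_pull u w h1
        have hw'0 : w' ≠ 0 := by
          rintro rfl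
          exact hw0 (map_zero _)
        obtain ⟨y, hy, hy2⟩ := hL'neg w' (by intro a; exact hw a) hw'0
        refine ⟨F y, ?_, ?_⟩
        · simp only [List.mem_cons, List.mem_map]
          exact Or.inr (Or.inr ⟨y, hy, rfl⟩)
        · rw [pull_apply]
          have : (Submodule.span ℤ {u}).mkQ (F y) = y := hF1 y
          rw [this]
          exact hy2
      · refine ⟨-u, by simp, ?_⟩
        rw [map_neg]
        linarith only [h1]


end Flatness

section Coord

variable {I : Type} [Fintype I] [DecidableEq I]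
variable (M : Submodule ℤ (I → ℤ)) (r : ℕ) (hr : 0 < r) (hM : ∀ u : I → ℤ, (r : ℤ) • u ∈ M)
  (U : Set (I → ℤ))

include hr hM in
/-- Coordinate version of the key lemma and of the cone theorem. -/
theorem coord_cone (hU : U ⊆ M) {κ : Type*} (h : κ → I → ℤ) (hh : ∀ a, h a ∈ M)
    (ψ : (I → ℝ) → ℝ) (hsub : IsSub ψ)
    (hpt : ∀ x y : I → ℝ, (∀ a, 0 ≤ dot x (h a)) → (∀ a, 0 ≤ dot y (h a)) → x + y = 0 → x = 0)
    (hψ : ∀ x ∈ perp U, (∀ a, 0 ≤ dot x (h a)) → x ≠ 0 → 0 < ψ x) (ε : ℝ) (hε : 0 < ε)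
    (hlc : ∀ x ∈ perp U, (∀ a, 0 ≤ dot x (h a)) → (∀ u ∈ M, ∃ z : ℤ, dot x u = z) → x ≠ 0 →
      ε ≤ ψ x) (n : ℕ) (hn : finrank ℝ (perp U) = n) :
    (0 < n → ∃ u ∈ M, (∃ x ∈ perp U, dot x u ≠ 0) ∧
      ∀ x ∈ perp U, (∀ a, 0 ≤ dot x (h a)) → |dot x u| ≤ (Kc n / ε) * ψ x) ∧
    ∃ L : List (I → ℤ), L.length = 2 * n ∧ (∀ u ∈ L, u ∈ M) ∧
      (∀ u ∈ L, ∀ x ∈ perp U, (∀ a, 0 ≤ dot x (h a)) → -((Tc n / ε) * ψ x) ≤ dot x u) ∧
      ∀ x ∈ perp U, (∀ a, 0 ≤ dot x (h a)) → x ≠ 0 → ∃ u ∈ L, dot x u < 0 := by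
  let e : perp U ≃ₗ[ℝ] ((M ⧸ spanIn M U) →ₗ[ℤ] ℝ) :=
    LinearEquiv.ofBijective (toPt M U) (toPt_bijective M r hr hM U hU)
  have he : ∀ (x : perp U) (m : M), e x ((spanIn M U).mkQ m) = dot (x : I → ℝ) (m : I → ℤ) :=
    fun x m => toPt_mk M U x m
  have hes : ∀ (w : (M ⧸ spanIn M U) →ₗ[ℤ] ℝ) (m : M),
      w ((spanIn M U).mkQ m) = dot ((e.symm w : perp U) : I → ℝ) (m : I → ℤ) := by
    intro w m
    rw [← he, LinearEquiv.apply_symm_apply]
  have hfin : finrank ℝ ((M ⧸ spanIn M U) →ₗ[ℤ] ℝ) = n := by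
    rw [← hn]; exact e.symm.finrank_eq
  let h' : κ → (M ⧸ spanIn M U) := fun a => (spanIn M U).mkQ ⟨h a, hh a⟩
  let ψ' : ((M ⧸ spanIn M U) →ₗ[ℤ] ℝ) → ℝ := fun w => ψ ((e.symm w : perp U) : I → ℝ)
  have hsub' : IsSub ψ' := hsub.comp ((perp U).subtype ∘ₗ e.symm.toLinearMap)
  have hψ' : ∀ w, ψ' w = ψ ((e.symm w : perp U) : I → ℝ) := fun w => rfl
  have hcone : ∀ w : (M ⧸ spanIn M U) →ₗ[ℤ] ℝ, (∀ a, 0 ≤ w (h' a)) →
      ∀ a, 0 ≤ dot ((e.symm w : perp U) : I → ℝ) (h a) := by
    intro w hw a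
    have := hw a
    rw [hes w ⟨h a, hh a⟩] at this
    exact this
  have hcone' : ∀ x : perp U, (∀ a, 0 ≤ dot (x : I → ℝ) (h a)) → ∀ a, 0 ≤ e x (h' a) := by
    intro x hx a
    have := hx a
    rw [← he x ⟨h a, hh a⟩] at this
    exact this
  have hpos : ∀ w : (M ⧸ spanIn M U) →ₗ[ℤ] ℝ, (∀ a, 0 ≤ w (h' a)) → w ≠ 0 → 0 < ψ' w := by
    intro w hw hw0
    rw [hψ']
    refine hψ _ (e.symm w).2 (hcone w hw) ?_
    intro h0
    apply hw0
    have : e.symm w = 0 := Subtype.ext h0
    simpa using this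
  have hlc' : ∀ w : (M ⧸ spanIn M U) →ₗ[ℤ] ℤ, (∀ a, 0 ≤ toR w (h' a)) → toR w ≠ 0 →
      ε ≤ ψ' (toR w) := by
    intro w hw hw0
    rw [hψ']
    refine hlc _ (e.symm (toR w)).2 (hcone _ hw) ?_ ?_
    · intro u hu
      refine ⟨w ((spanIn M U).mkQ ⟨u, hu⟩), ?_⟩
      have := hes (toR w) ⟨u, hu⟩
      rw [toR_apply] at this
      exact this.symm
    · intro h0
      apply hw0
      have : e.symm (toR w) = 0 := Subtype.ext h0
      simpa using this
  have hpt' : ∀ x y : (M ⧸ spanIn M U) →ₗ[ℤ] ℝ, (∀ a, 0 ≤ x (h' a)) → (∀ a, 0 ≤ y (h' a)) →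
      x + y = 0 → x = 0 := by
    intro x y hx hy hxy
    have h1 := hpt _ _ (hcone x hx) (hcone y hy) (by
      rw [← Submodule.coe_add, ← map_add, hxy, map_zero]; rfl)
    have h2 : e.symm x = 0 := Subtype.ext h1
    simpa using h2
  have : Module.Finite ℤ M := inferInstance
  constructor
  · intro hnpos
    obtain ⟨u', ⟨w, hw⟩, hub⟩ := key_lemma (M ⧸ spanIn M U) h' ψ' hsub' hpos ε hε hlc'
      (by rw [hfin]; exact hnpos)
    rw [hfin] at hub
    obtain ⟨u, rfl⟩ := Submodule.mkQ_surjective _ u'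
    refine ⟨u, u.2, ⟨_, (e.symm w).2, ?_⟩, ?_⟩
    · rw [← hes]; exact hw
    · intro x hx hxc
      have h1 := hub (e ⟨x, hx⟩) (hcone' ⟨x, hx⟩ hxc)
      rw [he, hψ', LinearEquiv.symm_apply_apply] at h1
      exact h1
  · obtain ⟨L, hLlen, hLb, hLneg⟩ := cone_theorem n (M ⧸ spanIn M U) h' ψ' hsub' hpt' hpos ε hε hlc' hfin
    have hsur := Submodule.mkQ_surjective (spanIn M U)
    choose F hF using hsur
    refine ⟨L.map (fun y => (F y : I → ℤ)), ?_, ?_, ?_, ?_⟩
    · rw [List.length_map, hLlen]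
    · intro u hu
      obtain ⟨y, -, rfl⟩ := List.mem_map.mp hu
      exact (F y).2
    · intro u hu x hx hxc
      obtain ⟨y, hy, rfl⟩ := List.mem_map.mp hu
      have h1 := hLb y hy (e ⟨x, hx⟩) (hcone' ⟨x, hx⟩ hxc)
      rw [hψ', LinearEquiv.symm_apply_apply] at h1
      have h2 : e ⟨x, hx⟩ y = dot x (F y : I → ℤ) := by
        have h3 := he ⟨x, hx⟩ (F y)
        rw [hF] at h3
        exact h3
      rw [h2] at h1
      exact h1
    · intro x hx hxc hx0
      obtain ⟨y, hy, hneg⟩ := hLneg (e ⟨x, hx⟩) (hcone' ⟨x, hx⟩ hxc)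
        (by
          intro h0
          apply hx0
          have : (⟨x, hx⟩ : perp U) = 0 := by simpa using h0
          exact congrArg Subtype.val this)
      refine ⟨(F y : I → ℤ), List.mem_map.mpr ⟨y, hy, rfl⟩, ?_⟩
      have h2 : e ⟨x, hx⟩ y = dot x (F y : I → ℤ) := by
        have h3 := he ⟨x, hx⟩ (F y)
        rw [hF] at h3
        exact h3
      rw [h2] at hneg
      exact hneg


end Coord

end Vale.Agent.P283.H207
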