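import Vale.Agent.P283.Setting

/-!
Contractions `f : X' → Z = Spec A` of effective pairs `(X', B')` with function field `K`, in terms
of the affine charts of `X'`; pairs `(X', B')` such that `-(K_{X'} + B')` is generated over `Z` by
monomials.
-/

namespace Vale.Agent.P283.H207

open MvPolynomial Vale.Agent.P283.Q

variable {K : Type} [Field K] [Algebra ℂ K] {d : ℕ}

/-- `(X', B')` is an effective pair with function field `K`, with a proper morphism
`f : X' → Z = Spec A`. Here `X'` is given by the coordinate rings `C ∈ 𝒞`, `A ⊆ C ⊆ K`, of its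
affine charts; the restriction of `B'` to the chart `Spec C` is `B C`; and `r (K_{X'} + B')` is
Cartier, it is the divisor of `ψ C` on the chart `Spec C`. That `f` is proper is the valuative
criterion: every prime divisor over `X'` which is nonnegative on `A` has a centre on `X'`. -/
structure IsPair (D : Fin d → Derivation ℂ K K) (A : Subalgebra ℂ K) (𝒞 : Set (Subalgebra ℂ K))
    (B : ∀ C : Subalgebra ℂ K, QDivisor C) (r : ℕ) (ψ : Subalgebra ℂ K → K) : Prop where
  le : ∀ C ∈ 𝒞, A ≤ C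
  proper : ∀ v : AddValuation K (WithTop ℤ), IsDivisorial d v → IsOver A v →
    ∃ C ∈ 𝒞, IsOver C v
  effective : ∀ C ∈ 𝒞, ∀ p, 0 ≤ (B C).coeff p
  cartier : ∀ C ∈ 𝒞, IsLocalEquation D (B C) ⊤ r (ψ C)

/-- `(X', B')` has a klt `n`-complement over `Z` (the same one over all closed points of `Z`): there
is a rational function `φ` such that the `ℚ`-divisor `Λ` on `X'` with `n (K_{X'} + Λ) = div φ`
satisfies `Λ ≥ 0` and `Λ ≥ B'`, and `(X', Λ)` is klt. The coefficient of `Λ` along the prime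
divisor `u` is `u(φ) / n - ord_u ω`, and the log discrepancy of `(X', Λ)` along a prime divisor `v`
over `X'` is `1 + ord_v ω - v(φ) / n`. -/
def HasGlobalKltComplement (D : Fin d → Derivation ℂ K K) (𝒞 : Set (Subalgebra ℂ K))
    (B : ∀ C : Subalgebra ℂ K, QDivisor C) (n : ℕ) : Prop :=
  ∃ φ : K, φ ≠ 0 ∧ ∀ C ∈ 𝒞,
    (∀ (u : AddValuation K (WithTop ℤ)) (p : Ideal C) (m k : ℤ),
      IsPrimeDivisorOn C d u p → FormOrder u D m → u φ = (k : WithTop ℤ) →
        0 ≤ (k : ℚ) / n - m ∧ (B C).coeff p ≤ (k : ℚ) / n - m) ∧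
    ∀ (v : AddValuation K (WithTop ℤ)) (m k : ℤ), IsDivisorial d v → IsOver C v →
      FormOrder v D m → v φ = (k : WithTop ℤ) → 0 < 1 + (m : ℚ) - (k : ℚ) / n

/-- The order `w(𝔞)` of the (fractional) ideal `𝔞 = ∑ᵢ 𝔪^{Mᵢ} · z₁^{E_{i1}} ⋯ z_k^{E_{ik}}`, where
`𝔪 = (z₁, …, z_k)`, in terms of the orders `y j = w(z_j)`. -/
noncomputable def ordIdeal {N k : ℕ} (M : Fin (N + 1) → ℕ) (E : Fin (N + 1) → Fin k → ℤ)
    (y : Fin k → ℤ) : ℤ :=
  ⨅ i, ((M i : ℤ) * (⨅ j, y j) + ∑ j, E i j * y j)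

/-- `-r (K_{X'} + B')` is generated over `Z` by sections whose pull-backs generate the ideal
`𝔞 = ∑ᵢ 𝔪^{Mᵢ} · z^{Eᵢ}` on `Y`: if `π' : Y' → X'` is the normalization of `X'` in `L`, then
`𝔞 · 𝒪_{Y'} = 𝒪_{Y'}(-F)` is invertible and `π'^* (r (K_{X'} + B')) = r K_Y + F`. Here `K_Y` is the
divisor of `π'^* ω = h • Ω`, that is, the divisor of `h`, where
`Ω = (x₁ ⋯ x_q)⁻¹ dx₁ ∧ ⋯ ∧ dx_q ∧ dz₁ ∧ ⋯ ∧ dz_k` generates the canonical sheaf of `Y`; the form
`π'^* ω` is given by the extension `D'` of `D` to `L`. The equality is tested along every prime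
divisor `w` over `Y'`, which lies over the prime divisor `v` over `X'` with ramification
index `e`. -/
def IsGenerated {q k N : ℕ} {L : Type} [Field L] [Algebra ℂ L] [Algebra K L]
    (x : Fin (q + 1) → L) (z : Fin k → L) (M : Fin (N + 1) → ℕ) (E : Fin (N + 1) → Fin k → ℤ)
    (D : Fin (q + k) → Derivation ℂ K K) (𝒞 : Set (Subalgebra ℂ K)) (r : ℕ)
    (ψ : Subalgebra ℂ K → K) : Prop :=
  ∀ (D' : Fin (q + k) → Derivation ℂ L L) (h : L),
    (∀ (i : Fin (q + k)) (f : K), D' i (algebraMap K L f) = algebraMap K L (D i f)) →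
    h * jac D' (Fin.append (Fin.tail x) z) = ∏ l, Fin.tail x l →
    ∀ C ∈ 𝒞, ∀ (v : AddValuation K (WithTop ℤ)) (w : AddValuation L (WithTop ℤ)) (e : ℕ)
      (l a : ℤ) (a' : Fin k → ℤ),
      IsDivisorial (q + k) v → IsOver C v →
      0 < e → (∃ f, w f = 1) → (∀ f : K, w (algebraMap K L f) = e • v f) →
      v (ψ C) = (l : WithTop ℤ) → w h = (a : WithTop ℤ) → (∀ j, w (z j) = (a' j : WithTop ℤ)) →
        (e : ℤ) * l = r * a + ordIdeal M E a'

end Vale.Agent.P283.H207
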