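import Vale.Agent.P283.H207.Defs

/-!
Finite groups of automorphisms of `L = ℂ(x₁, …, x_q, z₁, …, z_k)` with a diagonal subgroup of
bounded index.
-/

namespace Vale.Agent.P283.H207

open MvPolynomial

variable {K : Type} [Field K] [Algebra ℂ K]

/-- `Z = Spec A` has the finite cover `Y → Z`, where `Y` is the hypersurface
`x₀ x₁ ⋯ x_q = g(z_j : P j)`, and `K ⊇ A` is the field of invariants `L^G` of a finite group `G`
acting on `L = ℂ(x₁, …, x_q, z₁, …, z_k)`, the function field of the product of `Y` with an affine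
space with the coordinates `z_j`, `¬ P j`. The elements of `G` are arbitrary automorphisms of the
field `L`, but a subgroup `G₀` of index at most `J` acts on `x₀, …, x_q` and on `z₁, …, z_k` by
multiplication by constants. -/
structure IsDiagonalCover (J : ℕ) {q k : ℕ} {L : Type} [Field L] [Algebra ℂ L] [Algebra K L]
    (P : Fin k → Prop) (x : Fin (q + 1) → L) (z : Fin k → L) (g : MvPolynomial (Fin k) ℂ)
    (G : Subgroup (L ≃ₐ[ℂ] L)) (A : Subalgebra ℂ K) : Prop where
  independent : AlgebraicIndependent ℂ (Sum.elim (Fin.tail x) z)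
  generate : IntermediateField.adjoin ℂ (Set.range (Fin.tail x) ∪ Set.range z) = ⊤
  equation : ∏ i, x i = aeval z g
  nonzero : g ≠ 0
  vars : ∀ μ ∈ g.support, ∀ j, μ j ≠ 0 → P j
  finite : Finite G
  field : ∀ f : L, f ∈ Set.range (algebraMap K L) ↔ ∀ τ ∈ G, τ f = f
  diagonal : ∃ G₀ : Subgroup (L ≃ₐ[ℂ] L), G₀ ≤ G ∧ G₀.relIndex G ≤ J ∧ ∀ τ ∈ G₀,
    (∀ i, ∃ c : ℂ, τ (x i) = c • x i) ∧ ∀ j, ∃ c : ℂ, τ (z j) = c • z j
  ring : ∀ a ∈ A, algebraMap K L a ∈ Algebra.adjoin ℂ (Set.range x ∪ {y | ∃ j, P j ∧ y = z j})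
  integralX : ∀ i, IsIntegral A (x i)
  integralZ : ∀ j, P j → IsIntegral A (z j)

/-- `K = L^G` for a finite group `G` of automorphisms of `L = ℂ(x₁, …, x_q, z₁, …, z_k)`, and
`Z = Spec A`, `A ⊆ K`, has the finite cover `Y → Z`, where `Y` is the hypersurface
`x₀ x₁ ⋯ x_q = g` and `g` is a polynomial in the base coordinates `z_j`, `P j`; so `L` is the
function field of the product of `Y` with the affine space with the fibre coordinates `z_j`,
`¬ P j`. A subgroup `G₁` of index at most `J` in `G` permutes `x₀, …, x_q` up to scalars, acts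
linearly on the space spanned by the base coordinates, permutes up to scalars the base coordinates
`z_j` with `S j`, and permutes up to scalars the fibre coordinates (auxiliary version). -/
structure IsPermCover (J : ℕ) {q k : ℕ} {L : Type} [Field L] [Algebra ℂ L] [Algebra K L]
    (P S : Fin k → Prop) (x : Fin (q + 1) → L) (z : Fin k → L) (g : MvPolynomial (Fin k) ℂ)
    (G : Subgroup (L ≃ₐ[ℂ] L)) (A : Subalgebra ℂ K) : Prop where
  independent : AlgebraicIndependent ℂ (Sum.elim (Fin.tail x) z)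
  generate : IntermediateField.adjoin ℂ (Set.range (Fin.tail x) ∪ Set.range z) = ⊤
  equation : ∏ i, x i = aeval z g
  nonzero : g ≠ 0
  vars : ∀ μ ∈ g.support, ∀ j, μ j ≠ 0 → P j
  finite : Finite G
  field : ∀ f : L, f ∈ Set.range (algebraMap K L) ↔ ∀ τ ∈ G, τ f = f
  group : ∃ G₁ : Subgroup (L ≃ₐ[ℂ] L), G₁ ≤ G ∧ G₁.relIndex G ≤ J ∧ ∀ τ ∈ G₁,
    (∀ i, ∃ (i' : Fin (q + 1)) (c : ℂ), τ (x i) = c • x i') ∧
    (∀ j, P j → τ (z j) ∈ Submodule.span ℂ {y | ∃ i, P i ∧ y = z i}) ∧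
    (∀ j, P j → S j → ∃ (j' : Fin k) (c : ℂ), P j' ∧ S j' ∧ τ (z j) = c • z j') ∧
    ∀ j, ¬ P j → ∃ (j' : Fin k) (c : ℂ), ¬ P j' ∧ τ (z j) = c • z j'
  ring : ∀ a ∈ A, algebraMap K L a ∈ Algebra.adjoin ℂ (Set.range x ∪ {y | ∃ j, P j ∧ y = z j})
  integralX : ∀ i, IsIntegral A (x i)
  integralZ : ∀ j, P j → IsIntegral A (z j)

end Vale.Agent.P283.H207
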