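import Vale.Agent.P283.H207.Defs

/-!
Contractions `f : X' → Z` with fibres of any dimension, where `X'` has the function field
`ℂ(x₁, …, x_q, z₁, …, z_k)^G` for a finite group `G`, and `Z = Spec A` is a quotient of a
hypersurface `x₀ x₁ ⋯ x_q = g`.
-/

namespace Vale.Agent.P283.H207

open MvPolynomial Vale.Agent.P283.Q

variable {K : Type} [Field K] [Algebra ℂ K]

/-- `K = L^G` for a finite group `G` of automorphisms of `L = ℂ(x₁, …, x_q, z₁, …, z_k)`, and
`Z = Spec A`, `A ⊆ K`, has the finite cover `Y → Z`, where `Y` is the hypersurface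
`x₀ x₁ ⋯ x_q = g` and `g` is a polynomial in the base coordinates `z_j`, `P j`; so `L` is the
function field of the product of `Y` with the affine space with the fibre coordinates `z_j`,
`¬ P j`. A subgroup `G₁` of index at most `J` in `G` permutes `x₀, …, x_q` up to scalars, acts
linearly on the space spanned by the base coordinates, permutes up to scalars the base coordinates
`z_j` with `S j`, and maps every fibre coordinate to a scalar multiple of a Laurent monomial in the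
fibre coordinates and the base coordinates `z_i` with `S i`. -/
structure IsCover (J : ℕ) {q k : ℕ} {L : Type} [Field L] [Algebra ℂ L] [Algebra K L]
    (P S : Fin k → Prop) (x : Fin (q + 1) → L) (z : Fin k → L) (g : MvPolynomial (Fin k) ℂ)
    (G : Subgroup (L ≃ₐ[ℂ] L)) (A : Subalgebra ℂ K) : Prop where
  independent : AlgebraicIndependent ℂ (Sum.elim (Fin.tail x) z)
  generate : IntermediateField.adjoin ℂ (Set.range (Fin.tail x) ∪ Set.range z) = ⊤
  equation : ∏ i, x i = aeval z g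
  nonzero : g ≠ 0
  vars : ∀ μ ∈ g.support, ∀ j, μ j ≠ 0 → P j
  finite : Finite G
  field : ∀ f : L, f ∈ Set.range (algebraMap K L) ↔ ∀ τ ∈ G, τ f = f
  group : ∃ G₁ : Subgroup (L ≃ₐ[ℂ] L), G₁ ≤ G ∧ G₁.relIndex G ≤ J ∧ ∀ τ ∈ G₁,
    (∀ i, ∃ (i' : Fin (q + 1)) (c : ℂ), τ (x i) = c • x i') ∧
    (∀ j, P j → τ (z j) ∈ Submodule.span ℂ {y | ∃ i, P i ∧ y = z i}) ∧
    (∀ j, P j → S j → ∃ (j' : Fin k) (c : ℂ), P j' ∧ S j' ∧ τ (z j) = c • z j') ∧
    ∀ j, ¬ P j → ∃ (u : Fin k → ℤ) (c : ℂ), (∀ i, u i ≠ 0 → P i → S i) ∧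
      τ (z j) = c • ∏ i, z i ^ u i
  ring : ∀ a ∈ A, algebraMap K L a ∈ Algebra.adjoin ℂ (Set.range x ∪ {y | ∃ j, P j ∧ y = z j})
  integralX : ∀ i, IsIntegral A (x i)
  integralZ : ∀ j, P j → IsIntegral A (z j)

/-- The order `w(𝔞)` of the (fractional) ideal `𝔞 = ∑ᵢ 𝔪^{Mᵢ} · z₁^{E_{i1}} ⋯ z_k^{E_{ik}}`, where
`𝔪` is generated by the base coordinates `z_j`, `P j`, in terms of the orders `y j = w(z_j)`. -/
noncomputable def ordIdealP {N k : ℕ} (P : Fin k → Prop) (M : Fin (N + 1) → ℕ)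
    (E : Fin (N + 1) → Fin k → ℤ) (y : Fin k → ℤ) : ℤ :=
  ⨅ i, ((M i : ℤ) * (⨅ j : {j // P j}, y j.1) + ∑ j, E i j * y j)

/-- `-r (K_{X'} + B')` is generated over `Z` by sections whose pull-backs generate the
(fractional) ideal `𝔞 = ∑ᵢ 𝔪^{Mᵢ} · z^{Eᵢ}`: if `π' : Y' → X'` is the normalization of `X'` in `L`,
then `𝔞 · 𝒪_{Y'} = 𝒪_{Y'}(-F)` is invertible and `π'^* (r (K_{X'} + B')) = r H + F`. Here `H` is
the divisor of `h`, where `π'^* ω = h • Ω`,
`Ω = (x₁ ⋯ x_q)⁻¹ dx₁ ∧ ⋯ ∧ dx_q ∧ dz₁ ∧ ⋯ ∧ dz_k`; the form `π'^* ω` is given by the extension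
`D'` of `D` to `L`. The equality is tested along every prime divisor `w` over `Y'`, which lies over
the prime divisor `v` over `X'` with ramification index `e`. -/
def IsGeneratedP {q k N : ℕ} {L : Type} [Field L] [Algebra ℂ L] [Algebra K L]
    (P : Fin k → Prop) (x : Fin (q + 1) → L) (z : Fin k → L) (M : Fin (N + 1) → ℕ)
    (E : Fin (N + 1) → Fin k → ℤ) (D : Fin (q + k) → Derivation ℂ K K)
    (𝒞 : Set (Subalgebra ℂ K)) (r : ℕ) (ψ : Subalgebra ℂ K → K) : Prop :=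
  ∀ (D' : Fin (q + k) → Derivation ℂ L L) (h : L),
    (∀ (i : Fin (q + k)) (f : K), D' i (algebraMap K L f) = algebraMap K L (D i f)) →
    h * jac D' (Fin.append (Fin.tail x) z) = ∏ l, Fin.tail x l →
    ∀ C ∈ 𝒞, ∀ (v : AddValuation K (WithTop ℤ)) (w : AddValuation L (WithTop ℤ)) (e : ℕ)
      (l a : ℤ) (a' : Fin k → ℤ),
      IsDivisorial (q + k) v → IsOver C v →
      0 < e → (∃ f, w f = 1) → (∀ f : K, w (algebraMap K L f) = e • v f) →
      v (ψ C) = (l : WithTop ℤ) → w h = (a : WithTop ℤ) → (∀ j, w (z j) = (a' j : WithTop ℤ)) →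
        (e : ℤ) * l = r * a + ordIdealP P M E a'

end Vale.Agent.P283.H207
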