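import Vale.Agent.P283.H207.Family

/-!
The engine for a log discrepancy function which is a maximum of finitely many linear functions.
-/

attribute [-instance] ProperSMul.toContinuousSMul IsTopologicalTorsor.toContinuousSMul IdemSemiring.toCanonicallyOrderedAdd IdemSemiring.toMulLeftMono IdemSemiring.toMulRightMono AddQuantale.instAddLeftMono AddQuantale.instAddRightMono Quantale.instMulLeftMono Quantale.instMulRightMono FiniteDimensional.rclike_to_real IsScalarTower.complexToReal FiniteDimensional.complexToReal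

set_option linter.all false
set_option linter.style.haveILetI false

namespace Vale.Agent.P283.H207

open scoped KaehlerDifferential
open MvPolynomial Finset

section

variable {q k J : ℕ} {K L : Type} [Field K] [Field L] [Algebra ℂ K] [Algebra ℂ L]
    [Algebra K L] [IsScalarTower ℂ K L] {t : Fin q ⊕ Fin k → L} {g : MvPolynomial (Fin k) ℂ}
    {x0 : L} {G G0 : Subgroup (L ≃ₐ[ℂ] L)} {A : Subalgebra ℂ K}
    (H : EngineData q k J t g x0 G G0 A)
    {ω : ⋀[K]^(q + k) (Ω[K⁄ℂ])} {h : L}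
include H

theorem psi_bound (hd : 0 < q + k) {ε : ℝ} (hε : 0 < ε) (hω : ω ≠ 0) (hh : h ≠ 0)
    (hpull : IsPullback ω (h • logForm t)) {ι : Type} [Fintype ι] [Nonempty ι]
    (c : ι → Fin k → ℚ)
    (hlc : ∀ (v : AddValuation K (WithTop ℤ)) (w : AddValuation L (WithTop ℤ)) (e : ℕ) (m : ℤ),
      IsDivisorial (q + k) v → IsOver A v → FormOrder (q + k) v ω m → 0 < e → (∃ f, w f = 1) →
      (∀ f : K, w (algebraMap K L f) = e • v f) →
      (e : ℝ) * ε ≤ e * (1 + m) - ov w h + PsiF c fun j => (ov w (t (Sum.inr j)) : ℝ))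
    (x : Fin q ⊕ Fin k → ℝ) (hx : InCone (supp g) x)
    (hxM : ∀ u ∈ invLattice t H.coords.ne_zero G0, ∃ z : ℤ, ∑ i, x i * u i = z) (hx0 : x ≠ 0) :
    ε ≤ PsiF c fun j => x (Sum.inr j) := by
  classical
  haveI := H.isAlgebraic
  haveI := H.essL
  haveI := H.essK
  haveI := H.finDim
  haveI : Finite G := H.fin
  haveI : Finite G0 := Set.Finite.subset (Set.toFinite (G : Set (L ≃ₐ[ℂ] L))) H.le
  haveI : CharZero K := charZero_of_injective_algebraMap (algebraMap ℂ K).injective
  set r0 := Nat.card G0 with hr0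
  have hr0pos : 0 < r0 := Nat.card_pos
  -- the integral weight vector
  have hxi : ∀ i, ∃ a : ℕ, (a : ℝ) = r0 * x i := by
    intro i
    obtain ⟨z, hz⟩ := hxM _ (H.card_smul_mem (Pi.single i 1))
    have h1 : ∑ j, x j * (((r0 : ℤ) • (Pi.single i 1 : Fin q ⊕ Fin k → ℤ)) j : ℤ) = r0 * x i := by
      rw [Finset.sum_eq_single i]
      · simp [mul_comm]
      · intro j _ hj
        simp [Pi.single_eq_of_ne hj]
      · simp only [mem_univ, not_true_eq_false, Pi.smul_apply, Pi.single_eq_same, Int.zsmul_eq_mul, mul_one, Int.cast_natCast, mul_eq_zero, Nat.cast_eq_zero, IsEmpty.forall_iff]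
    have h2 : (z : ℝ) = r0 * x i := by rw [← hz, ← h1]
    have h3 : 0 ≤ (z : ℝ) := by
      rw [h2]
      exact mul_nonneg (by positivity) (hx.1 i)
    have h4 : 0 ≤ z := by exact_mod_cast h3
    obtain ⟨a, rfl⟩ := Int.eq_ofNat_of_zero_le h4
    exact ⟨a, by exact_mod_cast h2⟩
  choose a ha using hxi
  have ha0 : a ≠ 0 := by
    intro h0
    apply hx0
    ext i
    have h1 := ha i
    rw [h0] at h1
    simp only [Pi.zero_apply, Nat.cast_zero, zero_eq_mul] at h1
    rcases h1 with h1 | h1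
    · exact absurd (by exact_mod_cast h1) hr0pos.ne'
    · simpa using h1
  obtain ⟨w, g', hg', hw, hwΩ, hwp⟩ := exists_monomial_on hd H.coords a ha0
  obtain ⟨v, e, he, hv, hvw⟩ := exists_restriction (K := K) (q + k) w hw
  -- values of the coordinates
  have hwt : ∀ i, (g' : ℤ) * ov w (t i) = a i := by
    intro i
    obtain ⟨m, hm, h1, -⟩ := hwp (X i) (X_ne_zero i)
    rw [aeval_X] at h1
    rw [support_X, Finset.mem_singleton] at hm
    rw [h1, hm, Finset.sum_eq_single i]
    · simp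
    · intro j _ hj
      simp [Ne.symm hj]
    · simp only [mem_univ, not_true_eq_false, Finsupp.single_eq_same, Nat.cast_one, mul_one, Int.natCast_eq_zero, IsEmpty.forall_iff]
  have hwt0 : ∀ i, 0 ≤ ov w (t i) := by
    intro i
    have h1 := hwt i
    have h2 : (0 : ℤ) < g' := by exact_mod_cast hg'
    by_contra hcon
    push Not at hcon
    have : (g' : ℤ) * ov w (t i) < 0 := mul_neg_of_pos_of_neg h2 hcon
    omega
  have hwx0 : 0 ≤ ov w x0 := by
    have hgr0 : rename (Sum.inr : Fin k → Fin q ⊕ Fin k) g ≠ 0 := by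
      intro h
      exact H.g_ne (rename_injective _ Sum.inr_injective (by rw [h, map_zero]))
    obtain ⟨m, hm, h1, -⟩ := hwp (rename Sum.inr g) hgr0
    rw [← aeval_inr, ← H.x0_eq, ov_mul w H.x0_ne (Finset.prod_ne_zero_iff.2 fun l _ =>
      H.coords.ne_zero _), ov_prod _ _ fun l _ => H.coords.ne_zero _, mul_add, Finset.mul_sum] at h1
    simp only [hwt] at h1
    rw [support_rename_of_injective Sum.inr_injective] at hm
    obtain ⟨n, hn, rfl⟩ := Finset.mem_image.1 hm
    rw [Fintype.sum_sum_type] at h1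
    have h3 : ∀ l : Fin q, (Finsupp.mapDomain (Sum.inr : Fin k → Fin q ⊕ Fin k) n) (Sum.inl l)
        = 0 := by
      intro l
      apply Finsupp.mapDomain_of_notMem_range
      simp only [Set.mem_range, reduceCtorEq, exists_false, not_false_eq_true]
    simp only [h3, Finsupp.mapDomain_apply Sum.inr_injective] at h1
    have h4 := hx.2 (n : Fin k → ℕ) (Finset.mem_image_of_mem _ hn)
    unfold mdot at h4
    have h5 : (r0 : ℝ) * ∑ l, x (Sum.inl l) ≤ (r0 : ℝ) * ∑ j, (n j : ℝ) * x (Sum.inr j) :=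
      mul_le_mul_of_nonneg_left h4 (by positivity)
    rw [Finset.mul_sum, Finset.mul_sum] at h5
    have h6 : ∑ l, (a (Sum.inl l) : ℝ) ≤ ∑ j, (n j : ℝ) * (a (Sum.inr j) : ℝ) := by
      refine le_trans (le_of_eq ?_) (h5.trans (le_of_eq ?_))
      · exact Finset.sum_congr rfl fun l _ => ha _
      · refine Finset.sum_congr rfl fun j _ => ?_
        rw [ha]; ring
    have h7 : ∑ l, (a (Sum.inl l) : ℤ) ≤ ∑ j, (n j : ℤ) * (a (Sum.inr j) : ℤ) := by exact_mod_cast h6
    have h8 : ∑ j, (a (Sum.inr j) : ℤ) * (n j : ℤ) = ∑ j, (n j : ℤ) * (a (Sum.inr j) : ℤ) :=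
      Finset.sum_congr rfl fun j _ => mul_comm _ _
    simp only [Nat.cast_zero, mul_zero, Finset.sum_const_zero, zero_add, h8] at h1
    have h9 : 0 ≤ (g' : ℤ) * ov w x0 := by omega
    have h10 : (0 : ℤ) < g' := by exact_mod_cast hg'
    by_contra hcon
    push Not at hcon
    have : (g' : ℤ) * ov w x0 < 0 := mul_neg_of_pos_of_neg h10 hcon
    omega
  -- `v` has a centre on `X`
  have hover : IsOver A v := by
    intro a'
    have h1 : 0 ≤ w (algebraMap K L a') := by
      refine (fun (y : L) (hy : y ∈ Algebra.adjoin ℂ (insert x0 (Set.range t))) => ?_ :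
        ∀ y ∈ Algebra.adjoin ℂ (insert x0 (Set.range t)), 0 ≤ w y) _ (H.sub a' a'.2)
      induction hy using Algebra.adjoin_induction with
      | mem y hy =>
        rcases hy with rfl | ⟨i, rfl⟩
        · exact (nonneg_iff w H.x0_ne).2 hwx0
        · exact (nonneg_iff w (H.coords.ne_zero i)).2 (hwt0 i)
      | algebraMap r =>
        by_cases hr : r = 0
        · rw [hr]; simp
        · rw [hw.const r hr]
      | add y z _ _ hy hz => exact nonneg_add w hy hz
      | mul y z _ _ hy hz => exact nonneg_mul w hy hz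
    rw [hvw] at h1
    by_cases ha' : (a' : K) = 0
    · rw [ha']; simp
    · rw [← coe_ov v ha', ← WithTop.coe_nsmul] at h1
      rw [nonneg_iff v ha']
      have h2 : (0 : ℤ) ≤ e • ov v a' := by exact_mod_cast h1
      rw [nsmul_eq_mul] at h2
      by_contra hcon
      push Not at hcon
      have h3 : (0 : ℤ) < e := by exact_mod_cast he
      have : (e : ℤ) * ov v a' < 0 := mul_neg_of_pos_of_neg h3 hcon
      omega
  obtain ⟨m, hm⟩ := formOrder_exists hd H.trdegK hv hω
  have hdisc := hlc v w e m hv hover hm he hw.normalized hvw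
  -- compute the log discrepancy
  have h1 := formOrder_transfer hd H.trdegK H.trdegL hv hw.normalized he hvw hpull hm
  have h2 := formOrder_smul' hd H.trdegL hw hwΩ hh
  have h3 := formOrder_unique h1 h2
  have h5 : (e : ℝ) * (1 + m) = ov w h := by
    have h6 : (e : ℤ) * (1 + m) = ov w h := by linarith only [h3]
    exact_mod_cast h6
  rw [h5, sub_self, zero_add] at hdisc
  have hge : (g' : ℝ) * (PsiF c fun j => (ov w (t (Sum.inr j)) : ℝ))
      = r0 * PsiF c fun j => x (Sum.inr j) := by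
    rw [← (isSub_PsiF c).smul _ _ (by positivity : (0 : ℝ) ≤ g'),
      ← (isSub_PsiF c).smul _ _ (by positivity : (0 : ℝ) ≤ r0)]
    congr 1
    ext j
    simp only [Pi.smul_apply, smul_eq_mul]
    rw [← ha]
    exact_mod_cast hwt (Sum.inr j)
  -- divisibility of the ramification index
  have hdiv : (r0 : ℤ) ∣ g' * e := by
    obtain ⟨f, hf⟩ := hv.normalized
    obtain ⟨b, hb, b', hb', hb'0, rfl⟩ := H.frac f
    have hb0 : b ≠ 0 := by
      rintro rfl
      rw [zero_div, AddValuation.map_zero] at hf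
      exact absurd hf (by simp)
    have hval' : ∀ y ∈ A, y ≠ 0 → (r0 : ℤ) ∣ g' * (e * ov v y) := by
      intro y hy hy0
      have hy0' : algebraMap K L y ≠ 0 := (map_ne_zero _).2 hy0
      obtain ⟨u, hu, h5⟩ := H.lattice_value (w := w) (a := a) (g' := g')
        (fun p hp => by
          obtain ⟨m, hm, h6, -⟩ := hwp p hp
          exact ⟨m, hm, h6⟩) (H.sub y hy) hy0'
        (fun τ hτ => (H.fix _).2 ⟨y, rfl⟩ τ (H.le hτ))
      obtain ⟨z, hz⟩ := hxM u hu
      have h6 : ov w (algebraMap K L y) = e * ov v y := by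
        apply ov_eq_of
        rw [hvw, ← coe_ov v hy0, ← WithTop.coe_nsmul]
        simp
      rw [← h6, h5]
      refine ⟨z, ?_⟩
      have h7 : ((∑ i, (a i : ℤ) * u i : ℤ) : ℝ) = ((r0 * z : ℤ) : ℝ) := by
        push_cast
        rw [← hz, Finset.mul_sum]
        apply Finset.sum_congr rfl
        intro i _
        rw [ha]; ring
      exact_mod_cast h7
    have h5 := hval' b hb hb0
    have h6 := hval' b' hb' hb'0
    have h7 : ov v (b / b') = 1 := ov_eq_of v (n := 1) (by simpa only [AddValuation.map_div, WithTop.coe_one] using hf)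
    rw [ov_div v hb0 hb'0] at h7
    have h8 := dvd_sub h5 h6
    have h9 : (g' : ℤ) * (e * ov v b) - g' * (e * ov v b') = g' * e := by
      rw [← mul_sub, ← mul_sub, h7]; ring
    rwa [h9] at h8
  have hle : (r0 : ℤ) ≤ g' * e := Int.le_of_dvd (by (clear * - hg' he; positivity)) hdiv
  -- conclusion
  have hleR : (r0 : ℝ) ≤ g' * e := by exact_mod_cast hle
  have h7 : (0 : ℝ) < r0 := by exact_mod_cast hr0pos
  have h8 : (g' : ℝ) * (e * ε) ≤ g' * PsiF c fun j => (ov w (t (Sum.inr j)) : ℝ) :=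
    mul_le_mul_of_nonneg_left hdisc (by positivity)
  rw [hge] at h8
  have h9 : (r0 : ℝ) * ε ≤ g' * e * ε := mul_le_mul_of_nonneg_right hleR hε.le
  refine le_of_mul_le_mul_left (h9.trans ?_) h7
  linarith only [h8]

end

/-- The lower bound for a section used for effectivity. -/
theorem phi_lower {q k J : ℕ} {K L : Type} [Field K] [Field L] [Algebra ℂ K] [Algebra ℂ L]
    [Algebra K L] [IsScalarTower ℂ K L] {t : Fin q ⊕ Fin k → L} {g : MvPolynomial (Fin k) ℂ}
    {x0 : L} {G G0 : Subgroup (L ≃ₐ[ℂ] L)} {A : Subalgebra ℂ K}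
    (H : EngineData q k J t g x0 G G0 A) {w : AddValuation L (WithTop ℤ)}
    (h1 : ∀ i, 0 ≤ ov w (t i)) (h0 : 0 ≤ ov w x0) {σ : ℝ} (hσ0 : 0 ≤ σ)
    {s : ℕ × (Fin q ⊕ Fin k → ℤ)} (hs1 : ∀ l, 0 ≤ s.2 (Sum.inl l))
    (hs2 : -σ ≤ ∑ j, (s.2 (Sum.inr j) : ℝ) * ov w (t (Sum.inr j))) (hne : 1 + phi t x0 s ≠ 0) :
    -σ ≤ ((ov w (1 + phi t x0 s) : ℤ) : ℝ) := by
  have hφ0 := phi_ne_zero H.coords H.x0_ne s
  have h2 : -σ ≤ ((ov w (phi t x0 s) : ℤ) : ℝ) := by
    rw [ov_phi H.coords H.x0_ne, Fintype.sum_sum_type]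
    push_cast
    have h3 : 0 ≤ (s.1 : ℝ) * ov w x0 := mul_nonneg (by (clear * -; positivity)) (by exact_mod_cast h0)
    have h4 : 0 ≤ ∑ l, (s.2 (Sum.inl l) : ℝ) * ov w (t (Sum.inl l)) :=
      Finset.sum_nonneg fun l _ => mul_nonneg (by exact_mod_cast hs1 l) (by exact_mod_cast h1 _)
    linarith only [h3, h4, hs2]
  have h3 : min 0 (ov w (phi t x0 s)) ≤ ov w (1 + phi t x0 s) := by
    have h4 := AddValuation.map_add w 1 (phi t x0 s)
    rw [AddValuation.map_one, ← coe_ov w hφ0, ← coe_ov w hne] at h4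
    exact_mod_cast h4
  have h4 : ((min 0 (ov w (phi t x0 s)) : ℤ) : ℝ) ≤ ((ov w (1 + phi t x0 s) : ℤ) : ℝ) := by
    exact_mod_cast h3
  refine le_trans ?_ h4
  push_cast
  exact le_min (by linarith only [hσ0]) h2

/-- **The engine.** -/
theorem engine (q k : ℕ) (hd : 0 < q + k) (J : ℕ) : ∃ c₀ : ℕ, 0 < c₀ ∧ ∀ ε : ℝ, 0 < ε →
    ∀ N : ℕ, (c₀ : ℝ) * (1 + 1 / ε) ≤ N →
    ∀ (K L : Type) [Field K] [Field L] [Algebra ℂ K] [Algebra ℂ L] [Algebra K L]
      [IsScalarTower ℂ K L] (t : Fin q ⊕ Fin k → L) (g : MvPolynomial (Fin k) ℂ) (x0 : L)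
      (G G0 : Subgroup (L ≃ₐ[ℂ] L)) (A : Subalgebra ℂ K), EngineData q k J t g x0 G G0 A →
    ∀ (ω : ⋀[K]^(q + k) (Ω[K⁄ℂ])) (h : L), ω ≠ 0 → h ≠ 0 → IsPullback ω (h • logForm t) →
      (∀ τ ∈ G0, τ h = h) →
    ∀ (ι : Type) [Fintype ι] [Nonempty ι] (c : ι → Fin k → ℚ),
      (∀ (v : AddValuation K (WithTop ℤ)) (w w' : AddValuation L (WithTop ℤ)) (e : ℕ),
        IsDivisorial (q + k) v → IsOver A v → 0 < e → (∃ f, w f = 1) → (∃ f, w' f = 1) →
        (∀ f : K, w (algebraMap K L f) = e • v f) → (∀ f : K, w' (algebraMap K L f) = e • v f) →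
        (ov w h : ℝ) - (PsiF c fun j => (ov w (t (Sum.inr j)) : ℝ))
          = ov w' h - PsiF c fun j => (ov w' (t (Sum.inr j)) : ℝ)) →
      (∀ (v : AddValuation K (WithTop ℤ)) (w : AddValuation L (WithTop ℤ)) (e : ℕ) (m : ℤ),
        IsDivisorial (q + k) v → IsOver A v → FormOrder (q + k) v ω m → 0 < e → (∃ f, w f = 1) →
        (∀ f : K, w (algebraMap K L f) = e • v f) →
        (e : ℝ) * ε ≤ e * (1 + m) - ov w h + PsiF c fun j => (ov w (t (Sum.inr j)) : ℝ)) →
      ∃ φ : K, φ ≠ 0 ∧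
        (∀ (v : AddValuation K (WithTop ℤ)) (w : AddValuation L (WithTop ℤ)) (e : ℕ),
          IsDivisorial (q + k) v → IsOver A v → 0 < e → (∃ f, w f = 1) →
          (∀ f : K, w (algebraMap K L f) = e • v f) →
          ((N * J.factorial : ℕ) : ℝ) * ((ov w h : ℝ)
            - PsiF c fun j => (ov w (t (Sum.inr j)) : ℝ)) ≤ e * ov v φ) ∧
        (∀ (v : AddValuation K (WithTop ℤ)) (m : ℤ), IsDivisorial (q + k) v → IsOver A v →
          FormOrder (q + k) v ω m → ov v φ < (N * J.factorial : ℕ) * (1 + m)) := by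
  classical
  obtain ⟨C, hC0, hC⟩ := sections_exist q k
  obtain ⟨N0, hN0⟩ := exists_nat_ge (2 * ((q : ℝ) + k) * C)
  refine ⟨2 * (q + k) + 1 + N0, by omega, ?_⟩
  intro ε hε N hN K L _ _ _ _ _ _ t g x0 G G0 A H ω h hω hh hpull hhG ι _ _ c hκ hlc
  have hε1 : 0 < 1 / ε := by positivity
  -- the two lower bounds of `N`
  have hN1 : (2 * ((q : ℤ) + k)) < N := by
    have h1 : ((2 * (q + k) + 1 + N0 : ℕ) : ℝ) * 1 ≤ N := by
      refine le_trans (mul_le_mul_of_nonneg_left ?_ (by positivity)) hN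
      linarith
    have h2 : 2 * (q + k) + 1 + N0 ≤ N := by
      rw [mul_one] at h1
      exact_mod_cast h1
    omega
  have hN2 : 2 * ((q : ℝ) + k) * (C / ε) ≤ N := by
    have h1 : ((2 * (q + k) + 1 + N0 : ℕ) : ℝ) * (1 / ε) ≤ N := by
      refine le_trans (mul_le_mul_of_nonneg_left ?_ (by positivity)) hN
      linarith
    have h2 : 2 * ((q : ℝ) + k) * C * (1 / ε) ≤ ((2 * (q + k) + 1 + N0 : ℕ) : ℝ) * (1 / ε) := by
      refine mul_le_mul_of_nonneg_right ?_ hε1.le
      push_cast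
      have h3 : (0 : ℝ) ≤ 2 * (q + k) + 1 := by positivity
      linarith
    calc 2 * ((q : ℝ) + k) * (C / ε) = 2 * ((q : ℝ) + k) * C * (1 / ε) := by ring
      _ ≤ _ := h2.trans h1
  haveI := H.isAlgebraic
  haveI := H.essL
  haveI := H.essK
  haveI := H.finDim
  haveI : Finite G := H.fin
  haveI : Finite G0 := Set.Finite.subset (Set.toFinite (G : Set (L ≃ₐ[ℂ] L))) H.le
  haveI : CharZero K := charZero_of_injective_algebraMap (algebraMap ℂ K).injective
  have ht0 := H.coords.ne_zero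
  have hr0 : 0 < Nat.card G0 := Nat.card_pos
  have hSne : (supp g).Nonempty := by
    obtain ⟨n, hn⟩ := support_nonempty.2 H.g_ne
    exact ⟨_, Finset.mem_image_of_mem _ hn⟩
  have hpsi := psi_bound H hd hε hω hh hpull c hlc
  -- positivity of the log discrepancy function
  obtain ⟨Kb, hKb0, hKb⟩ := PsiF_bound c
  have hpos : ∀ y : Fin k → ℝ, (∀ j, 0 ≤ y j) → y ≠ 0 → 0 < PsiF c y := by
    refine fun y hy hy0 => pos_of_lattice (PsiF c) (isSub_PsiF c) Kb hKb0 hKb ε hε ?_ y hy hy0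
    intro a ha
    have h1 := hpsi (Sum.elim (fun _ => 0) fun j => (a j : ℝ)) ?_ ?_ ?_
    · exact h1
    · refine ⟨?_, ?_⟩
      · rintro (l | j)
        · exact le_rfl
        · simp only [Sum.elim_inr]; positivity
      · intro μ _
        simp only [Sum.elim_inl, Finset.sum_const_zero]
        exact Finset.sum_nonneg fun j _ => by simp only [Sum.elim_inr]; positivity
    · intro u _
      refine ⟨∑ j, (a j : ℤ) * u (Sum.inr j), ?_⟩
      rw [Fintype.sum_sum_type]
      simp only [Sum.elim_inl, zero_mul, Finset.sum_const_zero, zero_add, Sum.elim_inr]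
      push_cast
      rfl
    · intro h0
      apply ha
      ext j
      have h2 := congrFun h0 (Sum.inr j)
      simp only [Sum.elim_inr, Pi.zero_apply] at h2
      exact_mod_cast h2
  have hnn : ∀ y : Fin k → ℝ, (∀ j, 0 ≤ y j) → 0 ≤ PsiF c y := by
    intro y hy
    by_cases hy0 : y = 0
    · rw [hy0, (isSub_PsiF c).zero]
    · exact (hpos y hy hy0).le
  obtain ⟨Ls, hLlen, hL1, hL2⟩ := hC ε hε (invLattice t ht0 G0) (Nat.card G0) hr0
    (fun u => H.card_smul_mem u) (supp g) hSne H.supp_mem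
    (fun x => PsiF c fun j => x (Sum.inr j))
    ((isSub_PsiF c).comp (LinearMap.funLeft ℝ ℝ (Sum.inr : Fin k → Fin q ⊕ Fin k)))
    (fun x y hxy => by
      have : (fun j => x (Sum.inr j)) = fun j => y (Sum.inr j) := funext hxy
      simp only [this])
    (fun x hx1 hx2 hx0 => hpos _ hx2 (by
      intro h0
      apply hx0
      ext i
      rcases i with l | j
      · exact hx1 l
      · exact congrFun h0 j)) hpsi
  have hLs : ∀ s ∈ Ls, s.1 = 0 ∨ ∃ l, s.2 (Sum.inl l) = 0 := fun s hs => (hL1 s hs).2.1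
  have hne : ∀ s ∈ Ls, 1 + phi t x0 s ≠ 0 := fun s hs => one_add_phi_ne_zero H (hLs s hs)
  let Q : L := (Ls.map fun s => 1 + phi t x0 s).prod
  have hQ0 : Q ≠ 0 := list_prod_ne_zero Ls _ hne
  let F : L := h ^ N * Q
  have hF0 : F ≠ 0 := mul_ne_zero (pow_ne_zero _ hh) hQ0
  have hFinv : ∀ τ ∈ G0, τ F = F := by
    intro τ hτ
    simp only [F, map_mul, map_pow, hhG τ hτ]
    congr 1
    apply map_list_prod'
    intro s hs
    rw [map_add, map_one, H.phi_inv s (hL1 s hs).2.2.1 τ hτ]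
  have hFov : ∀ w : AddValuation L (WithTop ℤ),
      ov w F = N * ov w h + (Ls.map fun s => ov w (1 + phi t x0 s)).sum := by
    intro w
    simp only [F]
    rw [ov_mul w (pow_ne_zero _ hh) hQ0, ov_pow w hh]
    congr 1
    exact ov_list_prod w Ls _ hne
  obtain ⟨φ, hφ0, hφ⟩ := H.exists_norm F hFinv hF0
  -- common facts on the twisted valuations
  have htw : ∀ (v : AddValuation K (WithTop ℤ)) (w : AddValuation L (WithTop ℤ)) (e : ℕ),
      IsOver A v → (∀ f : K, w (algebraMap K L f) = e • v f) →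
      ∀ τ ∈ G, (∀ i, 0 ≤ (w.comap (τ : L →+* L)) (t i)) ∧ 0 ≤ (w.comap (τ : L →+* L)) x0 := by
    intro v w e hover hvw τ hτ
    have hnn : ∀ a ∈ A, 0 ≤ (w.comap (τ : L →+* L)) (algebraMap K L a) := by
      intro a ha
      rw [H.twist hvw hτ]
      exact nsmul_nonneg (hover ⟨a, ha⟩) e
    exact ⟨fun i => nonneg_of_integral hnn (H.int i), nonneg_of_integral hnn H.int0⟩
  refine ⟨φ, hφ0, ?_, ?_⟩
  · -- effectivity
    intro v w e hv hover he hw1 hvw
    set κ : ℝ := (ov w h : ℝ) - PsiF c fun j => (ov w (t (Sum.inr j)) : ℝ) with hκdef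
    have hb : ∀ τ ∈ G, ⌈(N : ℝ) * κ⌉ ≤ ov w (τ F) := by
      intro τ hτ
      rw [Int.ceil_le]
      set w1 := w.comap (τ : L →+* L) with hw1def
      have hκ1 : κ = (ov w1 h : ℝ) - PsiF c fun j => (ov w1 (t (Sum.inr j)) : ℝ) :=
        hκ v w w1 e hv hover he hw1 (comap_normalized hw1 τ) hvw (fun f => H.twist hvw hτ f)
      obtain ⟨h1, h0⟩ := htw v w e hover hvw τ hτ
      have h1' : ∀ i, 0 ≤ ov w1 (t i) := fun i => (nonneg_iff w1 (ht0 i)).1 (h1 i)
      have h0' : 0 ≤ ov w1 x0 := (nonneg_iff w1 H.x0_ne).1 h0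
      have h2 : ov w (τ F) = ov w1 F := rfl
      rw [h2, hFov]
      set σ : ℝ := PsiF c fun j => (ov w1 (t (Sum.inr j)) : ℝ) with hσ
      have hσ0 : 0 ≤ σ := hnn _ fun j => by exact_mod_cast h1' _
      have hCε : 0 ≤ C / ε := div_nonneg hC0 hε.le
      have h3 := list_sum_ge Ls (fun s => ov w1 (1 + phi t x0 s)) (-(C / ε * σ)) fun s hs =>
        phi_lower H h1' h0' (mul_nonneg hCε hσ0) (hL1 s hs).1
          ((hL1 s hs).2.2.2 (fun j => (ov w1 (t (Sum.inr j)) : ℝ)) fun j => by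
            exact_mod_cast h1' (Sum.inr j)) (hne s hs)
      rw [hLlen] at h3
      have h5 : (2 * ((q : ℝ) + k) * (C / ε)) * σ ≤ N * σ :=
        mul_le_mul_of_nonneg_right hN2 hσ0
      rw [hκ1]
      rw [Int.cast_add, Int.cast_mul]
      push_cast at h3 ⊢
      nlinarith only [h5, h3]
    have h1 := (hφ w v e hvw).1 _ hb
    have h2 : (J.factorial : ℝ) * (⌈(N : ℝ) * κ⌉ : ℝ) ≤ e * ov v φ := by exact_mod_cast h1
    refine le_trans ?_ h2
    calc ((N * J.factorial : ℕ) : ℝ) * κ = (J.factorial : ℝ) * ((N : ℝ) * κ) := by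
          push_cast; ring
      _ ≤ _ := mul_le_mul_of_nonneg_left (Int.le_ceil _) (by positivity)
  · -- the complement is klt
    intro v m hv hover hm
    obtain ⟨w, e, he, hw1, hvw⟩ := exists_extension (L := L) v hv.normalized
    have heQ : (0 : ℚ) < e := by exact_mod_cast he
    have hb : ∀ τ ∈ G, ov w (τ F) < N * (e * (1 + m)) := by
      intro τ hτ
      set w1 := w.comap (τ : L →+* L) with hw1def
      have hw1n := comap_normalized hw1 τ
      have hvw1 : ∀ f : K, w1 (algebraMap K L f) = e • v f := fun f => H.twist hvw hτ f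
      have hdiv := isDivisorial_of_ext hv hw1n hvw1
      obtain ⟨h1, h0⟩ := htw v w e hover hvw τ hτ
      have hf := formOrder_transfer hd H.trdegK H.trdegL hv hw1n he hvw1 hpull hm
      have hf2 := formOrder_smul' hd H.trdegL hdiv hf (inv_ne_zero hh)
      rw [smul_smul, inv_mul_cancel₀ hh, one_smul, ov_inv] at hf2
      have hcore := (core_positivity hd H.coords H.g_ne H.x0_eq hdiv h1 h0 hf2 Ls hLlen hLs hL2
        (N : ℤ) hN1).2
      have h2 : ov w (τ F) = ov w1 F := rfl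
      rw [h2, hFov]
      have h3 : (N : ℤ) * (e * (1 + m) - 1 + -ov w1 h + 1) = N * (e * (1 + m)) - N * ov w1 h := by
        ring
      rw [h3] at hcore
      linarith only [hcore]
    have h1 := (hφ w v e hvw).2 _ hb
    have h4 : (e : ℤ) * ov v φ < e * ((N * J.factorial : ℕ) * (1 + m)) := by
      refine lt_of_lt_of_le h1 (le_of_eq ?_)
      push_cast; ring
    exact lt_of_mul_lt_mul_left h4 (by exact_mod_cast he.le)

end Vale.Agent.P283.H207
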