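import Vale.Agent.P283.H207.Trans
import Vale.Agent.P283.H207.DefsJ
import Vale.Agent.P283.H207.DefsP
import Vale.Agent.P283.H329.FEngine

/-!
Bounded klt complements for contractions of arbitrary relative dimension, for groups with a
diagonal subgroup of bounded index.
-/

attribute [-instance] ProperSMul.toContinuousSMul IsTopologicalTorsor.toContinuousSMul IdemSemiring.toCanonicallyOrderedAdd IdemSemiring.toMulLeftMono IdemSemiring.toMulRightMono AddQuantale.instAddLeftMono AddQuantale.instAddRightMono Quantale.instMulLeftMono Quantale.instMulRightMono FiniteDimensional.rclike_to_real IsScalarTower.complexToReal FiniteDimensional.complexToReal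

set_option linter.all false
set_option linter.style.haveILetI false

namespace Vale.Agent.P283.H207

open scoped KaehlerDifferential
open MvPolynomial Finset F329

section Basic

variable {q k J : ℕ} {K L : Type} [Field K] [Field L] [Algebra ℂ K] [Algebra ℂ L] [Algebra K L]
  {P : Fin k → Prop} {x : Fin (q + 1) → L} {z : Fin k → L} {g : MvPolynomial (Fin k) ℂ}
  {G : Subgroup (L ≃ₐ[ℂ] L)} {A : Subalgebra ℂ K}

theorem IsDiagonalCover.coords (H : IsDiagonalCover J P x z g G A) : IsCoords (Abs.cT x z) where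
  ind := H.independent
  gen := by
    intro f
    show ∃ p r : MvPolynomial (Fin q ⊕ Fin k) ℂ, r ≠ 0 ∧
      f = aeval (Sum.elim (Fin.tail x) z) p / aeval (Sum.elim (Fin.tail x) z) r
    have h1 : f ∈ IntermediateField.adjoin ℂ (Set.range (Sum.elim (Fin.tail x) z)) := by
      rw [Set.Sum.elim_range, H.generate]; trivial
    obtain ⟨r, hr, s, hs, rfl⟩ := IntermediateField.mem_adjoin_iff_div.1 h1
    rw [Algebra.adjoin_range_eq_range_aeval] at hr hs
    obtain ⟨p, rfl⟩ := hr
    obtain ⟨p', rfl⟩ := hs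
    by_cases h : p' = 0
    · subst h
      exact ⟨0, 1, one_ne_zero, by simp only [AlgHom.toRingHom_eq_coe, RingHom.coe_coe, map_zero, div_zero, map_one, div_one]⟩
    · exact ⟨p, p', h, rfl⟩

/-- `L` is algebraic over the invariants of a finite group. -/
theorem isAlgebraic_of_fixed (hfin : Finite G)
    (hfield : ∀ f : L, f ∈ Set.range (algebraMap K L) ↔ ∀ τ ∈ G, τ f = f) :
    Algebra.IsAlgebraic K L := by
  classical
  have : Fintype G := Fintype.ofFinite G
  constructor
  intro f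
  let P : Polynomial L := ∏ τ : G, (Polynomial.X - Polynomial.C ((τ : L ≃ₐ[ℂ] L) f))
  have hP : ∀ n, P.coeff n ∈ Set.range (algebraMap K L) := by
    intro n
    rw [hfield]
    intro σ hσ
    have h1 : P.map (σ : L →+* L) = P := by
      simp only [P]
      rw [Polynomial.map_prod]
      refine Fintype.prod_equiv (Equiv.mulLeft (⟨σ, hσ⟩ : G)) _ _ fun τ => ?_
      rw [Polynomial.map_sub, Polynomial.map_X, Polynomial.map_C]
      rfl
    have h2 := congrArg (fun p => Polynomial.coeff p n) h1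
    simp only [Polynomial.coeff_map] at h2
    exact h2
  have hmon : P.Monic := Polynomial.monic_prod_of_monic _ _ fun τ _ => Polynomial.monic_X_sub_C _
  obtain ⟨Q, hQ1, -, hQ2⟩ := Polynomial.lifts_and_natDegree_eq_and_monic
    ((Polynomial.lifts_iff_coeff_lifts P).2 hP) hmon
  refine ⟨Q, hQ2.ne_zero, ?_⟩
  rw [Polynomial.aeval_def, ← Polynomial.eval_map, hQ1]
  simp only [P]
  rw [Polynomial.eval_prod]
  refine Finset.prod_eq_zero (Finset.mem_univ (1 : G)) ?_
  simp

/-- the canonical form and the logarithmic form -/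
theorem omY_eq_log (hc : IsCoords (Abs.cT x z)) :
    Abs.omY x z = (∏ j, z j) • logForm (Abs.cT x z) := by
  classical
  have hx : ∀ l, Fin.tail x l ≠ 0 := fun l => hc.ne_zero (Sum.inl l)
  have hz : ∀ j, z j ≠ 0 := fun j => hc.ne_zero (Sum.inr j)
  have h3 : logForm (Abs.cT x z) = (∏ i, Abs.cT x z i)⁻¹ • wedgeS (Abs.cT x z) := by
    unfold logForm dlogForm wedgeS
    congr 2
    rw [← Equiv.prod_comp (finSumFinEquiv (m := q) (n := k)).symm (Abs.cT x z)]
    rfl
  have h4 : Abs.omY x z = (∏ l, Fin.tail x l)⁻¹ • wedgeS (Abs.cT x z) := by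
    unfold Abs.omY wedgeS
    rw [Abs.cT_comp]
  have hx' : ∏ l, Fin.tail x l ≠ 0 := Finset.prod_ne_zero_iff.mpr fun l _ => hx l
  have hz' : ∏ j, z j ≠ 0 := Finset.prod_ne_zero_iff.mpr fun j _ => hz j
  have h5 : ∏ l : Fin q, x l.succ = ∏ l, Fin.tail x l := rfl
  rw [h3, h4, Fintype.prod_sum_type, smul_smul]
  congr 1
  simp only [Abs.cT_inl, Abs.cT_inr]
  rw [h5]
  field_simp

/-- the pull-back of a form -/
theorem exists_pull [IsScalarTower ℂ K L] (halg : Algebra.IsAlgebraic K L)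
    (hc : IsCoords (Abs.cT x z)) (ω : ⋀[K]^(q + k) (Ω[K⁄ℂ])) (hω : ω ≠ 0) :
    ∃ F : L, F ≠ 0 ∧ IsPullback ω (F • Abs.omY x z) := by
  classical
  have htr : Algebra.trdeg ℂ L = ((q + k : ℕ) : Cardinal) := by
    rw [hc.trdeg_eq]; simp only [Fintype.card_sum, Fintype.card_fin, Nat.cast_add]
  obtain ⟨a, β, ha, hne⟩ := gen_pullback halg htr ω hω
  obtain ⟨B, hB⟩ := exists_kaehler_basis _ hc.isTranscendenceBasis
  have hx : ∀ l, Fin.tail x l ≠ 0 := fun l => hc.ne_zero (Sum.inl l)
  have hx' : ∏ l, Fin.tail x l ≠ 0 := Finset.prod_ne_zero_iff.mpr fun l _ => hx l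
  let β' : Fin (q + k) → L := fun i => algebraMap K L (β i)
  have h1 := wedgeS_det B hB (fun i => β' (finSumFinEquiv i))
  have h2 : wedgeS (fun i : Fin q ⊕ Fin k => β' (finSumFinEquiv i)) = wedgeD (q + k) β' := by
    unfold wedgeS
    congr 1
    funext i
    simp
  have h3 : wedgeS (Abs.cT x z) = (∏ l, Fin.tail x l) • Abs.omY x z := by
    unfold Abs.omY wedgeS
    rw [Abs.cT_comp, smul_smul, mul_inv_cancel₀ hx', one_smul]
  have h4 : (algebraMap K L a * ((Matrix.of fun i j => pd B j (β' (finSumFinEquiv i))).det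
      * ∏ l, Fin.tail x l)) • Abs.omY x z = algebraMap K L a • wedgeD (q + k) β' := by
    rw [← h2, h1, h3, smul_smul, smul_smul, mul_assoc]
  refine ⟨_, ?_, ⟨a, β, ha, h4⟩⟩
  intro h0
  rw [h0, zero_smul] at h4
  exact hne h4.symm

end Basic

lemma ordIdealP_le {N k : ℕ} (P : Fin k → Prop) (M : Fin (N + 1) → ℕ)
    (E : Fin (N + 1) → Fin k → ℤ) (y : Fin k → ℤ) (i : Fin (N + 1)) :
    ordIdealP P M E y ≤ (M i : ℤ) * (⨅ j : {j // P j}, y j.1) + ∑ j, E i j * y j :=
  ciInf_le (Set.finite_range _).bddBelow i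

lemma exists_ordIdealP {N k : ℕ} (P : Fin k → Prop) (M : Fin (N + 1) → ℕ)
    (E : Fin (N + 1) → Fin k → ℤ) (y : Fin k → ℤ) :
    ∃ i, ordIdealP P M E y = (M i : ℤ) * (⨅ j : {j // P j}, y j.1) + ∑ j, E i j * y j := by
  obtain ⟨i, hi⟩ := exists_eq_ciInf_of_finite
    (f := fun i => (M i : ℤ) * (⨅ j : {j // P j}, y j.1) + ∑ j, E i j * y j)
  exact ⟨i, hi.symm⟩

/-- the log discrepancy function of a monomial ideal -/
theorem exists_familyP {N k : ℕ} (P : Fin k → Prop) (M : Fin (N + 1) → ℕ)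
    (E : Fin (N + 1) → Fin k → ℤ) (r : ℕ) (hr : 0 < r) :
    ∃ (ι : Type) (_ : Fintype ι) (_ : Nonempty ι) (c : ι → Fin k → ℚ),
      ∀ y : Fin k → ℤ, (PsiF c fun j => (y j : ℝ))
        = (∑ j, (y j : ℝ)) - (ordIdealP P M E y : ℝ) / r := by
  classical
  have hrR : (r : ℝ) ≠ 0 := by positivity
  rcases isEmpty_or_nonempty {j // P j} with hk | hk
  · let c : Fin (N + 1) → Fin k → ℚ := fun p j => 1 - (E p j : ℚ) / r
    refine ⟨Fin (N + 1), inferInstance, inferInstance, c, ?_⟩
    intro y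
    have h0 : (⨅ j : {j // P j}, y j.1) = 0 := by
      have h1 : (⨅ j : {j // P j}, y j.1) = sInf ∅ := by
        unfold iInf
        congr 1
        exact Set.range_eq_empty _
      rw [h1, Int.csInf_empty]
    have hc : ∀ p : Fin (N + 1), ∑ j, (c p j : ℝ) * (y j : ℝ)
        = (∑ j, (y j : ℝ)) - (∑ j, (E p j : ℝ) * y j) / r := by
      intro p
      have h1 : ∀ j, (c p j : ℝ) * (y j : ℝ) = (y j : ℝ) - ((E p j : ℝ) * y j) / r := by
        intro j
        simp only [c]
        push_cast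
        ring
      rw [Finset.sum_congr rfl fun j _ => h1 j, Finset.sum_sub_distrib, ← Finset.sum_div]
    apply le_antisymm
    · obtain ⟨p, hp⟩ := exists_PsiF c fun j => (y j : ℝ)
      rw [hp, hc]
      have h1 := ordIdealP_le P M E y p
      rw [h0, mul_zero, zero_add] at h1
      have h5 : (ordIdealP P M E y : ℝ) ≤ ∑ j, (E p j : ℝ) * y j := by
        exact_mod_cast h1
      have h6 := div_le_div_of_nonneg_right h5 (by positivity : (0 : ℝ) ≤ r)
      linarith
    · obtain ⟨i, hi⟩ := exists_ordIdealP P M E y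
      rw [h0, mul_zero, zero_add] at hi
      have h1 := le_PsiF c (fun j => (y j : ℝ)) i
      rw [hc] at h1
      refine le_trans (le_of_eq ?_) h1
      rw [hi]
      push_cast
      rfl
  · let c : Fin (N + 1) × {j // P j} → Fin k → ℚ := fun p j =>
      1 - ((E p.1 j : ℚ) + (M p.1 : ℚ) * (if j = p.2.1 then 1 else 0)) / r
    refine ⟨Fin (N + 1) × {j // P j}, inferInstance, inferInstance, c, ?_⟩
    intro y
    have hc : ∀ p : Fin (N + 1) × {j // P j}, ∑ j, (c p j : ℝ) * (y j : ℝ)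
        = (∑ j, (y j : ℝ)) - ((M p.1 : ℝ) * y p.2.1 + ∑ j, (E p.1 j : ℝ) * y j) / r := by
      intro p
      have h1 : ∀ j, (c p j : ℝ) * (y j : ℝ) = (y j : ℝ) - ((E p.1 j : ℝ) * y j) / r
          - ((M p.1 : ℝ) * (if j = p.2.1 then (y j : ℝ) else 0)) / r := by
        intro j
        simp only [c]
        push_cast
        split_ifs <;> ring
      rw [Finset.sum_congr rfl fun j _ => h1 j, Finset.sum_sub_distrib, Finset.sum_sub_distrib,
        ← Finset.sum_div, ← Finset.sum_div, ← Finset.mul_sum]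
      simp only [Finset.sum_ite_eq', Finset.mem_univ, if_true]
      ring
    apply le_antisymm
    · obtain ⟨p, hp⟩ := exists_PsiF c fun j => (y j : ℝ)
      rw [hp, hc]
      have h1 := ordIdealP_le P M E y p.1
      have h2 : (⨅ j : {j // P j}, y j.1) ≤ y p.2.1 :=
        ciInf_le (f := fun j : {j // P j} => y j.1) (Set.finite_range _).bddBelow p.2
      have h3 : (M p.1 : ℤ) * (⨅ j : {j // P j}, y j.1) ≤ (M p.1 : ℤ) * y p.2.1 :=
        mul_le_mul_of_nonneg_left h2 (by positivity)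
      have h4 : ordIdealP P M E y ≤ (M p.1 : ℤ) * y p.2.1 + ∑ j, E p.1 j * y j := by linarith
      have h5 : (ordIdealP P M E y : ℝ) ≤ (M p.1 : ℝ) * y p.2.1 + ∑ j, (E p.1 j : ℝ) * y j := by
        exact_mod_cast h4
      have h6 := div_le_div_of_nonneg_right h5 (by positivity : (0 : ℝ) ≤ r)
      linarith
    · obtain ⟨i, hi⟩ := exists_ordIdealP P M E y
      obtain ⟨j0, hj0⟩ := exists_eq_ciInf_of_finite (f := fun j : {j // P j} => y j.1)
      have h1 := le_PsiF c (fun j => (y j : ℝ)) (i, j0)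
      rw [hc] at h1
      refine le_trans (le_of_eq ?_) h1
      rw [hi, ← hj0]
      push_cast
      rfl

/-- The order of `r (K_{X'} + B')` along `w`. -/
noncomputable def kapP {q k N : ℕ} {L : Type} [Field L] [Algebra ℂ L] (P : Fin k → Prop)
    (z : Fin k → L) (F₀ : L) (M : Fin (N + 1) → ℕ) (E : Fin (N + 1) → Fin k → ℤ) (r : ℕ)
    (w : AddValuation L (WithTop ℤ)) : ℤ :=
  r * ov w F₀ + ordIdealP P M E fun j => ov w (z j)

theorem main_diag_qk (q k J : ℕ) (hd : 0 < q + k) : ∃ c₀ : ℕ, 0 < c₀ ∧ ∀ ε : ℝ, 0 < ε →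
    ∀ n : ℕ, c₀ ∣ n → (c₀ : ℝ) * (1 + 1 / ε) ≤ n →
    ∀ (K L : Type) [Field K] [Field L] [Algebra ℂ K] [Algebra ℂ L]
      [Algebra K L] [IsScalarTower ℂ K L] (P : Fin k → Prop) (x : Fin (q + 1) → L)
      (z : Fin k → L) (g : MvPolynomial (Fin k) ℂ) (G : Subgroup (L ≃ₐ[ℂ] L))
      (A : Subalgebra ℂ K), IsDiagonalCover J P x z g G A →
    ∀ D : Fin (q + k) → Derivation ℂ K K, (∃ f, Q.jac D f ≠ 0) →
    ∀ (𝒞 : Set (Subalgebra ℂ K)) (B : ∀ C : Subalgebra ℂ K, Q.QDivisor C) (r : ℕ)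
      (ψ : Subalgebra ℂ K → K), IsPair D A 𝒞 B r ψ →
    ∀ (N : ℕ) (M : Fin (N + 1) → ℕ) (E : Fin (N + 1) → Fin k → ℤ),
      IsGeneratedP P x z M E D 𝒞 r ψ →
      (∀ C ∈ 𝒞, Q.IsEpsLC D (B C) ε) → HasGlobalKltComplement D 𝒞 B n := by
  classical
  obtain ⟨c₁, hc₁pos, heng⟩ := engineP q k hd J
  refine ⟨c₁ * J.factorial, Nat.mul_pos hc₁pos (Nat.factorial_pos J), ?_⟩
  intro ε hε n hn hn' K L _ _ _ _ _ _ P x z g G A H D hD 𝒞 B r ψ hP N M E hgen hlc
  -- positivity of `n`
  have hnpos : (0 : ℝ) < n := by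
    refine lt_of_lt_of_le ?_ hn'
    have : (0 : ℝ) < (c₁ * J.factorial : ℕ) := by
      exact_mod_cast Nat.mul_pos hc₁pos (Nat.factorial_pos J)
    positivity
  obtain ⟨m', rfl⟩ := hn
  have hJR : (0 : ℝ) < (c₁ * J.factorial : ℕ) := by
    exact_mod_cast Nat.mul_pos hc₁pos (Nat.factorial_pos J)
  have hm' : 1 + 1 / ε ≤ (m' : ℝ) := by
    rw [Nat.cast_mul (c₁ * J.factorial) m'] at hn'
    exact le_of_mul_le_mul_left hn' hJR
  have hN : (c₁ : ℝ) * (1 + 1 / ε) ≤ ((c₁ * m' : ℕ) : ℝ) := by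
    rw [Nat.cast_mul]
    exact mul_le_mul_of_nonneg_left hm' (by positivity)
  have hnn : c₁ * m' * J.factorial = c₁ * J.factorial * m' := by ring
  set n : ℕ := c₁ * J.factorial * m' with hndef
  have hcoords := H.coords
  have halg : Algebra.IsAlgebraic K L := isAlgebraic_of_fixed H.finite H.field
  have htr : Algebra.trdeg ℂ L = ((q + k : ℕ) : Cardinal) := by
    rw [hcoords.trdeg_eq]; simp only [Fintype.card_sum, Fintype.card_fin, Nat.cast_add]
  obtain ⟨b0, hb0, hb0'⟩ := exists_common_basis (K := K) (L := L) htr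
  obtain ⟨BK, hBK⟩ := exists_kaehler_basis b0 hb0
  obtain ⟨BL, hBL⟩ := exists_kaehler_basis _ hb0'
  obtain ⟨-, hω, hDω⟩ := wedgeD_eq_jac BK hBK D hD
  have hx : ∀ l, Fin.tail x l ≠ 0 := fun l => hcoords.ne_zero (Sum.inl l)
  have hz : ∀ j, z j ≠ 0 := fun j => hcoords.ne_zero (Sum.inr j)
  obtain ⟨F₀, hF₀, hpull⟩ := exists_pull halg hcoords _ hω
  obtain ⟨D', hD', hh⟩ := exists_ext_of_pullback x z hx BK hBK BL hBL hω hDω F₀ hpull
  have hgen' := hgen D' F₀ hD' hh
  have hψ : ∀ C ∈ 𝒞, ψ C ≠ 0 := fun C hC => (hP.cartier C hC).2.1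
  -- everything is over some chart
  by_cases hne : 𝒞.Nonempty
  swap
  · rw [Set.not_nonempty_iff_eq_empty] at hne
    subst hne
    exact ⟨1, one_ne_zero, fun C hC => absurd hC (Set.notMem_empty C)⟩
  have hr : 0 < r := by
    obtain ⟨C, hC⟩ := hne
    exact (hP.cartier C hC).1
  have hrR : (0 : ℝ) < r := by exact_mod_cast hr
  have hkap : ∀ C ∈ 𝒞, ∀ (v : AddValuation K (WithTop ℤ)) (w : AddValuation L (WithTop ℤ)) (e : ℕ),
      IsDivisorial (q + k) v → Q.IsOver C v → 0 < e → (∃ f, w f = 1) →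
      (∀ f : K, w (algebraMap K L f) = e • v f) →
      (e : ℤ) * ov v (ψ C) = kapP (q := q) P z F₀ M E r w := by
    intro C hC v w e hv hover he hw hvw
    exact hgen' C hC v w e (ov v (ψ C)) (ov w F₀) (fun j => ov w (z j)) (divisorial_iff.2 hv)
      hover he hw hvw (coe_ov v (hψ C hC)).symm (coe_ov w hF₀).symm
      (fun j => (coe_ov w (hz j)).symm)
  -- the form
  let h : L := F₀ * ∏ j, z j
  have hprodz : ∏ j, z j ≠ 0 := Finset.prod_ne_zero_iff.mpr fun j _ => hz j
  have hh0 : h ≠ 0 := mul_ne_zero hF₀ hprodz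
  have hpull' : IsPullback ((Q.jac D b0)⁻¹ • wedgeD (q + k) b0) (h • logForm (Abs.cT x z)) := by
    have : h • logForm (Abs.cT x z) = F₀ • Abs.omY x z := by
      rw [omY_eq_log hcoords, smul_smul]
    rw [this]
    exact hpull
  obtain ⟨G₀, hle, hidx, hdiag⟩ := H.diagonal
  have hinv : ∀ τ ∈ G₀, τ h = h := by
    intro τ hτ
    refine h_invariant (Abs.cT x z) hcoords τ
      (fun f => (H.field _).mp ⟨f, rfl⟩ τ (hle hτ)) ?_ _ h hpull'
    rintro (l | j)
    · exact (hdiag τ hτ).1 l.succ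
    · exact (hdiag τ hτ).2 j
  have hdata : EngineDataP q k J P (Abs.cT x z) g (x 0) G G₀ A :=
    { coords := hcoords
      g_ne := H.nonzero
      g_supp := by
        intro μ hμ j hj
        by_contra h0
        exact hj (H.vars μ hμ j h0)
      x0_eq := by
        have h1 := H.equation
        rw [Fin.prod_univ_succ] at h1
        exact h1
      fin := H.finite
      fix := fun f => (H.field f).symm
      le := hle
      index := hidx
      diag := by
        rintro τ hτ (l | j)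
        · exact (hdiag τ hτ).1 l.succ
        · exact (hdiag τ hτ).2 j
      diag0 := fun τ hτ => (hdiag τ hτ).1 0
      sub := by
        intro a ha
        have h1 : Algebra.adjoin ℂ (Set.range x ∪ {y | ∃ j, P j ∧ y = z j})
            ≤ Algebra.adjoin ℂ (insert (x 0) (Set.range (fun l => Abs.cT x z (Sum.inl l))
              ∪ {y | ∃ j, P j ∧ y = Abs.cT x z (Sum.inr j)})) := by
          rw [Algebra.adjoin_le_iff]
          rintro y (⟨i, rfl⟩ | hy)
          · refine Fin.cases ?_ (fun l => ?_) i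
            · exact Algebra.subset_adjoin (Set.mem_insert _ _)
            · exact Algebra.subset_adjoin (Set.mem_insert_of_mem _ (Or.inl ⟨l, rfl⟩))
          · exact Algebra.subset_adjoin (Set.mem_insert_of_mem _ (Or.inr hy))
        exact h1 (H.ring a ha)
      int0 := H.integralX 0
      intl := fun l => H.integralX l.succ
      intj := fun j hj => H.integralZ j hj }
  obtain ⟨ι, _, _, c, hc⟩ := exists_familyP P M E r hr
  -- the order of `K + B` in terms of the family
  have key : ∀ w : AddValuation L (WithTop ℤ),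
      (ov w h : ℝ) - (PsiF c fun j => (ov w (Abs.cT x z (Sum.inr j)) : ℝ))
        = (kapP (q := q) P z F₀ M E r w : ℝ) / r := by
    intro w
    have h2 : ov w h = ov w F₀ + ∑ j, ov w (z j) := by
      show ov w (F₀ * ∏ j, z j) = _
      rw [ov_mul w hF₀ hprodz, ov_prod Finset.univ z (fun j _ => hz j)]
    have h4 := hc fun j => ov w (z j)
    show (ov w h : ℝ) - (PsiF c fun j => (ov w (z j) : ℝ)) = _
    rw [h4, h2]
    unfold kapP
    push_cast
    field_simp
    ring
  obtain ⟨φ, hφ0, hφ1, hφ2⟩ := heng ε hε (c₁ * m') hN K L P (Abs.cT x z) g (x 0) G G₀ A hdata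
    _ h hω hh0 hpull' hinv ι c
    (by
      intro v w w' e hv hover he hw hw' hvw hvw'
      obtain ⟨C, hC, hC'⟩ := hP.proper v (divisorial_iff.2 hv) hover
      rw [key w, key w', ← hkap C hC v w e hv hC' he hw hvw,
        ← hkap C hC v w' e hv hC' he hw' hvw'])
    (by
      intro v w e m hv hover hm he hw hvw
      obtain ⟨C, hC, hC'⟩ := hP.proper v (divisorial_iff.2 hv) hover
      have h1 := (hlc C hC).2 v (centreIdeal C v hC') r (ψ C) m (ov v (ψ C))
        (divisorial_iff.2 hv) hC' (fun a => Iff.rfl)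
        ⟨hr, hψ C hC, fun u p m' k' hu _ hm' hk' =>
          (hP.cartier C hC).2.2 u p m' k' hu le_top hm' hk'⟩
        ((formOrder_iff_jac hω hDω).2 hm) (coe_ov v (hψ C hC)).symm
      have heR : (0 : ℝ) < e := by exact_mod_cast he
      have h2 := mul_le_mul_of_nonneg_left h1 heR.le
      have h3 := key w
      have h4 : (e : ℝ) * (1 + (m : ℝ) - (ov v (ψ C) : ℝ) / r)
          = e * (1 + m) - (kapP (q := q) P z F₀ M E r w : ℝ) / r := by
        rw [← hkap C hC v w e hv hC' he hw hvw]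
        push_cast
        field_simp
      rw [h4] at h2
      linarith only [h2, h3])
  rw [hnn] at hφ1 hφ2
  refine ⟨φ, hφ0, ?_⟩
  intro C hC
  haveI : CharZero K := charZero_of_injective_algebraMap (algebraMap ℂ K).injective
  haveI : FiniteDimensional K L := by
    haveI : Algebra.EssFiniteType ℂ L := hcoords.essFiniteType
    haveI : Algebra.EssFiniteType K L := Algebra.EssFiniteType.of_comp ℂ K L
    exact Algebra.finite_of_essFiniteType_of_isAlgebraic
  have hnQ : (0 : ℚ) < n := by exact_mod_cast hnpos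
  refine ⟨?_, ?_⟩
  · intro u p m k' hu hm hk'
    have hover : Q.IsOver A u := fun a => hu.2.1 ⟨a, hP.le C hC a.2⟩
    obtain ⟨w, e, he, hw1, hvw⟩ := exists_extension (L := L) u hu.1.normalized
    have h1 := hφ1 u w e (divisorial_iff.1 hu.1) hover he hw1 hvw
    rw [key w, ← hkap C hC u w e (divisorial_iff.1 hu.1) hu.2.1 he hw1 hvw, ov_eq_of u hk'] at h1
    have h2 := (hP.cartier C hC).2.2 u p m (ov u (ψ C)) hu le_top hm (coe_ov u (hψ C hC)).symm
    have h3 := hP.effective C hC p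
    have heR : (0 : ℝ) < e := by exact_mod_cast he
    have h4 : ((m : ℝ) + ((B C).coeff p : ℚ)) * n ≤ k' := by
      have h5 : (ov u (ψ C) : ℝ) = r * (m + ((B C).coeff p : ℚ)) := by exact_mod_cast h2
      have h6 : (e : ℝ) * (((m : ℝ) + ((B C).coeff p : ℚ)) * n) ≤ e * k' := by
        refine le_trans (le_of_eq ?_) h1
        push_cast
        rw [h5]
        field_simp
      exact le_of_mul_le_mul_left h6 heR
    have h7 : ((m : ℚ) + (B C).coeff p) * n ≤ k' := by exact_mod_cast h4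
    have h8 : (m : ℚ) + (B C).coeff p ≤ (k' : ℚ) / n := by
      rw [le_div_iff₀ hnQ]; exact h7
    constructor <;> linarith only [h3, h8]
  · intro v m k' hv hover hm hk'
    have h1 := hφ2 v m (divisorial_iff.1 hv) (fun a => hover ⟨a, hP.le C hC a.2⟩)
      ((formOrder_iff_jac hω hDω).1 hm)
    rw [ov_eq_of v hk'] at h1
    have h2 : (k' : ℚ) < n * (1 + m) := by exact_mod_cast h1
    have h3 : (k' : ℚ) / n < 1 + m := by
      rw [div_lt_iff₀ hnQ]; linarith only [h2]
    linarith only [h3]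

end Vale.Agent.P283.H207
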