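import Vale.Agent.P283.H207.Sections

/-!
Log discrepancy functions which are the maximum of finitely many linear functions.
-/

attribute [-instance] ProperSMul.toContinuousSMul IsTopologicalTorsor.toContinuousSMul IdemSemiring.toCanonicallyOrderedAdd IdemSemiring.toMulLeftMono IdemSemiring.toMulRightMono AddQuantale.instAddLeftMono AddQuantale.instAddRightMono Quantale.instMulLeftMono Quantale.instMulRightMono FiniteDimensional.rclike_to_real IsScalarTower.complexToReal FiniteDimensional.complexToReal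

set_option linter.all false

namespace Vale.Agent.P283.H207

open Finset

/-- A sublinear function which is at least `ε` at all nonzero points of `ℕ^k` is positive on the
nonzero vectors of the positive orthant. -/
theorem pos_of_lattice {k : ℕ} (Ψ : (Fin k → ℝ) → ℝ) (hs : IsSub Ψ) (K : ℝ) (hK0 : 0 ≤ K)
    (hK : ∀ (y : Fin k → ℝ) (δ : ℝ), 0 ≤ δ → (∀ j, |y j| ≤ δ) → Ψ y ≤ K * δ) (ε : ℝ) (hε : 0 < ε)
    (h : ∀ a : Fin k → ℕ, a ≠ 0 → ε ≤ Ψ fun j => (a j : ℝ)) (y : Fin k → ℝ) (hy : ∀ j, 0 ≤ y j)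
    (hy0 : y ≠ 0) : 0 < Ψ y := by
  by_contra hcon
  push Not at hcon
  obtain ⟨j0, hj0⟩ := Function.ne_iff.1 hy0
  have hj0' : 0 < y j0 := lt_of_le_of_ne (hy j0) (Ne.symm hj0)
  obtain ⟨δ, hδ, hδ1, hδ2⟩ : ∃ δ : ℝ, 0 < δ ∧ δ < y j0 ∧ K * δ < ε := by
    refine ⟨min (y j0 / 2) (ε / (2 * (K + 1))), ?_, ?_, ?_⟩
    · apply lt_min (by linarith)
      positivity
    · exact lt_of_le_of_lt (min_le_left _ _) (by linarith)
    · have h1 : K * min (y j0 / 2) (ε / (2 * (K + 1))) ≤ K * (ε / (2 * (K + 1))) :=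
        mul_le_mul_of_nonneg_left (min_le_right _ _) hK0
      have h2 : K * (ε / (2 * (K + 1))) ≤ (K + 1) * (ε / (2 * (K + 1))) :=
        mul_le_mul_of_nonneg_right (by linarith) (by positivity)
      have h3 : (K + 1) * (ε / (2 * (K + 1))) = ε / 2 := by
        have : K + 1 ≠ 0 := by positivity
        field_simp
      linarith
  let u : ℕ → Fin k → ℝ := fun n j => Int.fract (n * y j)
  have hu : ∀ n, u n ∈ Set.Icc (0 : Fin k → ℝ) 1 := fun n =>
    ⟨fun j => Int.fract_nonneg _, fun j => (Int.fract_lt_one _).le⟩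
  obtain ⟨l, -, φ, hφ, hl⟩ := isCompact_Icc.tendsto_subseq hu
  have hc := hl.cauchySeq
  rw [Metric.cauchySeq_iff] at hc
  obtain ⟨N, hN⟩ := hc δ hδ
  have hlt : φ N < φ (N + 1) := hφ (Nat.lt_succ_self N)
  have hd := hN (N + 1) (Nat.le_succ N) N le_rfl
  have hd' : ∀ j, |u (φ (N + 1)) j - u (φ N) j| < δ := by
    intro j
    have h1 := dist_le_pi_dist ((u ∘ φ) (N + 1)) ((u ∘ φ) N) j
    rw [Real.dist_eq] at h1
    exact lt_of_le_of_lt h1 hd
  set m := φ (N + 1) with hm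
  set n := φ N with hn
  have hmn : ∀ j, ⌊(n : ℝ) * y j⌋ ≤ ⌊(m : ℝ) * y j⌋ := fun j =>
    Int.floor_le_floor (mul_le_mul_of_nonneg_right (by exact_mod_cast hlt.le) (hy j))
  let a : Fin k → ℕ := fun j => (⌊(m : ℝ) * y j⌋ - ⌊(n : ℝ) * y j⌋).toNat
  have ha : ∀ j, (a j : ℝ) = (⌊(m : ℝ) * y j⌋ : ℝ) - ⌊(n : ℝ) * y j⌋ := by
    intro j
    have h1 : ((a j : ℕ) : ℤ) = ⌊(m : ℝ) * y j⌋ - ⌊(n : ℝ) * y j⌋ :=
      Int.toNat_of_nonneg (sub_nonneg.2 (hmn j))
    have h2 : (((a j : ℕ) : ℤ) : ℝ) = ((⌊(m : ℝ) * y j⌋ - ⌊(n : ℝ) * y j⌋ : ℤ) : ℝ) := by rw [h1]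
    push_cast at h2
    exact h2
  have hp : (1 : ℝ) ≤ (m : ℝ) - n := by
    have : (n : ℝ) + 1 ≤ m := by exact_mod_cast hlt
    linarith
  let err : Fin k → ℝ := fun j => a j - ((m : ℝ) - n) * y j
  have herr : ∀ j, |err j| ≤ δ := by
    intro j
    have h1 : err j = -(u m j - u n j) := by
      have h2 : u m j = (m : ℝ) * y j - ⌊(m : ℝ) * y j⌋ := rfl
      have h3 : u n j = (n : ℝ) * y j - ⌊(n : ℝ) * y j⌋ := rfl
      simp only [err]
      rw [ha, h2, h3]; ring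
    rw [h1, abs_neg]
    exact (hd' j).le
  have ha0 : a ≠ 0 := by
    intro h0
    have h1 := herr j0
    have h2 : (a j0 : ℝ) = 0 := by rw [h0]; simp
    simp only [err, h2, zero_sub, abs_neg] at h1
    rw [abs_of_nonneg (mul_nonneg (by linarith) hj0'.le)] at h1
    nlinarith
  have h1 := h a ha0
  have h2 : (fun j => (a j : ℝ)) = ((m : ℝ) - n) • y + err := by
    ext j
    simp only [Pi.add_apply, Pi.smul_apply, smul_eq_mul, err]
    ring
  rw [h2] at h1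
  have h3 := hs.add (((m : ℝ) - n) • y) err
  rw [hs.smul _ _ (by linarith)] at h3
  have h4 := hK err δ hδ.le herr
  have h5 : ((m : ℝ) - n) * Ψ y ≤ 0 := mul_nonpos_of_nonneg_of_nonpos (by linarith) hcon
  linarith

section PsiF

variable {ι : Type} [Fintype ι] [Nonempty ι] {k : ℕ} (c : ι → Fin k → ℚ)

/-- The maximum of the linear functions `∑ⱼ c a j * y j`, `a : ι`. -/
noncomputable def PsiF (y : Fin k → ℝ) : ℝ :=
  Finset.univ.sup' Finset.univ_nonempty fun a => ∑ j, (c a j : ℝ) * y j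

lemma le_PsiF (y : Fin k → ℝ) (a : ι) : ∑ j, (c a j : ℝ) * y j ≤ PsiF c y :=
  Finset.le_sup' (f := fun a => ∑ j, (c a j : ℝ) * y j) (Finset.mem_univ a)

lemma exists_PsiF (y : Fin k → ℝ) : ∃ a, PsiF c y = ∑ j, (c a j : ℝ) * y j := by
  obtain ⟨a, -, h⟩ := Finset.exists_mem_eq_sup' (s := (Finset.univ : Finset ι))
    Finset.univ_nonempty (fun a => ∑ j, (c a j : ℝ) * y j)
  exact ⟨a, h⟩

lemma isSub_PsiF : IsSub (PsiF c) := by
  refine ⟨?_, ?_⟩
  · intro x y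
    obtain ⟨a, h⟩ := exists_PsiF c (x + y)
    have h1 := le_PsiF c x a
    have h2 := le_PsiF c y a
    rw [h]
    simp only [Pi.add_apply, mul_add, Finset.sum_add_distrib]
    linarith
  · intro r x hr
    obtain ⟨a, h⟩ := exists_PsiF c (r • x)
    obtain ⟨a', h'⟩ := exists_PsiF c x
    have h3 : ∀ a, ∑ j, (c a j : ℝ) * (r • x) j = r * ∑ j, (c a j : ℝ) * x j := by
      intro a
      rw [Finset.mul_sum]
      refine Finset.sum_congr rfl fun j _ => ?_
      simp only [Pi.smul_apply, smul_eq_mul]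
      ring
    apply le_antisymm
    · rw [h, h3]
      exact mul_le_mul_of_nonneg_left (le_PsiF c x a) hr
    · rw [h', ← h3]
      exact le_PsiF c _ a'

/-- a bound of `PsiF` -/
lemma PsiF_bound : ∃ K : ℝ, 0 ≤ K ∧ ∀ (y : Fin k → ℝ) (δ : ℝ), 0 ≤ δ → (∀ j, |y j| ≤ δ) →
    PsiF c y ≤ K * δ := by
  refine ⟨∑ a, ∑ j, |(c a j : ℝ)|, Finset.sum_nonneg fun a _ => Finset.sum_nonneg fun j _ =>
    abs_nonneg _, ?_⟩
  intro y δ hδ hy
  obtain ⟨a, h⟩ := exists_PsiF c y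
  rw [h]
  have h1 : ∑ j, (c a j : ℝ) * y j ≤ ∑ j, |(c a j : ℝ)| * δ := by
    refine Finset.sum_le_sum fun j _ => ?_
    refine (le_abs_self _).trans ?_
    rw [abs_mul]
    exact mul_le_mul_of_nonneg_left (hy j) (abs_nonneg _)
  refine h1.trans ?_
  rw [← Finset.sum_mul]
  refine mul_le_mul_of_nonneg_right ?_ hδ
  exact Finset.single_le_sum (f := fun a => ∑ j, |(c a j : ℝ)|)
    (fun a _ => Finset.sum_nonneg fun j _ => abs_nonneg _) (Finset.mem_univ a)

end PsiF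

end Vale.Agent.P283.H207
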