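import Vale.Agent.P283.H207.Trans
import Vale.Agent.P283.H329.LinMain

/-!
Bounded klt complements on `X = Y / G` and for birational contractions to `X`, uniformly in
dimension `d`.
-/

set_option linter.all false

namespace Vale.Agent.P283.H207

open MvPolynomial

/-- A uniform constant for all `(q, k)` with `q + k = d`. -/
theorem exists_uniform (d : ℕ) (P : ℕ → ℕ → ℝ → ℕ → Prop)
    (h : ∀ q k, q + k = d → ∃ c : ℕ, 0 < c ∧ ∀ ε : ℝ, 0 < ε → ∀ n : ℕ, c ∣ n →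
      (c : ℝ) * (1 + 1 / ε) ≤ n → P q k ε n) :
    ∃ c : ℕ, 0 < c ∧ ∀ ε : ℝ, 0 < ε → ∀ n : ℕ, c ∣ n → (c : ℝ) * (1 + 1 / ε) ≤ n →
      ∀ q k, q + k = d → P q k ε n := by
  classical
  have key : ∀ q k : ℕ, ∃ c : ℕ, 0 < c ∧ (q + k = d → ∀ ε : ℝ, 0 < ε → ∀ n : ℕ, c ∣ n →
      (c : ℝ) * (1 + 1 / ε) ≤ n → P q k ε n) := by
    intro q k
    by_cases hqk : q + k = d
    · obtain ⟨c, hc, h1⟩ := h q k hqk
      exact ⟨c, hc, fun _ => h1⟩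
    · exact ⟨1, one_pos, fun h' => absurd h' hqk⟩
  choose N hN hkey using key
  refine ⟨∏ p ∈ Finset.HasAntidiagonal.antidiagonal d, N p.1 p.2,
    Finset.prod_pos fun p _ => hN _ _, ?_⟩
  intro ε hε n hn hn' q k hqk
  have hmem : (q, k) ∈ Finset.HasAntidiagonal.antidiagonal d :=
    Finset.HasAntidiagonal.mem_antidiagonal.mpr hqk
  have h1 : N q k ∣ ∏ p ∈ Finset.HasAntidiagonal.antidiagonal d, N p.1 p.2 :=
    Finset.dvd_prod_of_mem (fun p : ℕ × ℕ => N p.1 p.2) hmem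
  refine hkey q k hqk ε hε n (h1.trans hn) (le_trans ?_ hn')
  refine mul_le_mul_of_nonneg_right ?_ (by positivity)
  exact_mod_cast Nat.le_of_dvd (Finset.prod_pos fun p _ => hN _ _) h1

/-- Two uniform constants can be merged. -/
theorem merge {P Q : ℝ → ℕ → Prop}
    (h1 : ∃ c : ℕ, 0 < c ∧ ∀ ε : ℝ, 0 < ε → ∀ n : ℕ, c ∣ n → (c : ℝ) * (1 + 1 / ε) ≤ n → P ε n)
    (h2 : ∃ c : ℕ, 0 < c ∧ ∀ ε : ℝ, 0 < ε → ∀ n : ℕ, c ∣ n → (c : ℝ) * (1 + 1 / ε) ≤ n → Q ε n) :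
    ∃ c : ℕ, 0 < c ∧ ∀ ε : ℝ, 0 < ε → ∀ n : ℕ, c ∣ n → (c : ℝ) * (1 + 1 / ε) ≤ n →
      P ε n ∧ Q ε n := by
  obtain ⟨c1, hc1, h1⟩ := h1
  obtain ⟨c2, hc2, h2⟩ := h2
  refine ⟨c1 * c2, Nat.mul_pos hc1 hc2, ?_⟩
  intro ε hε n hn hn'
  have h3 : (0 : ℝ) ≤ 1 + 1 / ε := by positivity
  refine ⟨h1 ε hε n ((dvd_mul_right _ _).trans hn) (le_trans ?_ hn'),
    h2 ε hε n ((dvd_mul_left _ _).trans hn) (le_trans ?_ hn')⟩
  · refine mul_le_mul_of_nonneg_right ?_ h3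
    exact_mod_cast Nat.le_mul_of_pos_right c1 hc2
  · refine mul_le_mul_of_nonneg_right ?_ h3
    exact_mod_cast Nat.le_mul_of_pos_left c2 hc1

theorem main (d : ℕ) (hd : 0 < d) : ∃ c : ℕ, 0 < c ∧ ∀ ε : ℝ, 0 < ε →
    ∀ n : ℕ, c ∣ n → (c : ℝ) * (1 + 1 / ε) ≤ n →
    ∀ q k : ℕ, q + k = d → ∀ (K L : Type) [Field K] [Field L] [Algebra ℂ K] [Algebra ℂ L]
      [Algebra K L] [IsScalarTower ℂ K L] (x : Fin (q + 1) → L) (z : Fin k → L)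
      (g : MvPolynomial (Fin k) ℂ) (b : Fin k → ℚ) (G : Subgroup (L ≃ₐ[ℂ] L))
      (A : Subalgebra ℂ K), Q.IsQuotient x z g b G A →
    ∀ D : Fin (q + k) → Derivation ℂ K K, (∃ f, Q.jac D f ≠ 0) →
    (∀ B : Q.QDivisor A, (∀ p, 0 ≤ B.coeff p) → Q.IsCrepant x z b A D B → Q.IsEpsLC D B ε →
      ∀ m : Ideal A, m.IsMaximal → Q.HasKltComplement D B n m) ∧
    ∀ (𝒞 : Set (Subalgebra ℂ K)) (B : ∀ C : Subalgebra ℂ K, Q.QDivisor C) (r : ℕ)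
      (ψ : Subalgebra ℂ K → K), IsPair D A 𝒞 B r ψ →
    ∀ (N : ℕ) (M : Fin (N + 1) → ℕ) (E : Fin (N + 1) → Fin k → ℤ),
      (∀ i j, E i j ≠ 0 → b j ≠ 0) → IsGenerated x z M E D 𝒞 r ψ →
      (∀ C ∈ 𝒞, Q.IsEpsLC D (B C) ε) → HasGlobalKltComplement D 𝒞 B n := by
  obtain ⟨c, hc, h⟩ := merge (main_lin d hd) (exists_uniform d
    (fun q k ε n => ∀ (K L : Type) [Field K] [Field L] [Algebra ℂ K] [Algebra ℂ L]
      [Algebra K L] [IsScalarTower ℂ K L] (x : Fin (q + 1) → L) (z : Fin k → L)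
      (g : MvPolynomial (Fin k) ℂ) (b : Fin k → ℚ) (G : Subgroup (L ≃ₐ[ℂ] L))
      (A : Subalgebra ℂ K), Q.IsQuotient x z g b G A →
    ∀ D : Fin (q + k) → Derivation ℂ K K, (∃ f, Q.jac D f ≠ 0) →
    ∀ (𝒞 : Set (Subalgebra ℂ K)) (B : ∀ C : Subalgebra ℂ K, Q.QDivisor C) (r : ℕ)
      (ψ : Subalgebra ℂ K → K), IsPair D A 𝒞 B r ψ →
    ∀ (N : ℕ) (M : Fin (N + 1) → ℕ) (E : Fin (N + 1) → Fin k → ℤ),
      (∀ i j, E i j ≠ 0 → b j ≠ 0) → IsGenerated x z M E D 𝒞 r ψ →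
      (∀ C ∈ 𝒞, Q.IsEpsLC D (B C) ε) → HasGlobalKltComplement D 𝒞 B n)
    (fun q k hqk => main_qk q k (by omega)))
  refine ⟨c, hc, ?_⟩
  intro ε hε n hn hn' q k hqk K L _ _ _ _ _ _ x z g b G A H D hD
  obtain ⟨h1, h2⟩ := h ε hε n hn hn'
  refine ⟨?_, ?_⟩
  · intro B hB hcr hlc m hm
    exact (h1 q k hqk K L x z g b G A H D hD B hB hcr hlc).1 m hm
  · intro 𝒞 B r ψ hP N M E hE hgen hlc
    exact h2 q k hqk K L x z g b G A H D hD 𝒞 B r ψ hP N M E hE hgen hlc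

end Vale.Agent.P283.H207
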