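import Vale.Agent.P283.H207.MonoP
import Vale.Agent.P283.H207.Final

/-!
Bounded klt complements for contractions with fibres of any dimension.
-/

attribute [-instance] ProperSMul.toContinuousSMul IsTopologicalTorsor.toContinuousSMul IdemSemiring.toCanonicallyOrderedAdd IdemSemiring.toMulLeftMono IdemSemiring.toMulRightMono AddQuantale.instAddLeftMono AddQuantale.instAddRightMono Quantale.instMulLeftMono Quantale.instMulRightMono FiniteDimensional.rclike_to_real IsScalarTower.complexToReal FiniteDimensional.complexToReal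

set_option linter.all false

namespace Vale.Agent.P283.H207

open MvPolynomial Finset

/-- The monomial ideals do not change in the diagonal coordinates. -/
theorem isGenerated_change {q k N : ℕ} {K L : Type} [Field K] [Field L] [Algebra ℂ K] [Algebra ℂ L]
    [Algebra K L] [IsScalarTower ℂ K L] (P S : Fin k → Prop) (x : Fin (q + 1) → L)
    (z : Fin k → L) (v : Fin k → (Fin k → ℂ)) (hv : LinearIndependent ℂ v)
    (h1 : ∀ j, ¬ P j → v j = Pi.single j 1) (h2 : ∀ j, P j → S j → v j = Pi.single j 1)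
    (h3 : ∀ j, P j → Abs.lin z (v j) ∈ Submodule.span ℂ {y | ∃ i, P i ∧ y = z i})
    (h4 : ∀ j, P j → z j ∈ Submodule.span ℂ {y | ∃ i, P i ∧ y = Abs.lin z (v i)})
    (hz : ∀ j, z j ≠ 0) (hz' : ∀ j, Abs.lin z (v j) ≠ 0)
    (D : Fin (q + k) → Derivation ℂ K K)
    (𝒞 : Set (Subalgebra ℂ K)) (r : ℕ) (ψ : Subalgebra ℂ K → K) (M : Fin (N + 1) → ℕ)
    (E : Fin (N + 1) → Fin k → ℤ) (hE : ∀ i j, E i j ≠ 0 → P j → S j)
    (hgen : IsGeneratedP P x z M E D 𝒞 r ψ) :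
    IsGeneratedP P x (fun j => Abs.lin z (v j)) M E D 𝒞 r ψ := by
  classical
  obtain ⟨-, -, -, hdet⟩ := exists_inv v hv
  intro D' h hD' hh C hC u w e l a a' hu hover he hw huw hl ha ha'
  have hwc : ∀ c : ℂ, c ≠ 0 → w (algebraMap ℂ L c) = 0 := by
    intro c hc
    rw [IsScalarTower.algebraMap_apply ℂ K L, huw, hu.const c hc, smul_zero]
  rw [jac_change] at hh
  have hh' : h * algebraMap ℂ L (Matrix.of v).det
      * Q.jac D' (Fin.append (Fin.tail x) z) = ∏ l, Fin.tail x l := by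
    rw [← hh]; ring
  have key := hgen D' (h * algebraMap ℂ L (Matrix.of v).det) hD' hh' C hC u w e l a
    (fun j => ov w (z j)) hu hover he hw huw hl
    (by rw [AddValuation.map_mul, hwc _ hdet, add_zero]; exact ha)
    (fun j => (coe_ov w (hz j)).symm)
  rw [key]
  congr 1
  have hov : ∀ j, ov w (Abs.lin z (v j)) = a' j := fun j => ov_eq_of w (ha' j)
  have hinf : (⨅ j : {j // P j}, ov w (z j.1)) = ⨅ j : {j // P j}, a' j.1 := by
    have e1 : (fun j : {j // P j} => a' j.1) = fun j : {j // P j} => ov w (Abs.lin z (v j.1)) := by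
      funext j; exact (hov j.1).symm
    rw [e1]
    have hs1 : ∀ y, y ∈ Submodule.span ℂ {y | ∃ i, P i ∧ y = z i} →
        y ∈ Submodule.span ℂ (Set.range fun j : {j // P j} => z j.1) := by
      intro y hy
      refine Submodule.span_mono ?_ hy
      rintro _ ⟨i, hi, rfl⟩
      exact ⟨⟨i, hi⟩, rfl⟩
    have hs2 : ∀ y, y ∈ Submodule.span ℂ {y | ∃ i, P i ∧ y = Abs.lin z (v i)} →
        y ∈ Submodule.span ℂ (Set.range fun j : {j // P j} => Abs.lin z (v j.1)) := by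
      intro y hy
      refine Submodule.span_mono ?_ hy
      rintro _ ⟨i, hi, rfl⟩
      exact ⟨⟨i, hi⟩, rfl⟩
    refine le_antisymm ?_ ?_
    · exact inf_le_of_spanP w hwc (fun j : {j // P j} => z j.1)
        (fun j : {j // P j} => Abs.lin z (v j.1)) (fun j => hz j.1) (fun j => hz' j.1)
        fun j => hs1 _ (h3 j.1 j.2)
    · exact inf_le_of_spanP w hwc (fun j : {j // P j} => Abs.lin z (v j.1))
        (fun j : {j // P j} => z j.1) (fun j => hz' j.1) (fun j => hz j.1)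
        fun j => hs2 _ (h4 j.1 j.2)
  unfold ordIdealP
  rw [hinf]
  congr 1
  ext i
  congr 1
  refine Finset.sum_congr rfl fun j _ => ?_
  by_cases hij : E i j = 0
  · rw [hij]; simp
  · have h5 : v j = Pi.single j 1 := by
      by_cases hj : P j
      · exact h2 j hj (hE i j hij hj)
      · exact h1 j hj
    have h6 := hov j
    rw [h5, Abs.lin_single] at h6
    rw [← h6]

theorem mainP_qk (q k J : ℕ) (hd : 0 < q + k) : ∃ c₀ : ℕ, 0 < c₀ ∧ ∀ ε : ℝ, 0 < ε →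
    ∀ n : ℕ, c₀ ∣ n → (c₀ : ℝ) * (1 + 1 / ε) ≤ n →
    ∀ (K L : Type) [Field K] [Field L] [Algebra ℂ K] [Algebra ℂ L]
      [Algebra K L] [IsScalarTower ℂ K L] (P S : Fin k → Prop) (x : Fin (q + 1) → L)
      (z : Fin k → L) (g : MvPolynomial (Fin k) ℂ) (G : Subgroup (L ≃ₐ[ℂ] L))
      (A : Subalgebra ℂ K), IsCover J P S x z g G A →
    ∀ D : Fin (q + k) → Derivation ℂ K K, (∃ f, Q.jac D f ≠ 0) →
    ∀ (𝒞 : Set (Subalgebra ℂ K)) (B : ∀ C : Subalgebra ℂ K, Q.QDivisor C) (r : ℕ)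
      (ψ : Subalgebra ℂ K → K), IsPair D A 𝒞 B r ψ →
    ∀ (N : ℕ) (M : Fin (N + 1) → ℕ) (E : Fin (N + 1) → Fin k → ℤ),
      (∀ i j, E i j ≠ 0 → P j → S j) → IsGeneratedP P x z M E D 𝒞 r ψ →
      (∀ C ∈ 𝒞, Q.IsEpsLC D (B C) ε) → HasGlobalKltComplement D 𝒞 B n := by
  obtain ⟨J', hJ'⟩ := exists_diagonal q k (Fintype.card (Matrix (Fin k) (Fin k) (ZMod 3)) * J)
  obtain ⟨c₀, hc₀, hmain⟩ := main_diag_qk q k J' hd
  refine ⟨c₀, hc₀, ?_⟩
  intro ε hε n hn hn' K L _ _ _ _ _ _ P S x z g G A H D hD 𝒞 B r ψ hP N M E hE hgen hlc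
  obtain ⟨v, g', hv, h1, h2, h3, h4, hz, Hd⟩ := hJ' K L P S x z g G A H.perm
  have hcoords := Hd.coords
  exact hmain ε hε n hn hn' K L P x (fun j => Abs.lin z (v j)) g' G A Hd D hD 𝒞 B r ψ hP N M E
    (isGenerated_change P S x z v hv h1 h2 h3 h4 hz (fun j => hcoords.ne_zero (Sum.inr j)) D 𝒞 r ψ
      M E hE hgen) hlc

theorem mainP (d : ℕ) (hd : 0 < d) (J : ℕ) : ∃ c : ℕ, 0 < c ∧ ∀ ε : ℝ, 0 < ε →
    ∀ n : ℕ, c ∣ n → (c : ℝ) * (1 + 1 / ε) ≤ n →
    ∀ q k : ℕ, q + k = d → ∀ (K L : Type) [Field K] [Field L] [Algebra ℂ K] [Algebra ℂ L]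
      [Algebra K L] [IsScalarTower ℂ K L] (P S : Fin k → Prop) (x : Fin (q + 1) → L)
      (z : Fin k → L) (g : MvPolynomial (Fin k) ℂ) (G : Subgroup (L ≃ₐ[ℂ] L))
      (A : Subalgebra ℂ K), IsCover J P S x z g G A →
    ∀ D : Fin (q + k) → Derivation ℂ K K, (∃ f, Q.jac D f ≠ 0) →
    ∀ (𝒞 : Set (Subalgebra ℂ K)) (B : ∀ C : Subalgebra ℂ K, Q.QDivisor C) (r : ℕ)
      (ψ : Subalgebra ℂ K → K), IsPair D A 𝒞 B r ψ →
    ∀ (N : ℕ) (M : Fin (N + 1) → ℕ) (E : Fin (N + 1) → Fin k → ℤ),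
      (∀ i j, E i j ≠ 0 → P j → S j) → IsGeneratedP P x z M E D 𝒞 r ψ →
      (∀ C ∈ 𝒞, Q.IsEpsLC D (B C) ε) → HasGlobalKltComplement D 𝒞 B n :=
  exists_uniform d
    (fun q k ε n => ∀ (K L : Type) [Field K] [Field L] [Algebra ℂ K] [Algebra ℂ L]
      [Algebra K L] [IsScalarTower ℂ K L] (P S : Fin k → Prop) (x : Fin (q + 1) → L)
      (z : Fin k → L) (g : MvPolynomial (Fin k) ℂ) (G : Subgroup (L ≃ₐ[ℂ] L))
      (A : Subalgebra ℂ K), IsCover J P S x z g G A →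
    ∀ D : Fin (q + k) → Derivation ℂ K K, (∃ f, Q.jac D f ≠ 0) →
    ∀ (𝒞 : Set (Subalgebra ℂ K)) (B : ∀ C : Subalgebra ℂ K, Q.QDivisor C) (r : ℕ)
      (ψ : Subalgebra ℂ K → K), IsPair D A 𝒞 B r ψ →
    ∀ (N : ℕ) (M : Fin (N + 1) → ℕ) (E : Fin (N + 1) → Fin k → ℤ),
      (∀ i j, E i j ≠ 0 → P j → S j) → IsGeneratedP P x z M E D 𝒞 r ψ →
      (∀ C ∈ 𝒞, Q.IsEpsLC D (B C) ε) → HasGlobalKltComplement D 𝒞 B n)
    (fun q k hqk => mainP_qk q k J (by omega))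

end Vale.Agent.P283.H207
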