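import Vale.Agent.P283.H207.Engine
import Vale.Agent.P283.H207.Defs

/-!
The order of a monomial ideal, and the corresponding log discrepancy function.
-/

attribute [-instance] ProperSMul.toContinuousSMul IsTopologicalTorsor.toContinuousSMul IdemSemiring.toCanonicallyOrderedAdd IdemSemiring.toMulLeftMono IdemSemiring.toMulRightMono AddQuantale.instAddLeftMono AddQuantale.instAddRightMono Quantale.instMulLeftMono Quantale.instMulRightMono FiniteDimensional.rclike_to_real IsScalarTower.complexToReal FiniteDimensional.complexToReal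

set_option linter.all false

namespace Vale.Agent.P283.H207

open Finset

lemma ordIdeal_le {N k : ℕ} (M : Fin (N + 1) → ℕ) (E : Fin (N + 1) → Fin k → ℤ)
    (y : Fin k → ℤ) (i : Fin (N + 1)) :
    ordIdeal M E y ≤ (M i : ℤ) * (⨅ j, y j) + ∑ j, E i j * y j :=
  ciInf_le (Set.finite_range _).bddBelow i

lemma exists_ordIdeal {N k : ℕ} (M : Fin (N + 1) → ℕ) (E : Fin (N + 1) → Fin k → ℤ)
    (y : Fin k → ℤ) : ∃ i, ordIdeal M E y = (M i : ℤ) * (⨅ j, y j) + ∑ j, E i j * y j := by
  obtain ⟨i, hi⟩ := exists_eq_ciInf_of_finite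
    (f := fun i => (M i : ℤ) * (⨅ j, y j) + ∑ j, E i j * y j)
  exact ⟨i, hi.symm⟩

/-- the log discrepancy function of a monomial ideal -/
theorem exists_family {N k : ℕ} (M : Fin (N + 1) → ℕ) (E : Fin (N + 1) → Fin k → ℤ) (r : ℕ)
    (hr : 0 < r) : ∃ (ι : Type) (_ : Fintype ι) (_ : Nonempty ι) (c : ι → Fin k → ℚ),
      ∀ y : Fin k → ℤ, (PsiF c fun j => (y j : ℝ)) = (∑ j, (y j : ℝ)) - (ordIdeal M E y : ℝ) / r := by
  have hrR : (r : ℝ) ≠ 0 := by positivity
  rcases Nat.eq_zero_or_pos k with hk | hk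
  · subst hk
    refine ⟨Unit, inferInstance, inferInstance, fun _ _ => 0, ?_⟩
    intro y
    obtain ⟨i, hi⟩ := exists_ordIdeal M E y
    obtain ⟨a, ha⟩ := exists_PsiF (fun (_ : Unit) (_ : Fin 0) => (0 : ℚ)) fun j => (y j : ℝ)
    have h0 : (⨅ j, y j) = 0 := by
      have h1 : (⨅ j, y j) = sInf ∅ := by
        unfold iInf
        congr 1
        exact Set.range_eq_empty y
      rw [h1, Int.csInf_empty]
    rw [ha, hi, h0]
    simp
  · have : Nonempty (Fin k) := ⟨⟨0, hk⟩⟩
    let c : Fin (N + 1) × Fin k → Fin k → ℚ := fun p j =>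
      1 - ((E p.1 j : ℚ) + (M p.1 : ℚ) * (if j = p.2 then 1 else 0)) / r
    refine ⟨Fin (N + 1) × Fin k, inferInstance, inferInstance, c, ?_⟩
    intro y
    have hc : ∀ p : Fin (N + 1) × Fin k, ∑ j, (c p j : ℝ) * (y j : ℝ)
        = (∑ j, (y j : ℝ)) - ((M p.1 : ℝ) * y p.2 + ∑ j, (E p.1 j : ℝ) * y j) / r := by
      intro p
      have h1 : ∀ j, (c p j : ℝ) * (y j : ℝ) = (y j : ℝ) - ((E p.1 j : ℝ) * y j) / r
          - ((M p.1 : ℝ) * (if j = p.2 then (y j : ℝ) else 0)) / r := by
        intro j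
        simp only [c]
        push_cast
        split_ifs <;> ring
      rw [Finset.sum_congr rfl fun j _ => h1 j, Finset.sum_sub_distrib, Finset.sum_sub_distrib,
        ← Finset.sum_div, ← Finset.sum_div, ← Finset.mul_sum]
      simp only [Finset.sum_ite_eq', Finset.mem_univ, if_true]
      ring
    apply le_antisymm
    · obtain ⟨p, hp⟩ := exists_PsiF c fun j => (y j : ℝ)
      rw [hp, hc]
      have h1 := ordIdeal_le M E y p.1
      have h2 : (⨅ j, y j) ≤ y p.2 := ciInf_le (Set.finite_range _).bddBelow p.2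
      have h3 : (M p.1 : ℤ) * (⨅ j, y j) ≤ (M p.1 : ℤ) * y p.2 :=
        mul_le_mul_of_nonneg_left h2 (by positivity)
      have h4 : ordIdeal M E y ≤ (M p.1 : ℤ) * y p.2 + ∑ j, E p.1 j * y j := by linarith
      have h5 : (ordIdeal M E y : ℝ) ≤ (M p.1 : ℝ) * y p.2 + ∑ j, (E p.1 j : ℝ) * y j := by
        exact_mod_cast h4
      have h6 := div_le_div_of_nonneg_right h5 (by positivity : (0 : ℝ) ≤ r)
      linarith
    · obtain ⟨i, hi⟩ := exists_ordIdeal M E y
      obtain ⟨j0, hj0⟩ := exists_eq_ciInf_of_finite (f := y)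
      have h1 := le_PsiF c (fun j => (y j : ℝ)) (i, j0)
      rw [hc] at h1
      refine le_trans (le_of_eq ?_) h1
      rw [hi, ← hj0]
      push_cast
      rfl

lemma ordIdeal_congr {N k : ℕ} (M : Fin (N + 1) → ℕ) (E : Fin (N + 1) → Fin k → ℤ)
    (y y' : Fin k → ℤ) (h1 : (⨅ j, y j) = ⨅ j, y' j) (h2 : ∀ i j, E i j ≠ 0 → y j = y' j) :
    ordIdeal M E y = ordIdeal M E y' := by
  unfold ordIdeal
  rw [h1]
  congr 1
  ext i
  congr 1
  refine Finset.sum_congr rfl fun j _ => ?_
  by_cases h : E i j = 0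
  · rw [h]; simp
  · rw [h2 i j h]

/-- a valuation trivial on constants: values on the span -/
lemma inf_le_of_span {k : ℕ} {L : Type} [Field L] [Algebra ℂ L] (w : AddValuation L (WithTop ℤ))
    (hw : ∀ c : ℂ, c ≠ 0 → w (algebraMap ℂ L c) = 0) (u u' : Fin k → L) (hu : ∀ j, u j ≠ 0)
    (hu' : ∀ j, u' j ≠ 0) (h : ∀ j, u' j ∈ Submodule.span ℂ (Set.range u)) :
    (⨅ j, ov w (u j)) ≤ ⨅ j, ov w (u' j) := by
  rcases Nat.eq_zero_or_pos k with hk | hk
  · subst hk
    have : ∀ f : Fin 0 → ℤ, (⨅ j, f j) = sInf ∅ := by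
      intro f
      unfold iInf
      congr 1
      exact Set.range_eq_empty f
    rw [this, this]
  · have : Nonempty (Fin k) := ⟨⟨0, hk⟩⟩
    have hb : ∀ j, (⨅ j, ov w (u j)) ≤ ov w (u j) := fun j =>
      ciInf_le (Set.finite_range _).bddBelow j
    refine le_ciInf fun j => ?_
    rw [← le_iff w (hu' j)]
    have key : ∀ y ∈ Submodule.span ℂ (Set.range u), (((⨅ j, ov w (u j) : ℤ)) : WithTop ℤ) ≤ w y := by
      intro y hy
      induction hy using Submodule.span_induction with
      | mem y hy =>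
        obtain ⟨i, rfl⟩ := hy
        rw [le_iff w (hu i)]
        exact hb i
      | zero => simp
      | add a b _ _ ha hb => exact le_trans (le_min ha hb) (AddValuation.map_add w _ _)
      | smul c a _ ha =>
        rw [Algebra.smul_def, AddValuation.map_mul]
        by_cases hc : c = 0
        · rw [hc]; simp
        · rw [hw c hc, zero_add]; exact ha
    exact key _ (h j)

end Vale.Agent.P283.H207
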