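import Vale.Agent.P283.H207.Diag
import Mathlib.FieldTheory.Galois.Basic

/-!
Reduction of groups which act linearly on the base coordinates to the diagonal case.
-/

attribute [-instance] ProperSMul.toContinuousSMul IsTopologicalTorsor.toContinuousSMul IdemSemiring.toCanonicallyOrderedAdd IdemSemiring.toMulLeftMono IdemSemiring.toMulRightMono AddQuantale.instAddLeftMono AddQuantale.instAddRightMono Quantale.instMulLeftMono Quantale.instMulRightMono FiniteDimensional.rclike_to_real IsScalarTower.complexToReal FiniteDimensional.complexToReal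

set_option linter.all false
set_option linter.style.haveILetI false

namespace Vale.Agent.P283.H207

open scoped KaehlerDifferential
open MvPolynomial Finset

/-- Jacobians in linearly changed coordinates -/
theorem jac_change {q k : ℕ} {L : Type} [Field L] [Algebra ℂ L] (x : Fin (q + 1) → L)
    (z : Fin k → L) (v : Fin k → (Fin k → ℂ)) (D' : Fin (q + k) → Derivation ℂ L L) :
    Q.jac D' (Fin.append (Fin.tail x) fun j => Abs.lin z (v j))
      = algebraMap ℂ L (Matrix.of v).det * Q.jac D' (Fin.append (Fin.tail x) z) := by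
  classical
  let B : Matrix (Fin q ⊕ Fin k) (Fin q ⊕ Fin k) L :=
    Matrix.fromBlocks 1 0 0 ((Matrix.of v).map (algebraMap ℂ L))
  let e := (finSumFinEquiv (m := q) (n := k))
  have h1 : ∀ f : Fin (q + k) → L, Q.jac D' f
      = (Matrix.of fun i j => D' (e j) (f (e i))).det := by
    intro f
    have := Matrix.det_submatrix_equiv_self e (Matrix.of fun i j => D' j (f i))
    exact this.symm
  have h2 : (Matrix.of fun i j => D' (e j) ((Fin.append (Fin.tail x) fun j => Abs.lin z (v j))
      (e i))) = B * (Matrix.of fun i j => D' (e j) ((Fin.append (Fin.tail x) z) (e i))) := by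
    ext i j
    rw [Matrix.mul_apply, Fintype.sum_sum_type]
    rcases i with l | i
    · simp only [B, e, Matrix.of_apply, Matrix.fromBlocks_apply₁₁, Matrix.fromBlocks_apply₁₂,
        Matrix.zero_apply, zero_mul, Finset.sum_const_zero, add_zero, Matrix.one_apply, ite_mul,
        one_mul, Finset.sum_ite_eq, Finset.mem_univ, if_true, finSumFinEquiv_apply_left,
        Fin.append_left]
    · simp only [B, e, Matrix.of_apply, Matrix.fromBlocks_apply₂₁, Matrix.fromBlocks_apply₂₂,
        Matrix.zero_apply, zero_mul, Finset.sum_const_zero, zero_add, Matrix.map_apply,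
        finSumFinEquiv_apply_right, Fin.append_right]
      rw [Abs.lin_apply, map_sum]
      refine Finset.sum_congr rfl fun l _ => ?_
      rw [Derivation.map_smul, Algebra.smul_def]
  rw [h1, h2, Matrix.det_mul, ← h1]
  congr 1
  simp only [B]
  rw [Matrix.det_fromBlocks_zero₂₁, Matrix.det_one, one_mul]
  exact (RingHom.map_det _ _).symm

/-- a valuation trivial on constants: values on the span -/
lemma inf_le_of_spanP {κ : Type} [Finite κ] {L : Type} [Field L] [Algebra ℂ L]
    (w : AddValuation L (WithTop ℤ))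
    (hw : ∀ c : ℂ, c ≠ 0 → w (algebraMap ℂ L c) = 0) (u u' : κ → L) (hu : ∀ j, u j ≠ 0)
    (hu' : ∀ j, u' j ≠ 0) (h : ∀ j, u' j ∈ Submodule.span ℂ (Set.range u)) :
    (⨅ j, ov w (u j)) ≤ ⨅ j, ov w (u' j) := by
  rcases isEmpty_or_nonempty κ with hk | hk
  · have : ∀ f : κ → ℤ, (⨅ j, f j) = sInf ∅ := by
      intro f
      unfold iInf
      congr 1
      exact Set.range_eq_empty f
    rw [this, this]
  · have hb : ∀ j, (⨅ j, ov w (u j)) ≤ ov w (u j) := fun j =>
      ciInf_le (Set.finite_range _).bddBelow j
    refine le_ciInf fun j => ?_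
    rw [← le_iff w (hu' j)]
    have key : ∀ y ∈ Submodule.span ℂ (Set.range u), (((⨅ j, ov w (u j) : ℤ)) : WithTop ℤ) ≤ w y := by
      intro y hy
      induction hy using Submodule.span_induction with
      | mem y hy =>
        obtain ⟨i, rfl⟩ := hy
        rw [le_iff w (hu i)]
        exact hb i
      | zero => simp
      | add a b _ _ ha hb => exact le_trans (le_min ha hb) (AddValuation.map_add w _ _)
      | smul c a _ ha =>
        rw [Algebra.smul_def, AddValuation.map_mul]
        by_cases hc : c = 0
        · rw [hc]; simp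
        · rw [hw c hc, zero_add]; exact ha
    exact key _ (h j)

/-- the projection of a basis to the base coordinates -/
theorem proj_basis {k : ℕ} (P : Fin k → Prop) [DecidablePred P] (v : Fin k → (Fin k → ℂ))
    (hv : LinearIndependent ℂ v) (hvP : ∀ j, ¬ P j → v j = Pi.single j 1) :
    LinearIndependent ℂ fun j => if P j then (fun i => if P i then v j i else 0)
      else (Pi.single j 1 : Fin k → ℂ) := by
  classical
  set v' : Fin k → (Fin k → ℂ) := fun j => if P j then (fun i => if P i then v j i else 0)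
      else (Pi.single j 1 : Fin k → ℂ) with hv'
  have h1 : Submodule.span ℂ (Set.range v) = ⊤ := by
    refine hv.span_eq_top_of_card_eq_finrank' ?_
    simp only [Fintype.card_fin, Module.finrank_fintype_fun_eq_card]
  refine linearIndependent_of_top_le_span_of_card_eq_finrank ?_ (by
    simp only [Fintype.card_fin, Module.finrank_fintype_fun_eq_card])
  rw [← h1, Submodule.span_le]
  rintro _ ⟨j, rfl⟩
  by_cases hj : P j
  · have h2 : v j = v' j + ∑ i, (if P i then 0 else v j i) • v' i := by
      funext l
      rw [Pi.add_apply, Finset.sum_apply]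
      have h3 : ∀ i, ((if P i then (0 : ℂ) else v j i) • v' i) l
          = if i = l then (if P i then 0 else v j i) else 0 := by
        intro i
        by_cases hi : P i
        · simp [hi]
        · simp only [hv', hi, if_false, Pi.smul_apply, smul_eq_mul, Pi.single_apply]
          by_cases hil : i = l
          · subst hil; simp
          · rw [if_neg (fun h => hil h.symm), if_neg hil, mul_zero]
      rw [Finset.sum_congr rfl fun i _ => h3 i]
      simp only [Finset.sum_ite_eq', Finset.mem_univ, if_true]
      simp only [hv', hj, if_true]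
      by_cases hl : P l <;> simp [hl]
    rw [SetLike.mem_coe, h2]
    refine Submodule.add_mem _ (Submodule.subset_span ⟨j, rfl⟩)
      (Submodule.sum_mem _ fun i _ => Submodule.smul_mem _ _ (Submodule.subset_span ⟨i, rfl⟩))
  · rw [hvP j hj]
    refine Submodule.subset_span ⟨j, ?_⟩
    simp only [hv', hj, if_false]

/-- The quotient by the subgroup `G₁` with all coordinates. -/
theorem isQuotient_sub {q k : ℕ} {L : Type} [Field L] [Algebra ℂ L]
    (P S : Fin k → Prop) [DecidablePred P] [DecidablePred S] (x : Fin (q + 1) → L)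
    (z : Fin k → L) (g : MvPolynomial (Fin k) ℂ) (G₁ : Subgroup (L ≃ₐ[ℂ] L)) (hfin : Finite G₁)
    (h1 : AlgebraicIndependent ℂ (Sum.elim (Fin.tail x) z))
    (h2 : IntermediateField.adjoin ℂ (Set.range (Fin.tail x) ∪ Set.range z) = ⊤)
    (h3 : ∏ i, x i = aeval z g) (h4 : g ≠ 0)
    (hact : ∀ τ ∈ G₁, (∀ i, ∃ (i' : Fin (q + 1)) (c : ℂ), τ (x i) = c • x i') ∧
    (∀ j, P j → τ (z j) ∈ Submodule.span ℂ {y | ∃ i, P i ∧ y = z i}) ∧
    (∀ j, P j → S j → ∃ (j' : Fin k) (c : ℂ), P j' ∧ S j' ∧ τ (z j) = c • z j') ∧
    ∀ j, ¬ P j → ∃ (j' : Fin k) (c : ℂ), ¬ P j' ∧ τ (z j) = c • z j') :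
    Q.IsQuotient (K := IntermediateField.fixedField G₁) x z g
      (fun j => if P j then (if S j then 1 else 0) else 2) G₁
      ((Algebra.adjoin ℂ (Set.range x ∪ Set.range z)).comap
        (IntermediateField.fixedField G₁).val) := by
  refine ⟨h1, h2, h3, h4, hfin, fun τ hτ => (hact τ hτ).1, ?_, ?_, ?_, ?_⟩
  · intro τ hτ j
    by_cases hj : P j
    · refine Submodule.span_mono ?_ ((hact τ hτ).2.1 j hj)
      rintro _ ⟨i, -, rfl⟩
      exact ⟨i, rfl⟩
    · obtain ⟨j', c, -, h⟩ := (hact τ hτ).2.2.2 j hj
      rw [h]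
      exact Submodule.smul_mem _ _ (Submodule.subset_span ⟨j', rfl⟩)
  · intro τ hτ j hb
    by_cases hj : P j
    · by_cases hs : S j
      · obtain ⟨j', c, hj', hs', h⟩ := (hact τ hτ).2.2.1 j hj hs
        exact ⟨j', c, by simp [hj, hs, hj', hs'], h⟩
      · simp [hj, hs] at hb
    · obtain ⟨j', c, hj', h⟩ := (hact τ hτ).2.2.2 j hj
      exact ⟨j', c, by simp [hj, hj'], h⟩
  · intro f
    constructor
    · rintro ⟨a, rfl⟩ τ hτ
      exact (IntermediateField.mem_fixedField_iff G₁ (a : L)).1 a.2 τ hτ
    · intro h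
      exact ⟨⟨f, (IntermediateField.mem_fixedField_iff G₁ f).2 h⟩, rfl⟩
  · intro a
    exact Iff.rfl

/-- **Reduction to the diagonal case.** -/
theorem exists_diagonal (q k J : ℕ) : ∃ J' : ℕ, ∀ (K L : Type) [Field K] [Field L] [Algebra ℂ K]
    [Algebra ℂ L] [Algebra K L] [IsScalarTower ℂ K L] (P S : Fin k → Prop)
    (x : Fin (q + 1) → L) (z : Fin k → L)
    (g : MvPolynomial (Fin k) ℂ) (G : Subgroup (L ≃ₐ[ℂ] L)) (A : Subalgebra ℂ K),
    IsPermCover J P S x z g G A →
    ∃ (v : Fin k → (Fin k → ℂ)) (g' : MvPolynomial (Fin k) ℂ), LinearIndependent ℂ v ∧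
      (∀ j, ¬ P j → v j = Pi.single j 1) ∧ (∀ j, P j → S j → v j = Pi.single j 1) ∧
      (∀ j, P j → Abs.lin z (v j) ∈ Submodule.span ℂ {y | ∃ i, P i ∧ y = z i}) ∧
      (∀ j, P j → z j ∈ Submodule.span ℂ {y | ∃ i, P i ∧ y = Abs.lin z (v i)}) ∧
      (∀ j, z j ≠ 0) ∧
      IsDiagonalCover J' P x (fun j => Abs.lin z (v j)) g' G A := by
  classical
  obtain ⟨J₁, hJ₁⟩ := Abs.exists_diag q k
  refine ⟨J₁ * J, ?_⟩
  intro K L _ _ _ _ _ _ P S x z g G A H
  obtain ⟨G₁, hle, hidx, hact⟩ := H.group
  have hfin : Finite G := H.finite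
  have hfin₁ : Finite G₁ := Set.Finite.subset (Set.toFinite (G : Set (L ≃ₐ[ℂ] L))) hle
  have HQ := isQuotient_sub P S x z g G₁ hfin₁ H.independent H.generate H.equation H.nonzero hact
  obtain ⟨G₀, v, hle₀, hidx₀, hv, hvb, hdiagx, hdiagz⟩ :=
    hJ₁ (IntermediateField.fixedField G₁) L x z g _ G₁ _ HQ
  have hvP : ∀ j, ¬ P j → v j = Pi.single j 1 := fun j hj => hvb j (by simp [hj])
  have hvS : ∀ j, P j → S j → v j = Pi.single j 1 := fun j hj hs => hvb j (by simp [hj, hs])
  set v' : Fin k → (Fin k → ℂ) := fun j => if P j then (fun i => if P i then v j i else 0)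
      else (Pi.single j 1 : Fin k → ℂ) with hv'def
  have hv' : LinearIndependent ℂ v' := proj_basis P v hv hvP
  have hv'P : ∀ j, ¬ P j → v' j = Pi.single j 1 := fun j hj => by simp only [hv'def, hj, if_false]
  have hv'S : ∀ j, P j → S j → v' j = Pi.single j 1 := by
    intro j hj hs
    simp only [hv'def, hj, if_true, hvS j hj hs]
    funext i
    by_cases hij : i = j
    · subst hij; simp [hj]
    · simp [Pi.single_apply, hij]
  have hv'0 : ∀ j, P j → ∀ i, ¬ P i → v' j i = 0 := by
    intro j hj i hi
    simp only [hv'def, hj, if_true, hi, if_false]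
  have hspan1 : ∀ a : Fin k → ℂ, (∀ i, ¬ P i → a i = 0) →
      Abs.lin z a ∈ Submodule.span ℂ {y | ∃ i, P i ∧ y = z i} := by
    intro a ha
    rw [Abs.lin_apply]
    refine Submodule.sum_mem _ fun i _ => ?_
    by_cases hi : P i
    · exact Submodule.smul_mem _ _ (Submodule.subset_span ⟨i, hi, rfl⟩)
    · rw [ha i hi, zero_smul]; exact Submodule.zero_mem _
  have hlin1 : ∀ j, P j → Abs.lin z (v' j) ∈ Submodule.span ℂ {y | ∃ i, P i ∧ y = z i} :=
    fun j hj => hspan1 _ (hv'0 j hj)
  -- the old coordinates in terms of the new ones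
  have hlin2 : ∀ j, P j → z j ∈ Submodule.span ℂ {y | ∃ i, P i ∧ y = Abs.lin z (v' i)} := by
    intro j hj
    have h1 : (⊤ : Submodule ℂ (Fin k → ℂ)) = Submodule.span ℂ (Set.range v') := by
      refine (hv'.span_eq_top_of_card_eq_finrank' ?_).symm
      simp only [Fintype.card_fin, Module.finrank_fintype_fun_eq_card]
    have h2 : (Pi.single j 1 : Fin k → ℂ) ∈ Submodule.span ℂ (Set.range v') := by
      rw [← h1]; exact Submodule.mem_top
    rw [Submodule.mem_span_range_iff_exists_fun] at h2
    obtain ⟨a, ha⟩ := h2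
    have h3 : ∀ l, ¬ P l → a l = 0 := by
      intro l hl
      have h4 := congrFun ha l
      rw [Finset.sum_apply, Finset.sum_eq_single l] at h4
      · rw [Pi.smul_apply, hv'P l hl, Pi.single_eq_same, smul_eq_mul, mul_one] at h4
        rw [h4, Pi.single_apply, if_neg]
        intro h5
        subst h5
        exact hl hj
      · intro i _ hil
        rw [Pi.smul_apply]
        by_cases hi : P i
        · rw [hv'0 i hi l hl, smul_zero]
        · rw [hv'P i hi, Pi.single_apply, if_neg (fun h => hil h.symm), smul_zero]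
      · intro h; exact absurd (Finset.mem_univ _) h
    rw [← Abs.lin_single z j, ← ha, map_sum]
    refine Submodule.sum_mem _ fun i _ => ?_
    rw [map_smul]
    by_cases hi : P i
    · exact Submodule.smul_mem _ _ (Submodule.subset_span ⟨i, hi, rfl⟩)
    · rw [h3 i hi, zero_smul]; exact Submodule.zero_mem _
  have hcoords := Abs.isCoords_nT v' hv' HQ
  have hcz : IsCoords (Abs.cT x z) := Abs.coords HQ
  have hzli : LinearIndependent ℂ z := by
    have h2 : LinearIndependent ℂ (Abs.cT x z) := hcz.ind.linearIndependent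
    exact h2.comp Sum.inr Sum.inr_injective
  have hz : ∀ j, z j ≠ 0 := fun j => hcz.ne_zero (Sum.inr j)
  -- diagonal action on the new coordinates
  have hdiag' : ∀ τ ∈ G₀, ∀ j, ∃ c : ℂ, τ (Abs.lin z (v' j)) = c • Abs.lin z (v' j) := by
    intro τ hτ j
    obtain ⟨c, hc⟩ := hdiagz τ hτ j
    by_cases hj : P j
    swap
    · rw [hv'P j hj, ← hvP j hj]; exact ⟨c, hc⟩
    refine ⟨c, ?_⟩
    let w : Fin k → ℂ := fun i => if P i then 0 else v j i
    have h1 : v j = v' j + w := by
      funext i
      simp only [hv'def, hj, if_true, Pi.add_apply, w]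
      by_cases hi : P i <;> simp [hi]
    have h2 : τ (Abs.lin z (v' j)) - c • Abs.lin z (v' j)
        = -(τ (Abs.lin z w) - c • Abs.lin z w) := by
      have h3 := hc
      rw [h1, map_add, map_add, smul_add] at h3
      linear_combination h3
    have hτ₁ := hact τ (hle₀ hτ)
    have hlinτ : ∀ a : Fin k → ℂ, τ (Abs.lin z a) = ∑ i, a i • τ (z i) := by
      intro a
      rw [Abs.lin_apply, map_sum]
      exact Finset.sum_congr rfl fun i _ => map_smul τ _ _
    have hdis := hzli.disjoint_span_image (s := {i | P i}) (t := {i | ¬ P i}) (by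
      rw [Set.disjoint_left]
      intro i hi hi'
      exact hi' hi)
    rw [Submodule.disjoint_def] at hdis
    have hset1 : {y | ∃ i, P i ∧ y = z i} = z '' {i | P i} := by
      ext y
      constructor
      · rintro ⟨i, hi, rfl⟩; exact ⟨i, hi, rfl⟩
      · rintro ⟨i, hi, rfl⟩; exact ⟨i, hi, rfl⟩
    have hA : τ (Abs.lin z (v' j)) - c • Abs.lin z (v' j) ∈ Submodule.span ℂ (z '' {i | P i}) := by
      rw [← hset1]
      refine Submodule.sub_mem _ ?_ (Submodule.smul_mem _ _ (hlin1 j hj))
      rw [hlinτ]
      refine Submodule.sum_mem _ fun i _ => ?_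
      by_cases hi : P i
      · exact Submodule.smul_mem _ _ (hτ₁.2.1 i hi)
      · rw [hv'0 j hj i hi, zero_smul]; exact Submodule.zero_mem _
    have hB : τ (Abs.lin z (v' j)) - c • Abs.lin z (v' j) ∈
        Submodule.span ℂ (z '' {i | ¬ P i}) := by
      rw [h2]
      refine Submodule.neg_mem _ (Submodule.sub_mem _ ?_ (Submodule.smul_mem _ _ ?_))
      · rw [hlinτ]
        refine Submodule.sum_mem _ fun i _ => ?_
        by_cases hi : P i
        · have : w i = 0 := by simp only [w, hi, if_true]
          rw [this, zero_smul]; exact Submodule.zero_mem _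
        · obtain ⟨j', c', hj', h⟩ := hτ₁.2.2.2 i hi
          rw [h]
          exact Submodule.smul_mem _ _ (Submodule.smul_mem _ _
            (Submodule.subset_span ⟨j', hj', rfl⟩))
      · rw [Abs.lin_apply]
        refine Submodule.sum_mem _ fun i _ => ?_
        by_cases hi : P i
        · have : w i = 0 := by simp only [w, hi, if_true]
          rw [this, zero_smul]; exact Submodule.zero_mem _
        · exact Submodule.smul_mem _ _ (Submodule.subset_span ⟨i, hi, rfl⟩)
    exact sub_eq_zero.1 (hdis _ hA hB)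
  -- the equation in the new coordinates
  obtain ⟨g', hg'1, hg'2⟩ : ∃ g' : MvPolynomial (Fin k) ℂ,
      aeval (fun j => Abs.lin z (v' j)) g' = aeval z g ∧
        ∀ μ ∈ g'.support, ∀ j, μ j ≠ 0 → P j := by
    have h1 : aeval z g ∈ Algebra.adjoin ℂ
        (Set.range fun j : {j // P j} => Abs.lin z (v' j.1)) := by
      have hsp : Submodule.span ℂ {y | ∃ i, P i ∧ y = Abs.lin z (v' i)} ≤
          Subalgebra.toSubmodule (Algebra.adjoin ℂ
            (Set.range fun j : {j // P j} => Abs.lin z (v' j.1))) := by
        rw [Submodule.span_le]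
        rintro _ ⟨i, hi, rfl⟩
        exact Algebra.subset_adjoin ⟨⟨i, hi⟩, rfl⟩
      rw [MvPolynomial.aeval_def, MvPolynomial.eval₂_eq']
      refine Subalgebra.sum_mem _ fun μ hμ => ?_
      refine Subalgebra.mul_mem _ (Subalgebra.algebraMap_mem _ _)
        (Subalgebra.prod_mem _ fun i _ => ?_)
      by_cases hi : P i
      · exact Subalgebra.pow_mem _ (hsp (hlin2 i hi)) _
      · have : μ i = 0 := by
          by_contra h0
          exact hi (H.vars μ hμ i h0)
        rw [this, pow_zero]
        exact Subalgebra.one_mem _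
    rw [Algebra.adjoin_range_eq_range_aeval] at h1
    obtain ⟨p, hp⟩ := h1
    refine ⟨rename Subtype.val p, ?_, ?_⟩
    · rw [aeval_rename, ← hp]
      rfl
    · intro μ hμ j hj
      rw [support_rename_of_injective Subtype.val_injective, Finset.mem_image] at hμ
      obtain ⟨ν, -, rfl⟩ := hμ
      have h2 : j ∈ (Finsupp.mapDomain Subtype.val ν).support := Finsupp.mem_support_iff.2 hj
      have h3 := Finsupp.mapDomain_support h2
      rw [Finset.mem_image] at h3
      obtain ⟨i, -, rfl⟩ := h3
      exact i.2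
  refine ⟨v', g', hv', hv'P, hv'S, hlin1, hlin2, hz, ?_⟩
  have hsp2 : ∀ i, P i → z i ∈ Algebra.adjoin ℂ
      (Set.range x ∪ {y | ∃ j, P j ∧ y = Abs.lin z (v' j)}) := by
    have hsp : Submodule.span ℂ {y | ∃ i, P i ∧ y = Abs.lin z (v' i)} ≤
        Subalgebra.toSubmodule (Algebra.adjoin ℂ
          (Set.range x ∪ {y | ∃ j, P j ∧ y = Abs.lin z (v' j)})) := by
      rw [Submodule.span_le]
      rintro _ ⟨i, hi, rfl⟩
      exact Algebra.subset_adjoin (Or.inr ⟨i, hi, rfl⟩)
    exact fun i hi => hsp (hlin2 i hi)
  exact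
    { independent := hcoords.ind
      generate := by
        rw [eq_top_iff, ← H.generate, IntermediateField.adjoin_le_iff]
        rintro y (⟨l, rfl⟩ | ⟨j, rfl⟩)
        · exact IntermediateField.subset_adjoin _ _ (Or.inl ⟨l, rfl⟩)
        · have h1 := Abs.z_mem (z := z) v' hv' j
          have h2 : Submodule.span ℂ (Set.range fun j => Abs.lin z (v' j)) ≤
              Subalgebra.toSubmodule (IntermediateField.adjoin ℂ (Set.range (Fin.tail x) ∪
                Set.range fun j => Abs.lin z (v' j))).toSubalgebra := by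
            rw [Submodule.span_le]
            rintro _ ⟨i, rfl⟩
            exact IntermediateField.subset_adjoin ℂ (Set.range (Fin.tail x) ∪
                Set.range fun j => Abs.lin z (v' j)) (Or.inr ⟨i, rfl⟩)
          exact h2 h1
      equation := by rw [hg'1]; exact H.equation
      nonzero := by
        intro h0
        rw [h0, map_zero] at hg'1
        exact Abs.aeval_z_ne HQ H.nonzero hg'1.symm
      vars := hg'2
      finite := H.finite
      field := H.field
      diagonal := by
        refine ⟨G₀, hle₀.trans hle, ?_, fun τ hτ => ⟨hdiagx τ hτ, hdiag' τ hτ⟩⟩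
        rw [← Subgroup.relIndex_mul_relIndex G₀ G₁ G hle₀ hle]
        exact Nat.mul_le_mul hidx₀ hidx
      ring := by
        intro a ha
        have h1 : Algebra.adjoin ℂ (Set.range x ∪ {y | ∃ j, P j ∧ y = z j}) ≤
            Algebra.adjoin ℂ (Set.range x ∪ {y | ∃ j, P j ∧ y = Abs.lin z (v' j)}) := by
          rw [Algebra.adjoin_le_iff]
          rintro y (⟨i, rfl⟩ | ⟨i, hi, rfl⟩)
          · exact Algebra.subset_adjoin (Or.inl ⟨i, rfl⟩)
          · exact hsp2 i hi
        exact h1 (H.ring a ha)
      integralX := H.integralX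
      integralZ := by
        intro j hj
        have h1 : ∀ y ∈ Submodule.span ℂ {y | ∃ i, P i ∧ y = z i}, IsIntegral A y := by
          intro y hy
          induction hy using Submodule.span_induction with
          | mem y hy =>
            obtain ⟨i, hi, rfl⟩ := hy
            exact H.integralZ i hi
          | zero => exact isIntegral_zero
          | add a b _ _ ha hb => exact ha.add hb
          | smul c a _ ha =>
            have h2 : c • a = algebraMap A L (algebraMap ℂ A c) * a := by
              rw [Algebra.smul_def]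
              congr 1
              exact IsScalarTower.algebraMap_apply ℂ K L c
            rw [h2]
            exact isIntegral_algebraMap.mul ha
        exact h1 _ (hlin1 j hj) }

end Vale.Agent.P283.H207
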