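import Vale.Agent.P283.H207.Ideal

/-!
Bounded klt complements for birational contractions to `X = Y / G`.
-/

attribute [-instance] ProperSMul.toContinuousSMul IsTopologicalTorsor.toContinuousSMul IdemSemiring.toCanonicallyOrderedAdd IdemSemiring.toMulLeftMono IdemSemiring.toMulRightMono AddQuantale.instAddLeftMono AddQuantale.instAddRightMono Quantale.instMulLeftMono Quantale.instMulRightMono FiniteDimensional.rclike_to_real IsScalarTower.complexToReal FiniteDimensional.complexToReal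

set_option linter.all false
set_option linter.style.haveILetI false

namespace Vale.Agent.P283.H207

open scoped KaehlerDifferential
open MvPolynomial Finset

/-- The order of `r (K_{X'} + B')` along `w`. -/
noncomputable def kap {q k N : ℕ} {L : Type} [Field L] [Algebra ℂ L] (z : Fin k → L) (F₀ : L)
    (M : Fin (N + 1) → ℕ) (E : Fin (N + 1) → Fin k → ℤ) (r : ℕ)
    (w : AddValuation L (WithTop ℤ)) : ℤ :=
  r * ov w F₀ + ordIdeal M E fun j => ov w (z j)

theorem result_qk (q k : ℕ) (hd : 0 < q + k) : ∃ c₀ : ℕ, 0 < c₀ ∧ ∀ ε : ℝ, 0 < ε →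
    ∀ n : ℕ, c₀ ∣ n → (c₀ : ℝ) * (1 + 1 / ε) ≤ n →
    ∀ (K L : Type) [Field K] [Field L] [Algebra ℂ K] [Algebra ℂ L]
      [Algebra K L] [IsScalarTower ℂ K L] (x : Fin (q + 1) → L) (z : Fin k → L)
      (g : MvPolynomial (Fin k) ℂ) (b : Fin k → ℚ) (G : Subgroup (L ≃ₐ[ℂ] L))
      (A : Subalgebra ℂ K), Q.IsQuotient x z g b G A →
    ∀ ω : ⋀[K]^(q + k) (Ω[K⁄ℂ]), ω ≠ 0 → ∀ F₀ : L, F₀ ≠ 0 → IsPullback ω (F₀ • Abs.omY x z) →
    ∀ (N : ℕ) (M : Fin (N + 1) → ℕ) (E : Fin (N + 1) → Fin k → ℤ) (r : ℕ), 0 < r →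
      (∀ i j, E i j ≠ 0 → b j ≠ 0) →
      (∀ (v : AddValuation K (WithTop ℤ)) (w w' : AddValuation L (WithTop ℤ)) (e : ℕ),
        IsDivisorial (q + k) v → IsOver A v → 0 < e → (∃ f, w f = 1) → (∃ f, w' f = 1) →
        (∀ f : K, w (algebraMap K L f) = e • v f) → (∀ f : K, w' (algebraMap K L f) = e • v f) →
        kap (q := q) z F₀ M E r w = kap (q := q) z F₀ M E r w') →
      (∀ (v : AddValuation K (WithTop ℤ)) (w : AddValuation L (WithTop ℤ)) (e : ℕ) (m : ℤ),
        IsDivisorial (q + k) v → IsOver A v → FormOrder (q + k) v ω m → 0 < e → (∃ f, w f = 1) →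
        (∀ f : K, w (algebraMap K L f) = e • v f) →
        (e : ℝ) * ε ≤ e * (1 + m) - (kap (q := q) z F₀ M E r w : ℝ) / r) →
      ∃ φ : K, φ ≠ 0 ∧
        (∀ (v : AddValuation K (WithTop ℤ)) (w : AddValuation L (WithTop ℤ)) (e : ℕ),
          IsDivisorial (q + k) v → IsOver A v → 0 < e → (∃ f, w f = 1) →
          (∀ f : K, w (algebraMap K L f) = e • v f) →
          (n : ℝ) * ((kap (q := q) z F₀ M E r w : ℝ) / r) ≤ e * ov v φ) ∧
        (∀ (v : AddValuation K (WithTop ℤ)) (m : ℤ), IsDivisorial (q + k) v → IsOver A v →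
          FormOrder (q + k) v ω m → ov v φ < n * (1 + m)) := by
  classical
  obtain ⟨J, hJ⟩ := Abs.exists_diag q k
  obtain ⟨c₁, hc₁pos, heng⟩ := engine q k hd J
  refine ⟨c₁ * J.factorial, Nat.mul_pos hc₁pos (Nat.factorial_pos J), ?_⟩
  intro ε hε n hn hn' K L _ _ _ _ _ _ x z g b G A H ω hω F₀ hF₀ hpull N M E r hr hEb hκ hlc
  obtain ⟨m', rfl⟩ := hn
  -- the multiple
  have hJR : (0 : ℝ) < (c₁ * J.factorial : ℕ) := by
    exact_mod_cast Nat.mul_pos hc₁pos (Nat.factorial_pos J)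
  have hm' : 1 + 1 / ε ≤ (m' : ℝ) := by
    rw [Nat.cast_mul (c₁ * J.factorial) m'] at hn'
    exact le_of_mul_le_mul_left hn' hJR
  have hN : (c₁ : ℝ) * (1 + 1 / ε) ≤ ((c₁ * m' : ℕ) : ℝ) := by
    rw [Nat.cast_mul]
    exact mul_le_mul_of_nonneg_left hm' (by positivity)
  have hnn : c₁ * m' * J.factorial = c₁ * J.factorial * m' := by ring
  obtain ⟨G0, v, hle, hidx, hv, hvb, hdiag0, hdiag⟩ := hJ K L x z g b G A H
  obtain ⟨g', hg', haev⟩ := Abs.exists_newg v hv H
  obtain ⟨c₀, hc₀, homega⟩ := Abs.omY_eq v hv H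
  have hcoords := Abs.isCoords_nT v hv H
  -- the data
  have hdata : EngineData q k J (Abs.nT x z v) g' (x 0) G G0 A :=
    { coords := hcoords
      g_ne := hg'
      x0_eq := by
        rw [haev]
        exact Abs.x0_mul H
      fin := H.finite
      fix := fun f => (H.field f).symm
      le := hle
      index := hidx
      diag := by
        rintro τ hτ (l | j)
        · exact hdiag0 τ hτ l.succ
        · exact hdiag τ hτ j
      diag0 := fun τ hτ => hdiag0 τ hτ 0
      frac := by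
        intro f
        obtain ⟨x, hx, y, hy, hy0, h⟩ := Abs.ring_frac H f
        exact ⟨x, hx, y, hy, hy0, h⟩
      sub := fun a ha => Abs.ring_sub H v hv a ha
      int0 := Abs.rY_integral H (Abs.x_mem x z 0)
      int := by
        rintro (l | j)
        · exact Abs.rY_integral H (Abs.x_mem x z l.succ)
        · exact Abs.rY_integral H (Abs.lin_mem x z _) }
  let zz : Fin k → L := fun j => Abs.lin z (v j)
  have hzz : ∀ j, zz j ≠ 0 := fun j => hcoords.ne_zero (Sum.inr j)
  have hz : ∀ j, z j ≠ 0 := fun j => Abs.z_ne H j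
  have hzb : ∀ j, b j ≠ 0 → zz j = z j := by
    intro j hj
    show Abs.lin z (v j) = _
    rw [hvb j hj, Abs.lin_single]
  have hc₁ : algebraMap ℂ L c₀ ≠ 0 := (map_ne_zero _).mpr hc₀
  let h : L := F₀ * (algebraMap ℂ L c₀ * ∏ j, zz j)
  have hprodzz : ∏ j, zz j ≠ 0 := Finset.prod_ne_zero_iff.mpr fun j _ => hzz j
  have hh0 : h ≠ 0 := mul_ne_zero hF₀ (mul_ne_zero hc₁ hprodzz)
  have hpull' : IsPullback ω (h • logForm (Abs.nT x z v)) := by
    have : h • logForm (Abs.nT x z v) = F₀ • Abs.omY x z := by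
      rw [homega, smul_smul]
    rw [this]
    exact hpull
  have hinv : ∀ τ ∈ G0, τ h = h := by
    intro τ hτ
    refine h_invariant (Abs.nT x z v) hcoords τ
      (fun f => (H.field _).mp ⟨f, rfl⟩ τ (hle hτ)) ?_ ω h hpull'
    rintro (l | j)
    · exact hdiag0 τ hτ l.succ
    · exact hdiag τ hτ j
  obtain ⟨ι, _, _, c, hc⟩ := exists_family M E r hr
  have hrR : (r : ℝ) ≠ 0 := by positivity
  -- the order of `K + B` in terms of the family
  have key : ∀ (v' : AddValuation K (WithTop ℤ)) (w : AddValuation L (WithTop ℤ)) (e : ℕ),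
      IsDivisorial (q + k) v' → (∀ f : K, w (algebraMap K L f) = e • v' f) →
      (ov w h : ℝ) - (PsiF c fun j => (ov w (Abs.nT x z v (Sum.inr j)) : ℝ))
        = (kap (q := q) z F₀ M E r w : ℝ) / r := by
    intro v' w e hv' hvw
    have hwc : ∀ a : ℂ, a ≠ 0 → w (algebraMap ℂ L a) = 0 := by
      intro a ha
      rw [IsScalarTower.algebraMap_apply ℂ K L, hvw, hv'.const a ha, smul_zero]
    have h2 : ov w h = ov w F₀ + ∑ j, ov w (zz j) := by
      show ov w (F₀ * (algebraMap ℂ L c₀ * ∏ j, zz j)) = _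
      rw [ov_mul w hF₀ (mul_ne_zero hc₁ hprodzz), ov_mul w hc₁ hprodzz,
        ov_eq_of w (hwc c₀ hc₀), zero_add, ov_prod Finset.univ zz (fun j _ => hzz j)]
    have h3 : ordIdeal M E (fun j => ov w (zz j)) = ordIdeal M E fun j => ov w (z j) := by
      refine ordIdeal_congr M E _ _ (le_antisymm ?_ ?_) ?_
      · exact inf_le_of_span w hwc zz z hzz hz fun j => Abs.z_mem v hv j
      · refine inf_le_of_span w hwc z zz hz hzz fun j => ?_
        show Abs.lin z (v j) ∈ _
        rw [Abs.lin_apply]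
        exact Submodule.sum_mem _ fun i _ => Submodule.smul_mem _ _
          (Submodule.subset_span ⟨i, rfl⟩)
      · intro i j hij
        simp only [hzb j (hEb i j hij)]
    have h4 := hc fun j => ov w (zz j)
    show (ov w h : ℝ) - (PsiF c fun j => (ov w (zz j) : ℝ)) = _
    rw [h4, h3, h2]
    unfold kap
    push_cast
    field_simp
    ring
  obtain ⟨φ, hφ0, hφ1, hφ2⟩ := heng ε hε (c₁ * m') hN K L (Abs.nT x z v) g' (x 0) G G0 A hdata
    ω h hω hh0 hpull' hinv ι c
    (by
      intro v' w w' e hv' hover he hw hw' hvw hvw'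
      rw [key v' w e hv' hvw, key v' w' e hv' hvw',
        hκ v' w w' e hv' hover he hw hw' hvw hvw'])
    (by
      intro v' w e m hv' hover hm he hw hvw
      have h1 := hlc v' w e m hv' hover hm he hw hvw
      have h2 := key v' w e hv' hvw
      linarith only [h1, h2])
  rw [hnn] at hφ1 hφ2
  refine ⟨φ, hφ0, ?_, ?_⟩
  · intro v' w e hv' hover he hw hvw
    have h1 := hφ1 v' w e hv' hover he hw hvw
    rw [key v' w e hv' hvw] at h1
    exact h1
  · intro v' m hv' hover hm
    exact hφ2 v' m hv' hover hm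

end Vale.Agent.P283.H207
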