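import Mathlib.LinearAlgebra.Matrix.Determinant.Basic
import Mathlib.Data.ZMod.Basic
import Mathlib.Tactic

/-!
Minkowski's lemma: an integral matrix of finite order which is congruent to `1` modulo `3` is `1`.
-/

set_option linter.all false

namespace Vale.Agent.P283.H207.Mink

variable {k : ℕ}

lemma binom (X : Matrix (Fin k) (Fin k) ℤ) (m : ℕ) :
    ∃ Q : Matrix (Fin k) (Fin k) ℤ, (1 + X) ^ m = 1 + (m : ℤ) • X + X * X * Q := by
  induction m with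
  | zero => exact ⟨0, by simp⟩
  | succ m ih =>
    obtain ⟨Q, hQ⟩ := ih
    refine ⟨(m : ℤ) • 1 + Q + Q * X, ?_⟩
    rw [pow_succ, hQ]
    push_cast
    simp only [mul_add, add_mul, one_mul, mul_one, add_smul, one_smul, smul_mul_assoc,
      mul_smul_comm, mul_assoc]
    abel

lemma eq_one_of_all (B : Matrix (Fin k) (Fin k) ℤ)
    (h : ∀ a : ℕ, ∃ N : Matrix (Fin k) (Fin k) ℤ, B = 1 + (3 : ℤ) ^ (a + 1) • N) : B = 1 := by
  ext i j
  by_contra hne
  have h0 : B i j - (1 : Matrix (Fin k) (Fin k) ℤ) i j ≠ 0 := sub_ne_zero.2 hne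
  set x := B i j - (1 : Matrix (Fin k) (Fin k) ℤ) i j with hx
  obtain ⟨N, hN⟩ := h x.natAbs
  have h1 : x = 3 ^ (x.natAbs + 1) * N i j := by
    have := congrFun (congrFun hN i) j
    rw [Matrix.add_apply, Matrix.smul_apply, smul_eq_mul] at this
    rw [hx] at this ⊢
    linarith
  have h2 : ((3 : ℤ) ^ (x.natAbs + 1)) ∣ x := ⟨_, h1⟩
  have h3 := Int.natAbs_dvd_natAbs.2 h2
  rw [Int.natAbs_pow] at h3
  have h4 := Nat.le_of_dvd (Int.natAbs_pos.2 h0) h3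
  have h5 : x.natAbs < 3 ^ x.natAbs := Nat.lt_pow_self (by norm_num)
  have h6 : 3 ^ x.natAbs ≤ 3 ^ (x.natAbs + 1) := Nat.pow_le_pow_right (by norm_num) (Nat.le_succ _)
  have h7 : ((3 : ℤ).natAbs) = 3 := rfl
  rw [h7] at h4
  omega

lemma eq_one_aux (B : Matrix (Fin k) (Fin k) ℤ) (h1 : ∃ N : Matrix (Fin k) (Fin k) ℤ,
      B = 1 + (3 : ℤ) • N)
    (h2 : ∀ (a : ℕ) (N : Matrix (Fin k) (Fin k) ℤ), B = 1 + (3 : ℤ) ^ (a + 1) • N →
      ∀ i j, (3 : ℤ) ∣ N i j) : B = 1 := by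
  apply eq_one_of_all
  intro a
  induction a with
  | zero => simpa using h1
  | succ a ih =>
    obtain ⟨N, hN⟩ := ih
    choose N' hN' using h2 a N hN
    refine ⟨Matrix.of N', ?_⟩
    have h3 : N = (3 : ℤ) • Matrix.of N' := by
      ext i j
      rw [Matrix.smul_apply, smul_eq_mul, Matrix.of_apply]
      exact hN' i j
    conv_lhs => rw [hN, h3]
    rw [smul_smul, pow_succ (3 : ℤ) (a + 1)]

lemma eq_one_coprime (B : Matrix (Fin k) (Fin k) ℤ) (h1 : ∃ N : Matrix (Fin k) (Fin k) ℤ,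
      B = 1 + (3 : ℤ) • N) (m : ℕ) (hm : ¬ 3 ∣ m) (h2 : B ^ m = 1) : B = 1 := by
  apply eq_one_aux B h1
  intro a N hN i j
  obtain ⟨Q, hQ⟩ := binom ((3 : ℤ) ^ (a + 1) • N) m
  rw [← hN, h2] at hQ
  have h3 : (m : ℤ) • (3 : ℤ) ^ (a + 1) • N
      + (3 : ℤ) ^ (a + 1) • N * (3 : ℤ) ^ (a + 1) • N * Q = 0 := by
    have h4 : (1 : Matrix (Fin k) (Fin k) ℤ) = 1 + ((m : ℤ) • (3 : ℤ) ^ (a + 1) • N
      + (3 : ℤ) ^ (a + 1) • N * (3 : ℤ) ^ (a + 1) • N * Q) := by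
      rw [← add_assoc]; exact hQ
    exact (add_eq_left.1 h4.symm)
  have h5 := congrFun (congrFun h3 i) j
  have h6 : ((3 : ℤ) ^ (a + 1) • N * (3 : ℤ) ^ (a + 1) • N * Q) i j
      = 3 ^ (a + 1) * (3 ^ (a + 1) * (N * N * Q) i j) := by
    rw [smul_mul_assoc, mul_smul_comm, smul_mul_assoc, smul_mul_assoc, Matrix.smul_apply,
      Matrix.smul_apply, smul_eq_mul, smul_eq_mul]
  rw [Matrix.add_apply, h6, Matrix.smul_apply, Matrix.smul_apply, smul_eq_mul, smul_eq_mul,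
    Matrix.zero_apply] at h5
  have h7 : (3 : ℤ) ^ (a + 1) ≠ 0 := by positivity
  have h8 : (m : ℤ) * N i j = -(3 ^ (a + 1) * (N * N * Q) i j) := by
    have h9 : (3 : ℤ) ^ (a + 1) * ((m : ℤ) * N i j + 3 ^ (a + 1) * (N * N * Q) i j) = 0 := by
      linarith
    have := (mul_eq_zero.1 h9).resolve_left h7
    linarith
  have h10 : (3 : ℤ) ∣ (m : ℤ) * N i j := by
    rw [h8, dvd_neg, pow_succ']
    exact ⟨3 ^ a * (N * N * Q) i j, by ring⟩
  have h11 : ¬ (3 : ℤ) ∣ m := by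
    intro h
    exact hm (by exact_mod_cast h)
  exact (Int.prime_three.dvd_or_dvd h10).resolve_left h11

lemma eq_one_cube (B : Matrix (Fin k) (Fin k) ℤ) (h1 : ∃ N : Matrix (Fin k) (Fin k) ℤ,
      B = 1 + (3 : ℤ) • N) (h2 : B ^ 3 = 1) : B = 1 := by
  apply eq_one_aux B h1
  intro a N hN i j
  set X := (3 : ℤ) ^ (a + 1) • N with hX
  have hQ : (1 + X) ^ 3 = 1 + (3 : ℤ) • X + (3 : ℤ) • (X * X) + X * X * X := by
    have h3 : (3 : ℤ) • X = X + X + X := by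
      rw [show (3 : ℤ) = 1 + 1 + 1 by norm_num, add_smul, add_smul, one_smul]
    have h4 : (3 : ℤ) • (X * X) = X * X + X * X + X * X := by
      rw [show (3 : ℤ) = 1 + 1 + 1 by norm_num, add_smul, add_smul, one_smul]
    rw [h3, h4, pow_succ, pow_succ, pow_one]
    simp only [mul_add, add_mul, one_mul, mul_one, mul_assoc]
    abel
  rw [← hN, h2] at hQ
  have h3 : (3 : ℤ) • X + (3 : ℤ) • (X * X) + X * X * X = 0 := by
    have h4 : (1 : Matrix (Fin k) (Fin k) ℤ)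
        = 1 + ((3 : ℤ) • X + (3 : ℤ) • (X * X) + X * X * X) := by
      rw [← add_assoc, ← add_assoc]; exact hQ
    exact (add_eq_left.1 h4.symm)
  have h5 := congrFun (congrFun h3 i) j
  have h6 : (X * X) i j = 3 ^ (a + 1) * (3 ^ (a + 1) * (N * N) i j) := by
    rw [hX, smul_mul_assoc, mul_smul_comm, Matrix.smul_apply, Matrix.smul_apply, smul_eq_mul,
      smul_eq_mul]
  have h7 : (X * X * X) i j = 3 ^ (a + 1) * (3 ^ (a + 1) * (3 ^ (a + 1) * (N * N * N) i j)) := by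
    rw [hX]
    simp only [smul_mul_assoc, mul_smul_comm, Matrix.smul_apply, smul_eq_mul]
  have h8 : X i j = 3 ^ (a + 1) * N i j := by
    rw [hX, Matrix.smul_apply, smul_eq_mul]
  rw [Matrix.add_apply, Matrix.add_apply, h7, Matrix.smul_apply, Matrix.smul_apply, h6, h8,
    smul_eq_mul, smul_eq_mul, Matrix.zero_apply] at h5
  have h9 : (3 : ℤ) ^ (a + 2) ≠ 0 := by positivity
  have h10 : (3 : ℤ) ^ (a + 2) * (N i j + 3 * (3 ^ a * (N * N) i j)
      + 3 * (3 ^ a * 3 ^ a * (N * N * N) i j)) = 0 := by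
    rw [← h5]; ring
  have h11 := (mul_eq_zero.1 h10).resolve_left h9
  exact ⟨-(3 ^ a * (N * N) i j) - (3 ^ a * 3 ^ a * (N * N * N) i j), by linarith⟩

/-- **Minkowski's lemma.** -/
theorem minkowski (A : Matrix (Fin k) (Fin k) ℤ) (h1 : ∃ N : Matrix (Fin k) (Fin k) ℤ,
      A = 1 + (3 : ℤ) • N) (n : ℕ) (hn : 0 < n) (h2 : A ^ n = 1) : A = 1 := by
  have hpow : ∀ m : ℕ, ∃ N : Matrix (Fin k) (Fin k) ℤ, A ^ m = 1 + (3 : ℤ) • N := by
    intro m
    obtain ⟨N, hN⟩ := h1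
    obtain ⟨Q, hQ⟩ := binom ((3 : ℤ) • N) m
    refine ⟨(m : ℤ) • N + (3 : ℤ) • (N * N * Q), ?_⟩
    rw [hN, hQ]
    simp only [smul_add, smul_mul_assoc, mul_smul_comm, smul_smul]
    rw [mul_comm (m : ℤ) 3, ← add_assoc]
  induction n using Nat.strong_induction_on with
  | _ n ih =>
    by_cases h3 : 3 ∣ n
    · obtain ⟨m, rfl⟩ := h3
      have hm : 0 < m := by omega
      have h4 : A ^ m = 1 := by
        apply eq_one_cube _ (hpow m)
        rw [← pow_mul, mul_comm]; exact h2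
      exact ih m (by omega) hm h4
    · exact eq_one_coprime A h1 n h3 h2

end Vale.Agent.P283.H207.Mink
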