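import Vale.Agent.P283.H207.LinP
import Vale.Agent.P283.H207.Mink

/-!
Reduction of groups which act on the fibre coordinates by monomial transformations to groups which
permute the fibre coordinates.
-/

attribute [-instance] ProperSMul.toContinuousSMul IsTopologicalTorsor.toContinuousSMul IdemSemiring.toCanonicallyOrderedAdd IdemSemiring.toMulLeftMono IdemSemiring.toMulRightMono AddQuantale.instAddLeftMono AddQuantale.instAddRightMono Quantale.instMulLeftMono Quantale.instMulRightMono FiniteDimensional.rclike_to_real IsScalarTower.complexToReal FiniteDimensional.complexToReal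

set_option linter.all false
set_option linter.style.haveILetI false

namespace Vale.Agent.P283.H207

open MvPolynomial Finset

section Mono

variable {k : ℕ} {L : Type} [Field L] [Algebra ℂ L] {z : Fin k → L}

/-- Laurent monomials -/
noncomputable def lmon (z : Fin k → L) (u : Fin k → ℤ) : L := ∏ i, z i ^ u i

lemma lmon_add (hz : ∀ i, z i ≠ 0) (u u' : Fin k → ℤ) :
    lmon z (u + u') = lmon z u * lmon z u' := by
  unfold lmon
  rw [← Finset.prod_mul_distrib]
  exact Finset.prod_congr rfl fun i _ => by rw [Pi.add_apply, zpow_add₀ (hz i)]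

lemma lmon_ne_zero (hz : ∀ i, z i ≠ 0) (u : Fin k → ℤ) : lmon z u ≠ 0 :=
  Finset.prod_ne_zero_iff.2 fun i _ => zpow_ne_zero _ (hz i)

lemma lmon_single (j : Fin k) : lmon z (Pi.single j 1) = z j := by
  unfold lmon
  rw [Finset.prod_eq_single j]
  · rw [Pi.single_eq_same, zpow_one]
  · intro i _ hij
    rw [Pi.single_eq_of_ne hij, zpow_zero]
  · intro h; exact absurd (Finset.mem_univ _) h

/-- Laurent monomials are independent. -/
lemma lmon_unique (hz : AlgebraicIndependent ℂ z) (hz0 : ∀ i, z i ≠ 0) (u u' : Fin k → ℤ)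
    (c c' : ℂ) (hc : c ≠ 0) (h : c • lmon z u = c' • lmon z u') : u = u' := by
  -- clear denominators
  let a : Fin k → ℕ := fun i => (u i - min (u i) (u' i)).toNat
  let a' : Fin k → ℕ := fun i => (u' i - min (u i) (u' i)).toNat
  let m : Fin k → ℤ := fun i => min (u i) (u' i)
  have ha : ∀ i, ((a i : ℕ) : ℤ) = u i - m i := fun i =>
    Int.toNat_of_nonneg (sub_nonneg.2 (min_le_left _ _))
  have ha' : ∀ i, ((a' i : ℕ) : ℤ) = u' i - m i := fun i =>
    Int.toNat_of_nonneg (sub_nonneg.2 (min_le_right _ _))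
  have h1 : lmon z u = lmon z (fun i => (a i : ℤ)) * lmon z m := by
    rw [← lmon_add hz0]
    congr 1
    funext i
    rw [Pi.add_apply, ha]; ring
  have h2 : lmon z u' = lmon z (fun i => (a' i : ℤ)) * lmon z m := by
    rw [← lmon_add hz0]
    congr 1
    funext i
    rw [Pi.add_apply, ha']; ring
  have h3 : c • lmon z (fun i => (a i : ℤ)) = c' • lmon z (fun i => (a' i : ℤ)) := by
    rw [h1, h2, ← smul_mul_assoc, ← smul_mul_assoc] at h
    exact mul_right_cancel₀ (lmon_ne_zero hz0 m) h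
  have h4 : ∀ (b : Fin k → ℕ) (e : ℂ), e • lmon z (fun i => (b i : ℤ))
      = aeval z (monomial (Finsupp.equivFunOnFinite.symm b) e) := by
    intro b e
    rw [aeval_monomial, Algebra.smul_def]
    congr 1
    unfold lmon
    rw [Finsupp.prod_fintype _ _ (fun i => pow_zero _)]
    exact Finset.prod_congr rfl fun i _ => by rw [zpow_natCast]; rfl
  rw [h4, h4] at h3
  have h5 := hz h3
  have h6 : c' ≠ 0 := by
    intro h0
    rw [h0, monomial_zero, monomial_eq_zero] at h5
    exact hc h5
  have h7 := (monomial_eq_monomial_iff _ _ _ _).1 h5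
  rcases h7 with ⟨h8, -⟩ | ⟨h8, -⟩
  · have h9 : a = a' := Finsupp.equivFunOnFinite.symm.injective h8
    funext i
    have h10 := congrFun h9 i
    have h11 := ha i
    have h12 := ha' i
    rw [h10] at h11
    linarith
  · exact absurd h8 hc

/-- the image of a monomial -/
lemma map_lmon (hz0 : ∀ i, z i ≠ 0) (τ : L ≃ₐ[ℂ] L) (I : Fin k → Prop) (M : Fin k → Fin k → ℤ)
    (c : Fin k → ℂ) (h : ∀ j, I j → τ (z j) = c j • lmon z (M j)) (u : Fin k → ℤ)
    (hu : ∀ j, u j ≠ 0 → I j) :
    ∃ e : ℂ, τ (lmon z u) = e • lmon z (fun l => ∑ j, u j * M j l) := by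
  classical
  refine ⟨∏ j, c j ^ u j, ?_⟩
  have h1 : ∀ j, τ (z j ^ u j) = algebraMap ℂ L (c j ^ u j) * ∏ l, z l ^ (u j * M j l) := by
    intro j
    by_cases hj : u j = 0
    · rw [hj]; simp
    · rw [map_zpow₀, h j (hu j hj), Algebra.smul_def, mul_zpow, map_zpow₀]
      congr 1
      unfold lmon
      rw [← Finset.prod_zpow]
      exact Finset.prod_congr rfl fun l _ => by rw [← zpow_mul, mul_comm (M j l)]
  have h2 : τ (lmon z u) = ∏ j, τ (z j ^ u j) := by unfold lmon; rw [map_prod]
  rw [h2, Finset.prod_congr rfl fun j _ => h1 j, Finset.prod_mul_distrib, Algebra.smul_def,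
    map_prod, Finset.prod_comm]
  congr 1
  unfold lmon
  refine Finset.prod_congr rfl fun l _ => ?_
  have h3 : ∀ s : Finset (Fin k), ∏ j ∈ s, z l ^ (u j * M j l) = z l ^ ∑ j ∈ s, u j * M j l := by
    intro s
    induction s using Finset.induction_on with
    | empty => simp
    | insert j s hj ih => rw [Finset.prod_insert hj, Finset.sum_insert hj, ih, zpow_add₀ (hz0 l)]
  exact h3 _

/-- **Groups of monomial transformations**: a subgroup of bounded index acts diagonally. -/
theorem mono_index (hz : AlgebraicIndependent ℂ z) (G₁ : Subgroup (L ≃ₐ[ℂ] L)) (hfin : Finite G₁)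
    (I : Fin k → Prop) (h : ∀ τ ∈ G₁, ∀ j, I j → ∃ (u : Fin k → ℤ) (c : ℂ),
      (∀ i, u i ≠ 0 → I i) ∧ τ (z j) = c • ∏ i, z i ^ u i) :
    ((stab fun j : {j // I j} => z j.1).subgroupOf G₁).index
      ≤ Fintype.card (Matrix (Fin k) (Fin k) (ZMod 3)) := by
  classical
  have hz0 : ∀ i, z i ≠ 0 := fun i => hz.ne_zero i
  have h' : ∀ τ : G₁, ∀ j, ∃ (u : Fin k → ℤ), (I j → (∀ i, u i ≠ 0 → I i) ∧
      ∃ c : ℂ, τ.1 (z j) = c • lmon z u) ∧ (¬ I j → u = Pi.single j 1) := by
    intro τ j
    by_cases hj : I j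
    · obtain ⟨u, c, h1, h2⟩ := h τ.1 τ.2 j hj
      exact ⟨u, fun _ => ⟨h1, c, h2⟩, fun h0 => absurd hj h0⟩
    · exact ⟨Pi.single j 1, fun h0 => absurd h0 hj, fun _ => rfl⟩
  choose M hM1 hM2 using h'
  have hMI : ∀ (τ : G₁) j, I j → ∀ i, M τ j i ≠ 0 → I i := fun τ j hj => (hM1 τ j hj).1
  have hMc : ∀ (τ : G₁) j, ∃ c : ℂ, I j → τ.1 (z j) = c • lmon z (M τ j) := by
    intro τ j
    by_cases hj : I j
    · obtain ⟨c, hc⟩ := (hM1 τ j hj).2
      exact ⟨c, fun _ => hc⟩
    · exact ⟨0, fun h0 => absurd h0 hj⟩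
  choose c hc using hMc
  have hc0 : ∀ (τ : G₁) j, I j → c τ j ≠ 0 := by
    intro τ j hj h0
    have h1 := hc τ j hj
    rw [h0, zero_smul] at h1
    exact hz0 j ((map_eq_zero _).1 h1)
  -- uniqueness
  have huniq : ∀ (τ : G₁) (j : Fin k), I j → ∀ (u : Fin k → ℤ) (e : ℂ),
      τ.1 (z j) = e • lmon z u → M τ j = u := by
    intro τ j hj u e he
    refine lmon_unique hz hz0 (M τ j) u (c τ j) e (hc0 τ j hj) ?_
    rw [← hc τ j hj, he]
  -- composition
  have hmul : ∀ τ σ : G₁, Matrix.of (M (τ * σ)) = Matrix.of (M σ) * Matrix.of (M τ) := by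
    intro τ σ
    ext j l
    rw [Matrix.mul_apply]
    simp only [Matrix.of_apply]
    by_cases hj : I j
    · obtain ⟨e, he⟩ := map_lmon hz0 τ.1 I (M τ) (c τ) (fun j hj => hc τ j hj) (M σ j)
        (hMI σ j hj)
      have h1 : (τ * σ).1 (z j) = (c σ j * e) • lmon z (fun l => ∑ i, M σ j i * M τ i l) := by
        show τ.1 (σ.1 (z j)) = _
        rw [hc σ j hj, map_smul, he, smul_smul]
      exact congrFun (huniq (τ * σ) j hj _ _ h1) l
    · rw [hM2 (τ * σ) j hj, hM2 σ j hj, Finset.sum_eq_single j]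
      · rw [hM2 τ j hj]; simp
      · intro i _ hij
        rw [Pi.single_eq_of_ne hij, zero_mul]
      · intro h; exact absurd (Finset.mem_univ _) h
  have hone : Matrix.of (M 1) = 1 := by
    ext j l
    rw [Matrix.of_apply]
    have h1 : M 1 j = Pi.single j 1 := by
      by_cases hj : I j
      · refine huniq 1 j hj _ 1 ?_
        rw [lmon_single, one_smul]; rfl
      · exact hM2 1 j hj
    rw [h1, Matrix.one_apply, Pi.single_apply]
    simp only [eq_comm]
  have hpow : ∀ (τ : G₁) (n : ℕ), Matrix.of (M (τ ^ n)) = Matrix.of (M τ) ^ n := by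
    intro τ n
    induction n with
    | zero => rw [pow_zero, pow_zero, hone]
    | succ n ih => rw [pow_succ τ, hmul, ih, pow_succ' (Matrix.of (M τ))]
  let F : G₁ → Matrix (Fin k) (Fin k) (ZMod 3) := fun τ =>
    (Matrix.of (M τ)).map (Int.castRingHom (ZMod 3))
  have hFmul : ∀ τ σ, F (τ * σ) = F σ * F τ := by
    intro τ σ
    simp only [F]
    rw [hmul, Matrix.map_mul]
  have hFone : F 1 = 1 := by
    simp only [F]
    rw [hone]
    exact Matrix.map_one _ (map_zero _) (map_one _)
  refine index_le_of_map _ F ?_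
  intro τ σ hτσ
  rw [Subgroup.mem_subgroupOf]
  set ρ : G₁ := τ⁻¹ * σ with hρ
  have h1 : F σ = F ρ * F τ := by
    rw [← hFmul]
    congr 1
    rw [hρ]; group
  have h2 : F τ * F τ⁻¹ = 1 := by
    rw [← hFmul, inv_mul_cancel, hFone]
  have h3 : F ρ = 1 := by
    calc F ρ = F ρ * (F τ * F τ⁻¹) := by rw [h2, mul_one]
      _ = F ρ * F τ * F τ⁻¹ := by rw [mul_assoc]
      _ = F τ * F τ⁻¹ := by rw [← h1, hτσ]
      _ = 1 := h2
  have h4 : Matrix.of (M ρ) = 1 := by
    refine Mink.minkowski _ ?_ (Nat.card G₁) Nat.card_pos ?_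
    · have h5 : ∀ i j, (3 : ℤ) ∣ M ρ i j - (1 : Matrix (Fin k) (Fin k) ℤ) i j := by
        intro i j
        have h6 : ((M ρ i j : ℤ) : ZMod 3) = if i = j then 1 else 0 := by
          have h7 : F ρ i j = (1 : Matrix (Fin k) (Fin k) (ZMod 3)) i j := by rw [h3]
          rw [Matrix.one_apply] at h7
          exact h7
        have h8 : ((M ρ i j - (1 : Matrix (Fin k) (Fin k) ℤ) i j : ℤ) : ZMod 3) = 0 := by
          rw [Int.cast_sub, h6, Matrix.one_apply]
          split_ifs <;> simp
        exact (ZMod.intCast_zmod_eq_zero_iff_dvd _ 3).1 h8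
      choose N hN using h5
      refine ⟨Matrix.of N, ?_⟩
      ext i j
      rw [Matrix.add_apply, Matrix.smul_apply, Matrix.of_apply, Matrix.of_apply, smul_eq_mul,
        ← hN]
      ring
    · rw [← hpow, pow_card_eq_one', hone]
  intro j
  refine ⟨c ρ j.1, ?_⟩
  have h5 := hc ρ j.1 j.2
  have h6 : M ρ j.1 = Pi.single j.1 1 := by
    funext l
    have := congrFun (congrFun h4 j.1) l
    rw [Matrix.of_apply, Matrix.one_apply] at this
    rw [this, Pi.single_apply]
    simp only [eq_comm]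
  rw [h6, lmon_single] at h5
  exact h5

end Mono

/-- From monomial transformations to permutations. -/
theorem IsCover.perm {q k J : ℕ} {K L : Type} [Field K] [Field L] [Algebra ℂ K] [Algebra ℂ L]
    [Algebra K L] {P S : Fin k → Prop} {x : Fin (q + 1) → L} {z : Fin k → L}
    {g : MvPolynomial (Fin k) ℂ} {G : Subgroup (L ≃ₐ[ℂ] L)} {A : Subalgebra ℂ K}
    (H : IsCover J P S x z g G A) :
    IsPermCover (Fintype.card (Matrix (Fin k) (Fin k) (ZMod 3)) * J) P S x z g G A := by
  classical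
  obtain ⟨G₁, hle, hidx, hact⟩ := H.group
  have hfin : Finite G := H.finite
  have hfin₁ : Finite G₁ := Set.Finite.subset (Set.toFinite (G : Set (L ≃ₐ[ℂ] L))) hle
  have hz : AlgebraicIndependent ℂ z := by
    have h1 := H.independent.comp (Sum.inr : Fin k → Fin q ⊕ Fin k) Sum.inr_injective
    exact h1
  let I : Fin k → Prop := fun j => P j → S j
  have hidx2 := mono_index hz G₁ hfin₁ I (by
    intro τ hτ j hj
    by_cases hP : P j
    · obtain ⟨j', c, hj', hs', h⟩ := (hact τ hτ).2.2.1 j hP (hj hP)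
      refine ⟨Pi.single j' 1, c, ?_, ?_⟩
      · intro i hi hPi
        by_cases hij : i = j'
        · rw [hij]; exact hs'
        · rw [Pi.single_eq_of_ne hij] at hi
          exact absurd rfl hi
      · rw [h]
        congr 1
        exact lmon_single j' |>.symm
    · obtain ⟨u, c, hu, h⟩ := (hact τ hτ).2.2.2 j hP
      exact ⟨u, c, hu, h⟩)
  set A₁ : Subgroup G₁ := (stab fun j : {j // I j} => z j.1).subgroupOf G₁ with hA₁
  refine
    { independent := H.independent
      generate := H.generate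
      equation := H.equation
      nonzero := H.nonzero
      vars := H.vars
      finite := H.finite
      field := H.field
      group := ?_
      ring := H.ring
      integralX := H.integralX
      integralZ := H.integralZ }
  have hle₁ : A₁.map G₁.subtype ≤ G₁ := Subgroup.map_subtype_le A₁
  refine ⟨A₁.map G₁.subtype, hle₁.trans hle, ?_, ?_⟩
  · rw [← Subgroup.relIndex_mul_relIndex _ G₁ G hle₁ hle]
    refine Nat.mul_le_mul ?_ hidx
    have : (A₁.map G₁.subtype).relIndex G₁ = A₁.index := by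
      unfold Subgroup.relIndex
      congr 1
      exact Subgroup.comap_map_eq_self_of_injective G₁.subtype_injective A₁
    rw [this]
    exact hidx2
  · rintro _ ⟨a, ha, rfl⟩
    have h1 : (a : L ≃ₐ[ℂ] L) ∈ stab fun j : {j // I j} => z j.1 := ha
    have h2 := hact a.1 a.2
    refine ⟨h2.1, h2.2.1, ?_, ?_⟩
    · intro j hj hs
      obtain ⟨c, hc⟩ := h1 ⟨j, fun _ => hs⟩
      exact ⟨j, c, hj, hs, hc⟩
    · intro j hj
      obtain ⟨c, hc⟩ := h1 ⟨j, fun h => absurd h hj⟩
      exact ⟨j, c, hj, hc⟩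

end Vale.Agent.P283.H207
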