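import Vale.Agent.P283.H207.Cone

/-!
Existence of `2d` bounded semi-invariant sections for a sublinear log discrepancy function.
-/

attribute [-instance] ProperSMul.toContinuousSMul IsTopologicalTorsor.toContinuousSMul IdemSemiring.toCanonicallyOrderedAdd IdemSemiring.toMulLeftMono IdemSemiring.toMulRightMono AddQuantale.instAddLeftMono AddQuantale.instAddRightMono Quantale.instMulLeftMono Quantale.instMulRightMono FiniteDimensional.rclike_to_real IsScalarTower.complexToReal FiniteDimensional.complexToReal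

set_option linter.all false

open Module Set

namespace Vale.Agent.P283.H207

/-- a theorem of the alternative for finitely many functionals on a convex cone -/
lemma convex_alternative {κ : Type} [Fintype κ] [Nonempty κ] [DecidableEq κ] {V : Type}
    [AddCommGroup V] [Module ℝ V]
    (C : Set V) (h0 : (0 : V) ∈ C) (hadd : ∀ x ∈ C, ∀ y ∈ C, x + y ∈ C)
    (hsmul : ∀ c : ℝ, 0 ≤ c → ∀ x ∈ C, c • x ∈ C)
    (F : κ → V → ℝ) (hFs : ∀ a, IsSub (F a)) (hF : ∀ x ∈ C, ∃ a, 0 ≤ F a x) :
    ∃ l : κ → ℝ, (∀ a, 0 ≤ l a) ∧ ∑ a, l a = 1 ∧ ∀ x ∈ C, 0 ≤ ∑ a, l a * F a x := by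
  let O : Set (κ → ℝ) := {y | ∀ a, y a < 0}
  let Z : Set (κ → ℝ) := {z | ∃ x ∈ C, ∀ a, F a x ≤ z a}
  have hO1 : Convex ℝ O := by
    intro x hx y hy a b ha hb hab c
    simp only [Pi.add_apply, Pi.smul_apply, smul_eq_mul]
    have h1 := hx c
    have h2 := hy c
    rcases eq_or_lt_of_le ha with h | h
    · subst h
      have : b = 1 := by linarith only [hab]
      subst this
      simpa using h2
    · have h3 : a * x c < 0 := mul_neg_of_pos_of_neg h h1
      have h4 : b * y c ≤ 0 := mul_nonpos_of_nonneg_of_nonpos hb h2.le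
      linarith
  have hO2 : IsOpen O := by
    have : O = ⋂ a, {y : κ → ℝ | y a < 0} := by
      ext y; simp [O]
    rw [this]
    exact isOpen_iInter_of_finite fun a => isOpen_lt (continuous_apply a) continuous_const
  have hZ : Convex ℝ Z := by
    rintro z1 ⟨x, hx, hz1⟩ z2 ⟨y, hy, hz2⟩ a b ha hb hab
    refine ⟨a • x + b • y, hadd _ (hsmul a ha x hx) _ (hsmul b hb y hy), ?_⟩
    intro c
    have h1 := (hFs c).add (a • x) (b • y)
    rw [(hFs c).smul _ _ ha, (hFs c).smul _ _ hb] at h1
    have h2 := mul_le_mul_of_nonneg_left (hz1 c) ha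
    have h3 := mul_le_mul_of_nonneg_left (hz2 c) hb
    simp only [Pi.add_apply, Pi.smul_apply, smul_eq_mul]
    linarith only [h1, h2, h3]
  have hdisj : Disjoint O Z := by
    rw [Set.disjoint_left]
    rintro y hy ⟨x, hx, hxy⟩
    obtain ⟨a, ha⟩ := hF x hx
    have h1 : y a < 0 := hy a
    have h2 := hxy a
    linarith only [ha, h1, h2]
  obtain ⟨g, u, hg1, hg2⟩ := geometric_hahn_banach_open hO1 hO2 hZ hdisj
  have hu0 : u ≤ 0 := by
    have h1 := hg2 0 ⟨0, h0, fun a => by rw [(hFs a).zero]; exact le_rfl⟩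
    simpa using h1
  have hneg : ∀ y ∈ O, g y < 0 := fun y hy => lt_of_lt_of_le (hg1 y hy) hu0
  have hu0' : 0 ≤ u := by
    by_contra hcon
    push Not at hcon
    let y : κ → ℝ := fun _ => -1
    have hy : y ∈ O := fun a => by simp only [Left.neg_neg_iff, zero_lt_one, y]
    have h1 := hneg y hy
    -- scale
    have h2 : (u / (2 * g y)) • y ∈ O := by
      intro a
      have : 0 < u / (2 * g y) := div_pos_of_neg_of_neg hcon (by linarith)
      simp only [Pi.smul_apply, smul_eq_mul, y]
      linarith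
    have h3 := hg1 _ h2
    rw [map_smul, smul_eq_mul] at h3
    have h4 : u / (2 * g y) * g y = u / 2 := by
      have := h1.ne
      (clear * - this; field_simp)
    linarith
  have hZnn : ∀ z ∈ Z, 0 ≤ g z := fun z hz => hu0'.trans (hg2 z hz)
  let l : κ → ℝ := fun a => g (Pi.single a 1)
  have hgl : ∀ y : κ → ℝ, g y = ∑ a, l a * y a := by
    intro y
    have h1 : y = ∑ a, y a • (Pi.single a 1 : κ → ℝ) := by
      ext b
      simp [Finset.sum_apply, Pi.single_apply]
    conv_lhs => rw [h1]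
    rw [map_sum]
    refine Finset.sum_congr rfl fun a _ => ?_
    rw [map_smul, smul_eq_mul, mul_comm]
  have hsum : 0 < ∑ a, l a := by
    have h1 := hneg (fun _ => -1) (fun a => by norm_num)
    rw [hgl] at h1
    simp only [mul_neg, mul_one, Finset.sum_neg_distrib] at h1
    linarith
  have hl : ∀ a, 0 ≤ l a := by
    intro a
    by_contra hcon
    push Not at hcon
    let δ : ℝ := -l a / (2 * ∑ b, l b)
    have hδ : 0 < δ := div_pos (by linarith) (by linarith)
    have h1 := hneg (fun b => -(if b = a then 1 else 0) - δ) (fun b => by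
      show -(if b = a then (1 : ℝ) else 0) - δ < 0
      split_ifs <;> linarith)
    rw [hgl] at h1
    have h2 : ∑ b, l b * (-(if b = a then 1 else 0) - δ) = -l a - δ * ∑ b, l b := by
      simp only [mul_sub, Finset.sum_sub_distrib, mul_neg, Finset.sum_neg_distrib]
      rw [← Finset.sum_mul]
      simp [mul_comm]
    rw [h2] at h1
    have h3 : δ * ∑ b, l b = -l a / 2 := by
      simp only [δ]
      have := hsum.ne'
      (clear * - this; field_simp)
    linarith only [hcon, h1, h3]
  refine ⟨fun a => l a / ∑ b, l b, fun a => div_nonneg (hl a) hsum.le, ?_, ?_⟩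
  · rw [← Finset.sum_div, div_self hsum.ne']
  · intro x hx
    have h1 := hZnn (fun a => F a x) ⟨x, hx, fun a => le_rfl⟩
    rw [hgl] at h1
    have h2 : ∑ a, l a / (∑ b, l b) * F a x = (∑ a, l a * F a x) / ∑ b, l b := by
      rw [Finset.sum_div]
      exact Finset.sum_congr rfl fun a _ => by ring
    rw [h2]
    exact div_nonneg h1 hsum.le

variable {q k : ℕ}

/-- Rounding lemma. -/
lemma rounding (S : Finset (Fin k → ℕ)) (M : Submodule ℤ (Fin q ⊕ Fin k → ℤ))
    (hSM : ∀ μ ∈ S, ∀ μ' ∈ S, (Sum.elim (fun _ => 0) (fun j => (μ j : ℤ) - μ' j)) ∈ M)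
    (C : Set (Fin q ⊕ Fin k → ℝ)) (h0 : (0 : Fin q ⊕ Fin k → ℝ) ∈ C)
    (hadd : ∀ x ∈ C, ∀ y ∈ C, x + y ∈ C)
    (hsmul : ∀ c : ℝ, 0 ≤ c → ∀ x ∈ C, c • x ∈ C)
    (hnn : ∀ x ∈ C, ∀ j, 0 ≤ x (Sum.inr j))
    (f : (Fin q ⊕ Fin k → ℝ) → ℝ) (hfs : IsSub f) (n : ℕ)
    (hf : ∀ x ∈ C, ∃ μ ∈ S, (n : ℝ) * mdot μ x ≤ f x)
    (μs : Fin k → ℕ) (hμs : μs ∈ S) (B : (Fin q ⊕ Fin k → ℝ) → ℝ)
    (hB : ∀ x ∈ C, mdot μs x ≤ B x) :
    ∃ ν : Fin k → ℕ,
      (∀ μ ∈ S, (Sum.elim (fun _ => 0) (fun j => (n : ℤ) * (μ j : ℤ) - ν j)) ∈ M) ∧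
      (∀ (x : Fin q ⊕ Fin k → ℝ) (γ : ℝ), (∀ μ ∈ S, γ ≤ mdot μ x) → n * γ ≤ mdot ν x) ∧
      (∀ x ∈ C, mdot ν x ≤ f x + (k + 1) * B x) := by
  classical
  have hne : Nonempty S := ⟨⟨μs, hμs⟩⟩
  obtain ⟨l, hl0, hl1, hl⟩ := convex_alternative C h0 hadd hsmul
    (fun (a : S) x => f x - (n : ℝ) * mdot a.1 x)
    (by
      intro a
      refine ⟨?_, ?_⟩
      · intro x y
        have h1 := hfs.add x y
        rw [mdot_add]
        linarith only [h1]
      · intro c x hc
        rw [hfs.smul _ _ hc, mdot_smul]; ring)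
    (by
      intro x hx
      obtain ⟨μ, hμ, hle⟩ := hf x hx
      refine ⟨⟨μ, hμ⟩, ?_⟩
      show 0 ≤ f x - (n : ℝ) * mdot μ x
      linarith)
  let l₂ : (Fin k → ℕ) → ℝ := fun μ => if h : μ ∈ S then l ⟨μ, h⟩ else 0
  have hl₂ : ∀ a : S, l₂ a.1 = l a := fun a => by simp [l₂, a.2]
  obtain ⟨T, l', hTS, hTcard, hl'0, hl'1, hl'⟩ := caratheodory_nat S l₂
    (by intro μ hμ; have := hl₂ ⟨μ, hμ⟩; simp only at this; rw [this]; exact hl0 _)
    (by
      rw [← Finset.sum_coe_sort S]
      rw [← hl1]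
      exact Finset.sum_congr rfl fun a _ => hl₂ a)
  have hmain : ∀ x ∈ C, (n : ℝ) * ∑ μ ∈ T, l' μ * mdot μ x ≤ f x := by
    intro x hx
    have h1 := hl x hx
    have h2 : ∑ a : S, l a * (f x - (n : ℝ) * mdot a.1 x)
        = f x - n * ∑ a : S, l a * mdot a.1 x := by
      have h3 : ∀ a : S, l a * (f x - (n : ℝ) * mdot a.1 x)
          = l a * f x - n * (l a * mdot a.1 x) := by
        intro a
        show l a * (f x - (n : ℝ) * mdot a.1 x) = _
        ring
      rw [Finset.sum_congr rfl fun a _ => h3 a, Finset.sum_sub_distrib, ← Finset.sum_mul, hl1,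
        ← Finset.mul_sum, one_mul]
    rw [h2] at h1
    have h4 : ∑ a : S, l a * mdot a.1 x = ∑ μ ∈ T, l' μ * mdot μ x := by
      have h5 : ∑ a : S, l a * mdot a.1 x = ∑ μ ∈ S, l₂ μ * mdot μ x := by
        rw [← Finset.sum_coe_sort S]
        exact Finset.sum_congr rfl fun a _ => by rw [hl₂]
      rw [h5]
      simp only [mdot, Finset.mul_sum]
      rw [Finset.sum_comm, Finset.sum_comm (s := T)]
      refine Finset.sum_congr rfl fun j _ => ?_
      have h6 := hl' j
      have h7 : ∀ (R : Finset (Fin k → ℕ)) (g : (Fin k → ℕ) → ℝ),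
          ∑ μ ∈ R, g μ * ((μ j : ℝ) * x (Sum.inr j)) = (∑ μ ∈ R, g μ * (μ j : ℝ)) * x (Sum.inr j) := by
        intro R g
        rw [Finset.sum_mul]
        exact Finset.sum_congr rfl fun μ _ => by ring
      rw [h7, h7, h6]
    rw [h4] at h1
    linarith only [h1]
  -- rounding
  let a : (Fin k → ℕ) → ℕ := fun μ => ⌊(n : ℝ) * l' μ⌋₊
  have ha1 : ∀ μ ∈ T, (a μ : ℝ) ≤ n * l' μ := fun μ hμ =>
    Nat.floor_le (mul_nonneg (Nat.cast_nonneg n) (hl'0 μ hμ))
  have ha2 : ∀ μ ∈ T, (n : ℝ) * l' μ - 1 ≤ a μ := fun μ _ => by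
    have := Nat.lt_floor_add_one ((n : ℝ) * l' μ)
    simp only [a]
    linarith only [this]
  have hsumle : ∑ μ ∈ T, a μ ≤ n := by
    have h1 : (∑ μ ∈ T, (a μ : ℝ)) ≤ ∑ μ ∈ T, n * l' μ := Finset.sum_le_sum ha1
    rw [← Finset.mul_sum, hl'1, mul_one] at h1
    exact_mod_cast h1
  obtain ⟨ρ, hρ⟩ := Nat.exists_eq_add_of_le hsumle
  have hρle : (ρ : ℝ) ≤ k + 1 := by
    have h1 : (∑ μ ∈ T, ((n : ℝ) * l' μ - 1)) ≤ ∑ μ ∈ T, (a μ : ℝ) := Finset.sum_le_sum ha2
    rw [Finset.sum_sub_distrib, ← Finset.mul_sum, hl'1, mul_one] at h1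
    simp only [Finset.sum_const, nsmul_eq_mul, mul_one] at h1
    have h2 : (n : ℝ) = (∑ μ ∈ T, (a μ : ℝ)) + ρ := by
      have := congrArg (fun m : ℕ => (m : ℝ)) hρ
      push_cast at this
      exact this
    have h3 : (T.card : ℝ) ≤ k + 1 := by exact_mod_cast hTcard
    linarith only [h1, h2, h3]
  let ν : Fin k → ℕ := fun j => ∑ μ ∈ T, a μ * μ j + ρ * μs j
  have hνdot : ∀ x : Fin q ⊕ Fin k → ℝ,
      mdot ν x = ∑ μ ∈ T, (a μ : ℝ) * mdot μ x + ρ * mdot μs x := by
    intro x
    simp only [mdot, Nat.cast_add, Nat.cast_sum, Nat.cast_mul, add_mul, Finset.sum_mul, Finset.sum_add_distrib, Finset.mul_sum, ν]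
    rw [Finset.sum_comm]
    congr 1
    · exact Finset.sum_congr rfl fun μ _ => Finset.sum_congr rfl fun j _ => by ring
    · exact Finset.sum_congr rfl fun j _ => by ring
  refine ⟨ν, ?_, ?_, ?_⟩
  · intro μ' hμ'
    have h1 : (Sum.elim (fun _ => 0) (fun j => (n : ℤ) * (μ' j : ℤ) - ν j) : Fin q ⊕ Fin k → ℤ)
        = ∑ μ ∈ T, (a μ : ℤ) • (Sum.elim (fun _ => 0) (fun j => (μ' j : ℤ) - μ j))
          + (ρ : ℤ) • (Sum.elim (fun _ => 0) (fun j => (μ' j : ℤ) - μs j)) := by
      ext i
      rcases i with i | j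
      · simp only [Sum.elim_inl, zsmul_eq_mul, Int.cast_natCast, Pi.add_apply, Finset.sum_apply, Pi.mul_apply, Pi.natCast_apply, mul_zero, Finset.sum_const_zero, add_zero]
      · simp only [Sum.elim_inr, Pi.add_apply, Finset.sum_apply, Pi.smul_apply, smul_eq_mul, ν]
        push_cast
        have h2 : (n : ℤ) = ∑ μ ∈ T, (a μ : ℤ) + ρ := by
          have := congrArg (fun m : ℕ => (m : ℤ)) hρ
          push_cast at this
          exact this
        rw [h2]
        simp only [mul_sub, Finset.sum_sub_distrib, add_mul, Finset.sum_mul]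
        ring
    rw [h1]
    refine M.add_mem (M.sum_mem fun μ hμ => M.smul_mem _ (hSM μ' hμ' μ (hTS hμ))) ?_
    exact M.smul_mem _ (hSM μ' hμ' μs hμs)
  · intro x γ hγ
    rw [hνdot]
    have h2 : (n : ℝ) = (∑ μ ∈ T, (a μ : ℝ)) + ρ := by
      have := congrArg (fun m : ℕ => (m : ℝ)) hρ
      push_cast at this
      exact this
    rw [h2, add_mul, Finset.sum_mul]
    refine add_le_add (Finset.sum_le_sum fun μ hμ => ?_) ?_
    · exact mul_le_mul_of_nonneg_left (hγ μ (hTS hμ)) (Nat.cast_nonneg _)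
    · exact mul_le_mul_of_nonneg_left (hγ μs hμs) (Nat.cast_nonneg _)
  · intro x hx
    rw [hνdot]
    have hmnn : ∀ μ : Fin k → ℕ, 0 ≤ mdot μ x := fun μ =>
      Finset.sum_nonneg fun j _ => mul_nonneg (Nat.cast_nonneg _) (hnn x hx j)
    have h1 : ∑ μ ∈ T, (a μ : ℝ) * mdot μ x ≤ n * ∑ μ ∈ T, l' μ * mdot μ x := by
      rw [Finset.mul_sum]
      refine Finset.sum_le_sum fun μ hμ => ?_
      rw [← mul_assoc]
      exact mul_le_mul_of_nonneg_right (ha1 μ hμ) (hmnn μ)
    have h2 := hmain x hx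
    have h3 : (ρ : ℝ) * mdot μs x ≤ (k + 1) * B x := by
      have h4 : (ρ : ℝ) * mdot μs x ≤ (k + 1) * mdot μs x :=
        mul_le_mul_of_nonneg_right hρle (hmnn μs)
      have h5 : ((k : ℝ) + 1) * mdot μs x ≤ (k + 1) * B x :=
        mul_le_mul_of_nonneg_left (hB x hx) (by (clear * -; positivity))
      linarith only [h4, h5]
    linarith only [h1, h2, h3]


section Main

variable (M : Submodule ℤ (Fin q ⊕ Fin k → ℤ)) (r : ℕ) (hr : 0 < r)
  (hM : ∀ u : Fin q ⊕ Fin k → ℤ, (r : ℤ) • u ∈ M) (S : Finset (Fin k → ℕ)) (hSne : S.Nonempty)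
  (hSM : ∀ μ ∈ S, ∀ μ' ∈ S, (Sum.elim (fun _ => 0) (fun j => (μ j : ℤ) - μ' j)) ∈ M)
  (Ψ : (Fin q ⊕ Fin k → ℝ) → ℝ) (hΨs : IsSub Ψ)
  (hΨz : ∀ x y : Fin q ⊕ Fin k → ℝ, (∀ j, x (Sum.inr j) = y (Sum.inr j)) → Ψ x = Ψ y)
  (hΨpos : ∀ x : Fin q ⊕ Fin k → ℝ, (∀ l, x (Sum.inl l) = 0) → (∀ j, 0 ≤ x (Sum.inr j)) →
    x ≠ 0 → 0 < Ψ x) (ε : ℝ) (hε : 0 < ε)
  (hlc : ∀ x : Fin q ⊕ Fin k → ℝ, InCone S x → (∀ u ∈ M, ∃ z : ℤ, dot x u = z) → x ≠ 0 →
    ε ≤ Ψ x)

/-- the section data conditions -/
def GoodSec (U : Set (Fin q ⊕ Fin k → ℤ)) (B : ℝ) (s : ℕ × (Fin q ⊕ Fin k → ℤ)) : Prop :=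
  (∀ l, 0 ≤ s.2 (Sum.inl l)) ∧ (s.1 = 0 ∨ ∃ l, s.2 (Sum.inl l) = 0) ∧
    (∀ μ ∈ S, s.2 + (s.1 : ℤ) • extv μ ∈ M) ∧
    ∀ v, InSig U v → -(B * Ψ v) ≤ dot v s.2

include hΨs hΨz hΨpos hSne in
lemma psi_pos (x : Fin q ⊕ Fin k → ℝ) (hx : InCone S x) (hx0 : x ≠ 0) : 0 < Ψ x := by
  have h1 : Ψ x = Ψ (Sum.elim (fun _ => 0) fun j => x (Sum.inr j)) := hΨz _ _ fun j => rfl
  rw [h1]
  refine hΨpos _ (fun l => rfl) (fun j => hx.1 _) ?_
  intro h0
  apply hx0
  have h2 : ∀ j, x (Sum.inr j) = 0 := fun j => congrFun h0 (Sum.inr j)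
  obtain ⟨μ, hμ⟩ := hSne
  have h4 : mdot μ x = 0 := by simp only [mdot, h2, mul_zero, Finset.sum_const_zero]
  have h5 := hx.2 μ hμ
  rw [h4] at h5
  have h6 : ∀ l, x (Sum.inl l) = 0 := by
    intro l
    have h7 : ∑ l, x (Sum.inl l) = 0 :=
      le_antisymm h5 (Finset.sum_nonneg fun l _ => hx.1 _)
    exact (Finset.sum_eq_zero_iff_of_nonneg (fun l _ => hx.1 (Sum.inl l))).mp h7 l
      (Finset.mem_univ l)
  ext i
  rcases i with l | j
  · exact h6 l
  · exact h2 j

include hr hM hSne hSM hΨs hΨz hΨpos hε hlc in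
theorem staged (n : ℕ) : ∀ U : Set (Fin q ⊕ Fin k → ℤ), U ⊆ M → (∀ u ∈ U, ∀ l, u (Sum.inl l) = 0) →
    finrank ℝ (perp U) = n → ∃ L : List (ℕ × (Fin q ⊕ Fin k → ℤ)), L.length = 2 * n ∧
      (∀ s ∈ L, GoodSec M S Ψ U (Fc (q + k) k n / ε) s) ∧
      ∀ x ∈ perp U, InCone S x → x ≠ 0 → ∃ s ∈ L, NegSec S s x := by
  induction n with
  | zero =>
    intro U _ _ hn
    refine ⟨[], rfl, by simp, ?_⟩
    intro x hx _ hx0
    exfalso
    have h1 : Subsingleton (perp U) := Module.finrank_zero_iff.mp hn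
    have h2 : (⟨x, hx⟩ : perp U) = 0 := Subsingleton.elim _ _
    exact hx0 (congrArg Subtype.val h2)
  | succ n ih =>
    intro U hU hUz hn
    have hpsi := psi_pos S hSne Ψ hΨs hΨz hΨpos
    have hpsinn : ∀ x : Fin q ⊕ Fin k → ℝ, InCone S x → 0 ≤ Ψ x := by
      intro x hx
      by_cases hx0 : x = 0
      · subst hx0; rw [hΨs.zero]
      · exact (hpsi x hx hx0).le
    have hpsisig : ∀ x : Fin q ⊕ Fin k → ℝ,
        (∀ a : {ℓ : (Fin q ⊕ Fin k → ℝ) →ₗ[ℝ] ℝ // ∀ v, InSig U v → 0 ≤ ℓ v}, 0 ≤ a.1 x) →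
        x ≠ 0 → 0 < Ψ x := fun x hx hx0 => hpsi x ((inSig_dual U x hx).inCone S) hx0
    obtain ⟨hkey, L₀, hL₀len, hL₀M, hL₀b, hL₀neg⟩ := coord_cone M r hr hM U hU (hfam r S)
      (by
        rintro (i | μ)
        · exact hM _
        · exact hM _)
      Ψ hΨs
      (by
        intro x y hx hy hxy
        have hx' := (inCone_iff r hr S x).mpr hx
        have hy' := (inCone_iff r hr S y).mpr hy
        ext i
        have h1 := hx'.1 i
        have h2 := hy'.1 i
        have h3 := congrFun hxy i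
        simp only [Pi.add_apply, Pi.zero_apply] at h3 ⊢
        linarith only [h1, h2, h3])
      (fun x _ hx hx0 => hpsi x ((inCone_iff r hr S x).mpr hx) hx0) ε hε
      (fun x _ hx hxM hx0 => hlc x ((inCone_iff r hr S x).mpr hx) hxM hx0) (n + 1) hn
    obtain ⟨u, huM, hune, hub'⟩ := hkey (Nat.succ_pos n)
    have hub : ∀ x ∈ perp U, InCone S x → |dot x u| ≤ (Kc (n + 1) / ε) * Ψ x :=
      fun x hx hxc => hub' x hx ((inCone_iff r hr S x).mp hxc)
    have hKnn : 0 ≤ Kc (n + 1) / ε := div_nonneg (Kc_nonneg _) hε.le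
    have hptsig : ∀ x y : Fin q ⊕ Fin k → ℝ,
        (∀ a : {ℓ : (Fin q ⊕ Fin k → ℝ) →ₗ[ℝ] ℝ // ∀ v, InSig U v → 0 ≤ ℓ v}, 0 ≤ a.1 x) →
        (∀ a : {ℓ : (Fin q ⊕ Fin k → ℝ) →ₗ[ℝ] ℝ // ∀ v, InSig U v → 0 ≤ ℓ v}, 0 ≤ a.1 y) →
        x + y = 0 → x = 0 := by
      intro x y hx hy hxy
      have hx' := ((inSig_dual U x hx).inCone S).1
      have hy' := ((inSig_dual U y hy).inCone S).1
      ext i
      have h1 := hx' i
      have h2 := hy' i
      have h3 := congrFun hxy i
      simp only [Pi.add_apply, Pi.zero_apply] at h3 ⊢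
      linarith only [h1, h2, h3]
    by_cases hcase : ∀ l, u (Sum.inl l) = 0
    · -- Case A: a direction in the `z` variables
      obtain ⟨L', hL'len, hL'good, hL'neg⟩ := ih (insert u U)
        (by
          rintro w (rfl | hw)
          · exact huM
          · exact hU hw)
        (by
          rintro w (rfl | hw)
          · exact hcase
          · exact hUz w hw)
        (by
          have := finrank_perp_insert U u hune
          omega)
      have hlift : ∀ s : ℕ × (Fin q ⊕ Fin k → ℤ), ∃ z : ℤ, s ∈ L' →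
          GoodSec M S Ψ U (Fc (q + k) k (n + 1) / ε) (s.1, s.2 + z • u) := by
        intro s
        by_cases hs : s ∈ L'
        · obtain ⟨hs1, hs2, hs3, hs4⟩ := hL'good s hs
          obtain ⟨t, ht⟩ := one_constraint
            (fun a : {ℓ : (Fin q ⊕ Fin k → ℝ) →ₗ[ℝ] ℝ // ∀ v, InSig U v → 0 ≤ ℓ v} => a.1)
            Ψ hΨs hpsisig hptsig (dotL u) (fun x => dotL s.2 x + (Fc (q + k) k n / ε) * Ψ x)
            (hΨs.add_linear (dotL s.2) (div_nonneg (Fc_nonneg _ _ _) hε.le))
            (by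
              intro x hx hxu
              have hx' := inSig_dual U x hx
              have h1 : InSig (insert u U) x := by
                refine ⟨hx'.1, hx'.2.1, ?_⟩
                rintro w (rfl | hw)
                · simpa using hxu
                · exact hx'.2.2 w hw
              have h2 := hs4 x h1
              show 0 ≤ dot x s.2 + (Fc (q + k) k n / ε) * Ψ x
              linarith only [h2])
            (1 / ε) (by positivity)
          let z : ℤ := round t
          have hz : |t - z| ≤ 1 / 2 := abs_sub_round t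
          refine ⟨z, fun _ => ⟨?_, ?_, ?_, ?_⟩⟩
          · intro l
            simp only [Pi.add_apply, Pi.smul_apply, hcase l, smul_zero, add_zero]
            exact hs1 l
          · rcases hs2 with h | ⟨l, hl⟩
            · exact Or.inl h
            · refine Or.inr ⟨l, ?_⟩
              simp only [Pi.add_apply, Pi.smul_apply, hcase l, smul_zero, add_zero]
              exact hl
          · intro μ hμ
            have h1 : s.2 + z • u + (s.1 : ℤ) • extv μ = (s.2 + (s.1 : ℤ) • extv μ) + z • u := by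
              abel
            show s.2 + z • u + (s.1 : ℤ) • extv μ ∈ M
            rw [h1]
            exact M.add_mem (hs3 μ hμ) (M.smul_mem _ huM)
          · intro v hv
            have h1 := ht v (fun a => a.2 v hv)
            simp only [dotL_apply] at h1
            show -((Fc (q + k) k (n + 1) / ε) * Ψ v) ≤ dot v (s.2 + z • u)
            rw [dot_add_right, dot_smul_right]
            have h3 : (z : ℝ) * dot v u = t * dot v u - (t - z) * dot v u := by ring
            have h4 : (t - z) * dot v u ≤ (1 / 2) * ((Kc (n + 1) / ε) * Ψ v) := by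
              calc (t - z) * dot v u ≤ |(t - z) * dot v u| := le_abs_self _
                _ = |t - z| * |dot v u| := abs_mul _ _
                _ ≤ (1 / 2) * ((Kc (n + 1) / ε) * Ψ v) :=
                  mul_le_mul hz (hub v hv.2.2 (hv.inCone S)) (abs_nonneg _) (by norm_num)
            have h5 : (Fc (q + k) k (n + 1) / ε) * Ψ v
                = (Fc (q + k) k n / ε) * Ψ v + (Kc (n + 1) / ε) * Ψ v
                  + (1 / ε) * Ψ v
                  + ((Tc (n + 1) + (k + 1) * (2 * ((q + k : ℕ) : ℝ) ^ 2 * Kc (n + 1))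
                    + Kc (n + 1)) / ε) * Ψ v := by
              simp only [Fc]; ring
            have h6 : 0 ≤ Ψ v := hpsinn v (hv.inCone S)
            have h7 : 0 ≤ (Kc (n + 1) / ε) * Ψ v := mul_nonneg hKnn h6
            have h8 : 0 ≤ ((Tc (n + 1) + (k + 1) * (2 * ((q + k : ℕ) : ℝ) ^ 2 * Kc (n + 1))
                    + Kc (n + 1)) / ε) * Ψ v := by
              have := Tc_nonneg (n + 1)
              have := Kc_nonneg (n + 1)
              positivity
            rw [h5, h3]
            linarith only [h1, h4, h7, h8]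
        · exact ⟨0, fun h => absurd h hs⟩
      choose F hF using hlift
      refine ⟨(0, u) :: (0, -u) :: L'.map (fun s => (s.1, s.2 + F s • u)), ?_, ?_, ?_⟩
      · simp only [List.length_cons, List.length_map, hL'len]
        ring
      · have hbase : ∀ w : Fin q ⊕ Fin k → ℤ, (w = u ∨ w = -u) →
            GoodSec M S Ψ U (Fc (q + k) k (n + 1) / ε) (0, w) := by
          intro w hw
          have hwz : ∀ l, w (Sum.inl l) = 0 := by
            intro l
            rcases hw with rfl | rfl
            · exact hcase l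
            · simp [hcase l]
          have hwM : w ∈ M := by
            rcases hw with rfl | rfl
            · exact huM
            · exact M.neg_mem huM
          refine ⟨fun l => (hwz l).ge, Or.inl rfl, ?_, ?_⟩
          · intro μ _
            simpa using hwM
          · intro v hv
            have h1 : |dot v w| ≤ (Kc (n + 1) / ε) * Ψ v := by
              rcases hw with rfl | rfl
              · exact hub v hv.2.2 (hv.inCone S)
              · rw [dot_neg_right, abs_neg]
                exact hub v hv.2.2 (hv.inCone S)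
            have h5 : (Fc (q + k) k (n + 1) / ε) * Ψ v
                = (Kc (n + 1) / ε) * Ψ v
                  + ((Fc (q + k) k n + Tc (n + 1)
                    + (k + 1) * (2 * ((q + k : ℕ) : ℝ) ^ 2 * Kc (n + 1))
                    + Kc (n + 1) + 1) / ε) * Ψ v := by
              simp only [Fc]; ring
            have h6 : 0 ≤ Ψ v := hpsinn v (hv.inCone S)
            have h8 : 0 ≤ ((Fc (q + k) k n + Tc (n + 1)
                    + (k + 1) * (2 * ((q + k : ℕ) : ℝ) ^ 2 * Kc (n + 1))
                    + Kc (n + 1) + 1) / ε) * Ψ v := by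
              have := Tc_nonneg (n + 1)
              have := Kc_nonneg (n + 1)
              have := Fc_nonneg (q + k) k n
              positivity
            have h9 := (abs_le.mp h1).1
            show -((Fc (q + k) k (n + 1) / ε) * Ψ v) ≤ dot v w
            rw [h5]
            linarith only [h8, h9]
        intro s hs
        simp only [List.mem_cons, List.mem_map] at hs
        rcases hs with rfl | rfl | ⟨s', hs', rfl⟩
        · exact hbase u (Or.inl rfl)
        · exact hbase (-u) (Or.inr rfl)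
        · exact hF s' hs'
      · intro x hx hxc hx0
        rcases lt_trichotomy (dot x u) 0 with h1 | h1 | h1
        · refine ⟨(0, u), by simp only [zsmul_eq_mul, List.mem_cons, Prod.mk.injEq, true_and, List.mem_map, Prod.exists, ↓existsAndEq, true_or], ?_⟩
          intro γ _
          simpa only [CharP.cast_eq_zero, zero_mul, zero_add] using h1
        · have hx' : x ∈ perp (insert u U) := by
            rintro w (rfl | hw)
            · exact h1
            · exact hx w hw
          obtain ⟨s, hs, hsneg⟩ := hL'neg x hx' hxc hx0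
          refine ⟨(s.1, s.2 + F s • u), ?_, ?_⟩
          · simp only [List.mem_cons, List.mem_map]
            exact Or.inr (Or.inr ⟨s, hs, rfl⟩)
          · intro γ hγ
            have h2 := hsneg γ hγ
            show (s.1 : ℝ) * (γ - ∑ l, x (Sum.inl l)) + dot x (s.2 + F s • u) < 0
            rw [dot_add_right, dot_smul_right, h1, mul_zero, add_zero]
            exact h2
        · refine ⟨(0, -u), by simp only [zsmul_eq_mul, List.mem_cons, Prod.mk.injEq, true_and, List.mem_map, Prod.exists, ↓existsAndEq, true_or, or_true], ?_⟩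
          intro γ _
          simp only [Nat.cast_zero, zero_mul, zero_add]
          rw [dot_neg_right]
          linarith only [h1]
    · -- Case B: a direction involving the `x` variables
      push Not at hcase
      obtain ⟨l₀, hl₀⟩ := hcase
      -- moving a point of the `z`-cone up to the boundary
      have hmove : ∀ x, InSig U x → ∀ γ : ℝ, 0 ≤ γ → (∀ μ ∈ S, γ ≤ mdot μ x) → ∀ l : Fin q,
          (x + Pi.single (Sum.inl l) γ ∈ perp U) ∧ InCone S (x + Pi.single (Sum.inl l) γ) ∧
          Ψ (x + Pi.single (Sum.inl l) γ) = Ψ x ∧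
          ∀ w : Fin q ⊕ Fin k → ℤ, dot (x + Pi.single (Sum.inl l) γ) w
            = dot x w + γ * w (Sum.inl l) := by
        intro x hx γ hγ0 hγ l
        have hdot : ∀ w : Fin q ⊕ Fin k → ℤ, dot (x + Pi.single (Sum.inl l) γ) w
            = dot x w + γ * w (Sum.inl l) := by
          intro w
          have h1 := (dotL w).map_add x (Pi.single (Sum.inl l) γ)
          simp only [dotL_apply] at h1
          rw [h1]
          congr 1
          simp only [dot, Pi.single_apply, ite_mul, zero_mul, Finset.sum_ite_eq', Finset.mem_univ, ↓reduceIte]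
        refine ⟨?_, ⟨?_, ?_⟩, ?_, hdot⟩
        · intro w hw
          rw [hdot, hx.2.2 w hw, hUz w hw l]
          simp
        · intro i
          simp only [Pi.add_apply]
          refine add_nonneg ((hx.inCone S).1 i) ?_
          by_cases hi : i = Sum.inl l
          · subst hi; simpa only [Pi.single_eq_same] using hγ0
          · simp [hi]
        · intro μ hμ
          rw [mdot_add, mdot_single_inl, add_zero]
          have h1 : ∑ l', (x + Pi.single (Sum.inl l) γ : Fin q ⊕ Fin k → ℝ) (Sum.inl l') = γ := by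
            simp only [Pi.add_apply, hx.1, zero_add, Pi.single_apply, Sum.inl.injEq]
            simp only [Finset.sum_ite_eq', Finset.mem_univ, ↓reduceIte]
          rw [h1]
          exact hγ μ hμ
        · refine hΨz _ _ fun j => ?_
          simp only [Pi.add_apply, ne_eq, reduceCtorEq, not_false_eq_true, Pi.single_eq_of_ne, add_zero]
      have hmin : ∀ x : Fin q ⊕ Fin k → ℝ, ∃ μ ∈ S, ∀ μ' ∈ S, mdot μ x ≤ mdot μ' x := fun x =>
        Finset.exists_min_image S (fun μ => mdot μ x) hSne
      -- `g` is bounded on the current face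
      have hg : ∀ x, InSig U x → ∀ μ ∈ S, (∀ μ' ∈ S, mdot μ x ≤ mdot μ' x) →
          mdot μ x ≤ 2 * (Kc (n + 1) / ε) * Ψ x := by
        intro x hx μ hμ hμmin
        obtain ⟨h1, h2, h3, h4⟩ := hmove x hx (mdot μ x) (mdot_nonneg μ x hx.2.1) hμmin l₀
        have h5 := hub _ h1 h2
        rw [h3, h4] at h5
        have h6 := hub x hx.2.2 (hx.inCone S)
        have h7 : |mdot μ x * (u (Sum.inl l₀) : ℝ)| ≤ 2 * ((Kc (n + 1) / ε) * Ψ x) := by
          have h8 : mdot μ x * (u (Sum.inl l₀) : ℝ)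
              = (dot x u + mdot μ x * (u (Sum.inl l₀) : ℝ)) - dot x u := by ring
          rw [h8]
          refine (abs_sub _ _).trans ?_
          linarith only [h5, h6]
        have h8 : (1 : ℝ) ≤ |(u (Sum.inl l₀) : ℝ)| := by
          have : (1 : ℤ) ≤ |u (Sum.inl l₀)| := Int.one_le_abs hl₀
          exact_mod_cast this
        rw [abs_mul, abs_of_nonneg (mdot_nonneg μ x hx.2.1)] at h7
        have h9 : mdot μ x ≤ mdot μ x * |(u (Sum.inl l₀) : ℝ)| :=
          le_mul_of_one_le_right (mdot_nonneg μ x hx.2.1) h8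
        linarith only [h7, h9]
      -- Auerbach vectors
      obtain ⟨e, v, he, hv, -, hvx⟩ := auerbach
        (fun a : {ℓ : (Fin q ⊕ Fin k → ℝ) →ₗ[ℝ] ℝ // ∀ v, InSig U v → 0 ≤ ℓ v} => a.1)
        Ψ hΨs hpsisig
      have hvsig : ∀ i, InSig U (v i) := fun i => inSig_dual U (v i) (hv i).1
      have heD : (e : ℝ) ≤ ((q + k : ℕ) : ℝ) := by
        have h1 : finrank ℝ (Fin q ⊕ Fin k → ℝ) = q + k := by
          rw [finrank_fintype_fun_eq_card]; simp only [Fintype.card_sum, Fintype.card_fin, Nat.add_left_cancel_iff]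
        rw [h1] at he
        exact_mod_cast he
      have hadd : ∀ x ∈ {x | InSig U x}, ∀ y ∈ {x | InSig U x}, x + y ∈ {x | InSig U x} := by
        intro x hx y hy
        refine ⟨fun l => ?_, fun j => ?_, (perp U).add_mem hx.2.2 hy.2.2⟩
        · simp [hx.1 l, hy.1 l]
        · exact add_nonneg (hx.2.1 j) (hy.2.1 j)
      have hsmul : ∀ a : ℝ, 0 ≤ a → ∀ x ∈ {x | InSig U x}, a • x ∈ {x | InSig U x} := by
        intro a ha x hx
        refine ⟨fun l => ?_, fun j => ?_, (perp U).smul_mem a hx.2.2⟩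
        · simp [hx.1 l]
        · exact mul_nonneg ha (hx.2.1 j)
      have hzero : (0 : Fin q ⊕ Fin k → ℝ) ∈ {x | InSig U x} :=
        ⟨fun l => rfl, fun j => le_refl _, (perp U).zero_mem⟩
      have hsum : InSig U (∑ i, v i) := by
        have : ∀ s : Finset (Fin e), (∑ i ∈ s, v i) ∈ {x | InSig U x} := by
          intro s
          induction s using Finset.induction_on with
          | empty => simpa using hzero
          | insert a s ha ih => rw [Finset.sum_insert ha]; exact hadd _ (hvsig a) _ ih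
        exact this _
      obtain ⟨μs, hμs, hμsmin⟩ := hmin (∑ i, v i)
      let Bc : ℝ := 2 * ((q + k : ℕ) : ℝ) ^ 2 * Kc (n + 1) / ε
      have hBc : 0 ≤ Bc := by
        have := Kc_nonneg (n + 1)
        (clear * - this hε; positivity)
      have hB : ∀ x ∈ {x | InSig U x}, mdot μs x ≤ Bc * Ψ x := by
        intro x hx
        obtain ⟨t, ht, hxt⟩ := hvx x (fun a => a.2 x hx)
        have h1 := hg _ hsum μs hμs hμsmin
        have h2 : Ψ (∑ i, v i) ≤ e := by
          refine (hΨs.sum _ _).trans (le_of_eq ?_)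
          rw [Finset.sum_congr rfl fun i _ => (hv i).2]
          simp only [Finset.sum_const, Finset.card_univ, Fintype.card_fin, nsmul_eq_mul, mul_one]
        replace h1 := h1.trans (mul_le_mul_of_nonneg_left h2
          (mul_nonneg (by norm_num) hKnn : (0 : ℝ) ≤ 2 * (Kc (n + 1) / ε)))
        have h3 : ∀ i, mdot μs (v i) ≤ 2 * (Kc (n + 1) / ε) * e := by
          intro i
          refine le_trans ?_ h1
          rw [mdot_sum]
          exact Finset.single_le_sum (f := fun i => mdot μs (v i))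
            (fun i _ => mdot_nonneg μs (v i) (hvsig i).2.1) (Finset.mem_univ i)
        have hψx : 0 ≤ Ψ x := hpsinn x (hx.inCone S)
        calc mdot μs x = mdot μs (∑ i, t i • v i) := by rw [← hxt]
          _ = ∑ i, t i * mdot μs (v i) := by
              rw [mdot_sum]; exact Finset.sum_congr rfl fun i _ => mdot_smul _ _ _
          _ ≤ ∑ _i : Fin e, Ψ x * (2 * (Kc (n + 1) / ε) * e) := by
              refine Finset.sum_le_sum fun i _ => ?_
              have h4 : 0 ≤ mdot μs (v i) := mdot_nonneg μs (v i) (hvsig i).2.1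
              calc t i * mdot μs (v i) ≤ |t i| * mdot μs (v i) :=
                    mul_le_mul_of_nonneg_right (le_abs_self _) h4
                _ ≤ Ψ x * mdot μs (v i) := mul_le_mul_of_nonneg_right (ht i) h4
                _ ≤ _ := mul_le_mul_of_nonneg_left (h3 i) hψx
          _ = (2 * (Kc (n + 1) / ε) * Ψ x) * ((e : ℝ) ^ 2) := by
              simp only [Finset.sum_const, Finset.card_univ, Fintype.card_fin, nsmul_eq_mul]; ring
          _ ≤ (2 * (Kc (n + 1) / ε) * Ψ x) * (((q + k : ℕ) : ℝ) ^ 2) := by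
              refine mul_le_mul_of_nonneg_left ?_ (by (clear * - hKnn hψx; positivity))
              exact pow_le_pow_left₀ (Nat.cast_nonneg e) heD 2
          _ = Bc * Ψ x := by simp only [Bc]; ring
      -- realizing a functional by a section
      have hreal : ∀ w : Fin q ⊕ Fin k → ℤ, ∃ s : ℕ × (Fin q ⊕ Fin k → ℤ), w ∈ L₀ →
          GoodSec M S Ψ U (Fc (q + k) k (n + 1) / ε) s ∧
          ∀ x ∈ perp U, InCone S x → dot x w < 0 → NegSec S s x := by
        intro w
        by_cases hw : w ∈ L₀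
        · have hwM := hL₀M w hw
          have hwb : ∀ x ∈ perp U, InCone S x → -((Tc (n + 1) / ε) * Ψ x) ≤ dot x w :=
            fun x hx hxc => hL₀b w hw x hx ((inCone_iff r hr S x).mp hxc)
          let j : ℕ := Finset.univ.sup (fun l => (-w (Sum.inl l)).toNat)
          have hj1 : ∀ l, -w (Sum.inl l) ≤ j := by
            intro l
            have h1 : (-w (Sum.inl l)).toNat ≤ j :=
              Finset.le_sup (f := fun l => (-w (Sum.inl l)).toNat) (Finset.mem_univ l)
            have h2 := Int.self_le_toNat (-w (Sum.inl l))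
            omega
          have hj2 : j = 0 ∨ ∃ l, w (Sum.inl l) = -j := by
            rcases Nat.eq_zero_or_pos j with h0 | h0
            · exact Or.inl h0
            · right
              have hne : (Finset.univ : Finset (Fin q)).Nonempty := by
                by_contra hcon
                rw [Finset.not_nonempty_iff_eq_empty] at hcon
                simp only [hcon, Finset.sup_empty, Nat.bot_eq_zero, gt_iff_lt, lt_self_iff_false, j] at h0
              obtain ⟨l, _, hl⟩ := Finset.exists_mem_eq_sup _ hne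
                (fun l => (-w (Sum.inl l)).toNat)
              refine ⟨l, ?_⟩
              have h1 : j = (-w (Sum.inl l)).toNat := hl
              omega
          obtain ⟨ν, hν1, hν2, hν3⟩ := rounding S M hSM {x | InSig U x} hzero hadd hsmul
            (fun x hx => hx.2.1) (fun x => dotL w x + (Tc (n + 1) / ε) * Ψ x)
            (hΨs.add_linear (dotL w) (div_nonneg (Tc_nonneg _) hε.le)) j
            (by
              intro x hx
              obtain ⟨μ, hμ, hμmin⟩ := hmin x
              refine ⟨μ, hμ, ?_⟩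
              show (j : ℝ) * mdot μ x ≤ dot x w + (Tc (n + 1) / ε) * Ψ x
              rcases hj2 with h0 | ⟨l, hl⟩
              · rw [h0]
                have := hwb x hx.2.2 (hx.inCone S)
                simp only [Nat.cast_zero, zero_mul]
                linarith only [this]
              · obtain ⟨h1, h2, h3, h4⟩ := hmove x hx (mdot μ x) (mdot_nonneg μ x hx.2.1) hμmin l
                have h5 := hwb _ h1 h2
                rw [h3, h4, hl] at h5
                push_cast at h5
                linarith only [h5])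
            μs hμs (fun x => Bc * Ψ x) hB
          refine ⟨(j, Sum.elim (fun l => w (Sum.inl l) + j) (fun i => w (Sum.inr i) - ν i)),
            fun _ => ⟨⟨?_, ?_, ?_, ?_⟩, ?_⟩⟩
          · intro l
            simp only [Sum.elim_inl]
            have := hj1 l
            linarith only [this]
          · rcases hj2 with h0 | ⟨l, hl⟩
            · exact Or.inl h0
            · refine Or.inr ⟨l, ?_⟩
              simp only [Sum.elim_inl, hl]
              ring
          · intro μ hμ
            have h1 : (Sum.elim (fun l => w (Sum.inl l) + j) (fun i => w (Sum.inr i) - ν i)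
                + (j : ℤ) • extv μ : Fin q ⊕ Fin k → ℤ)
                = w + Sum.elim (fun _ => 0) (fun i => (j : ℤ) * (μ i : ℤ) - ν i) := by
              ext i
              rcases i with l | i
              · simp only [extv, Int.reduceNeg, zsmul_eq_mul, Int.cast_natCast, Pi.add_apply, Sum.elim_inl, Pi.mul_apply, Pi.natCast_apply, mul_neg, mul_one, add_neg_cancel_right, add_zero]
              · simp only [extv, Pi.add_apply, Pi.smul_apply, Sum.elim_inr, smul_eq_mul]
                ring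
            show (Sum.elim (fun l => w (Sum.inl l) + j) (fun i => w (Sum.inr i) - ν i)
                + (j : ℤ) • extv μ : Fin q ⊕ Fin k → ℤ) ∈ M
            rw [h1]
            exact M.add_mem hwM (hν1 μ hμ)
          · intro x hx
            have h1 : dot x (Sum.elim (fun l => w (Sum.inl l) + (j : ℤ))
                (fun i => w (Sum.inr i) - (ν i : ℤ))) = dot x w - mdot ν x := by
              simp only [dot, mdot, Fintype.sum_sum_type, Sum.elim_inl, Sum.elim_inr, hx.1,
                zero_mul, Finset.sum_const_zero, zero_add]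
              rw [← Finset.sum_sub_distrib]
              refine Finset.sum_congr rfl fun i _ => ?_
              push_cast
              ring
            show -((Fc (q + k) k (n + 1) / ε) * Ψ x) ≤ dot x _
            rw [h1]
            have h2 := hν3 x hx
            simp only [dotL_apply] at h2
            have h5 : (Fc (q + k) k (n + 1) / ε) * Ψ x
                = (Tc (n + 1) / ε) * Ψ x + (k + 1) * (Bc * Ψ x)
                  + ((Fc (q + k) k n + 2 * Kc (n + 1) + 1) / ε) * Ψ x := by
              simp only [Fc, Bc]; ring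
            have h6 : 0 ≤ Ψ x := hpsinn x (hx.inCone S)
            have h8 : 0 ≤ ((Fc (q + k) k n + 2 * Kc (n + 1) + 1) / ε) * Ψ x := by
              have := Kc_nonneg (n + 1)
              have := Fc_nonneg (q + k) k n
              positivity
            rw [h5]
            linarith only [h2, h8]
          · intro x _ _ hneg γ hγ
            have h1 : dot x (Sum.elim (fun l => w (Sum.inl l) + (j : ℤ))
                (fun i => w (Sum.inr i) - (ν i : ℤ)))
                = dot x w + j * (∑ l, x (Sum.inl l)) - mdot ν x := by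
              simp only [dot, mdot, Fintype.sum_sum_type, Sum.elim_inl, Sum.elim_inr]
              rw [Finset.mul_sum]
              have h2 : ∀ l, x (Sum.inl l) * ((w (Sum.inl l) + (j : ℤ) : ℤ) : ℝ)
                  = x (Sum.inl l) * (w (Sum.inl l) : ℝ) + j * x (Sum.inl l) := by
                intro l; push_cast; ring
              have h3 : ∀ i, x (Sum.inr i) * ((w (Sum.inr i) - (ν i : ℤ) : ℤ) : ℝ)
                  = x (Sum.inr i) * (w (Sum.inr i) : ℝ) - ν i * x (Sum.inr i) := by
                intro i; push_cast; ring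
              simp only [h2, h3, Finset.sum_add_distrib, Finset.sum_sub_distrib]
              ring
            show (j : ℝ) * (γ - ∑ l, x (Sum.inl l)) + dot x _ < 0
            rw [h1]
            have h2 := hν2 x γ hγ
            linarith only [hneg, h2]
        · exact ⟨(0, 0), fun h => absurd h hw⟩
      choose F hF using hreal
      refine ⟨L₀.map F, by rw [List.length_map, hL₀len], ?_, ?_⟩
      · intro s hs
        obtain ⟨w, hw, rfl⟩ := List.mem_map.mp hs
        exact (hF w hw).1
      · intro x hx hxc hx0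
        obtain ⟨w, hw, hneg⟩ := hL₀neg x hx ((inCone_iff r hr S x).mp hxc) hx0
        exact ⟨F w, List.mem_map.mpr ⟨w, hw, rfl⟩, (hF w hw).2 x hx hxc hneg⟩

end Main

/-- Existence of `2d` bounded semi-invariant sections. -/
theorem sections_exist (q k : ℕ) : ∃ C : ℝ, 0 ≤ C ∧ ∀ ε : ℝ, 0 < ε →
    ∀ (M : AddSubgroup (Fin q ⊕ Fin k → ℤ)) (r : ℕ), 0 < r → (∀ u, (r:ℤ) • u ∈ M) →
    ∀ (S : Finset (Fin k → ℕ)), S.Nonempty →
      (∀ μ ∈ S, ∀ μ' ∈ S, (Sum.elim (fun _ => 0) (fun j => (μ j : ℤ) - μ' j)) ∈ M) →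
    ∀ (Ψ : (Fin q ⊕ Fin k → ℝ) → ℝ), IsSub Ψ →
      (∀ x y : Fin q ⊕ Fin k → ℝ, (∀ j, x (Sum.inr j) = y (Sum.inr j)) → Ψ x = Ψ y) →
      (∀ x : Fin q ⊕ Fin k → ℝ, (∀ l, x (Sum.inl l) = 0) → (∀ j, 0 ≤ x (Sum.inr j)) → x ≠ 0 →
        0 < Ψ x) →
    (∀ x : Fin q ⊕ Fin k → ℝ, InCone S x → (∀ u ∈ M, ∃ z : ℤ, ∑ i, x i * u i = z) → x ≠ 0 →
      ε ≤ Ψ x) →
    ∃ L : List (ℕ × (Fin q ⊕ Fin k → ℤ)), L.length = 2 * (q + k) ∧
      (∀ s ∈ L, (∀ l, 0 ≤ s.2 (Sum.inl l)) ∧ (s.1 = 0 ∨ ∃ l, s.2 (Sum.inl l) = 0) ∧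
        (∀ μ ∈ S, s.2 + (s.1:ℤ) • Sum.elim (fun _ => (-1:ℤ)) (fun j => (μ j : ℤ)) ∈ M) ∧
        (∀ y : Fin k → ℝ, (∀ j, 0 ≤ y j) →
          -(C / ε * Ψ (Sum.elim (fun _ => 0) y)) ≤ ∑ j, (s.2 (Sum.inr j) : ℝ) * y j)) ∧
      ∀ x : Fin q ⊕ Fin k → ℝ, InCone S x → x ≠ 0 → ∃ s ∈ L, ∀ γ : ℝ,
        (∀ μ ∈ S, γ ≤ ∑ j, μ j * x (Sum.inr j)) →
          s.1 * (γ - ∑ l, x (Sum.inl l)) + ∑ i, (s.2 i) * x i < 0 := by
  refine ⟨Fc (q + k) k (q + k), Fc_nonneg _ _ _, ?_⟩
  intro ε hε M r hr hM S hSne hSM Ψ hΨs hΨz hΨpos hlc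
  have hperp : perp (∅ : Set (Fin q ⊕ Fin k → ℤ)) = ⊤ := by
    ext x
    simp only [Submodule.mem_top, iff_true]
    intro u hu
    exact absurd hu (Set.notMem_empty u)
  obtain ⟨L, hL1, hL2, hL3⟩ := staged (AddSubgroup.toIntSubmodule M) r hr hM S hSne hSM Ψ hΨs hΨz
    hΨpos ε hε hlc (q + k) ∅ (Set.empty_subset _) (fun u hu => absurd hu (Set.notMem_empty u)) (by
      rw [hperp, finrank_top, finrank_fintype_fun_eq_card]; simp only [Fintype.card_sum, Fintype.card_fin, Nat.add_left_cancel_iff])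
  refine ⟨L, hL1, ?_, ?_⟩
  · intro s hs
    obtain ⟨h1, h2, h3, h4⟩ := hL2 s hs
    refine ⟨h1, h2, h3, ?_⟩
    intro y hy
    have hv : InSig (∅ : Set (Fin q ⊕ Fin k → ℤ)) (Sum.elim (fun _ => 0) y) := by
      refine ⟨fun l => rfl, hy, ?_⟩
      rw [hperp]; exact Submodule.mem_top
    have h5 := h4 _ hv
    have h7 : dot (Sum.elim (fun _ => 0) y : Fin q ⊕ Fin k → ℝ) s.2
        = ∑ j, (s.2 (Sum.inr j) : ℝ) * y j := by
      simp only [dot, Fintype.sum_sum_type, Sum.elim_inl, Sum.elim_inr, zero_mul,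
        Finset.sum_const_zero, zero_add]
      exact Finset.sum_congr rfl fun j _ => mul_comm _ _
    rw [h7] at h5
    exact h5
  · intro x hx hx0
    obtain ⟨s, hs, hneg⟩ := hL3 x (by rw [hperp]; exact Submodule.mem_top) hx hx0
    refine ⟨s, hs, ?_⟩
    intro γ hγ
    have h1 := hneg γ hγ
    have h2 : dot x s.2 = ∑ i, ((s.2 i : ℤ) : ℝ) * x i :=
      Finset.sum_congr rfl fun i _ => mul_comm _ _
    rw [h2] at h1
    exact h1

end Vale.Agent.P283.H207
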