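import Vale.Agent.P283.H207.Main

/-!
Bounded klt complements for birational contractions to `X = Y / G`, in the form-free setting.
-/

attribute [-instance] ProperSMul.toContinuousSMul IsTopologicalTorsor.toContinuousSMul IdemSemiring.toCanonicallyOrderedAdd IdemSemiring.toMulLeftMono IdemSemiring.toMulRightMono AddQuantale.instAddLeftMono AddQuantale.instAddRightMono Quantale.instMulLeftMono Quantale.instMulRightMono FiniteDimensional.rclike_to_real IsScalarTower.complexToReal FiniteDimensional.complexToReal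

set_option linter.all false
set_option linter.style.haveILetI false

namespace Vale.Agent.P283.H207

open scoped KaehlerDifferential
open MvPolynomial

/-- From an abstract pull-back to extended derivations. -/
theorem exists_ext_of_pullback {K L : Type} [Field K] [Field L] [Algebra ℂ K] [Algebra ℂ L]
    [Algebra K L] [IsScalarTower ℂ K L] {q k : ℕ} (x : Fin (q + 1) → L) (z : Fin k → L)
    (hx : ∀ l, Fin.tail x l ≠ 0)
    {b0 : Fin (q + k) → K} (BK : Module.Basis (Fin (q + k)) K (Ω[K⁄ℂ]))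
    (hBK : ∀ i, BK i = KaehlerDifferential.D ℂ K (b0 i))
    (BL : Module.Basis (Fin (q + k)) L (Ω[L⁄ℂ]))
    (hBL : ∀ i, BL i = KaehlerDifferential.D ℂ L (algebraMap K L (b0 i)))
    {D : Fin (q + k) → Derivation ℂ K K} {ω : ⋀[K]^(q + k) (Ω[K⁄ℂ])} (hω : ω ≠ 0)
    (hD : ∀ f : Fin (q + k) → K, wedgeD (q + k) f = Q.jac D f • ω) (h : L)
    (hpull : IsPullback ω (h • ((∏ l, Fin.tail x l)⁻¹ • wedgeD (q + k)
        (Fin.append (Fin.tail x) z)))) :
    ∃ D' : Fin (q + k) → Derivation ℂ L L,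
      (∀ (i : Fin (q + k)) (f : K), D' i (algebraMap K L f) = algebraMap K L (D i f)) ∧
      h * Q.jac D' (Fin.append (Fin.tail x) z) = ∏ l, Fin.tail x l := by
  obtain ⟨D', hD'⟩ := exists_derivation_ext BK hBK BL hBL D
  refine ⟨D', hD', ?_⟩
  -- the Jacobian on `K` and on `L`
  have hjac : ∀ f : Fin (q + k) → K, Q.jac D' (fun i => algebraMap K L (f i))
      = algebraMap K L (Q.jac D f) := by
    intro f
    unfold Q.jac
    rw [RingHom.map_det]
    congr 1
    ext i j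
    simp [hD']
  have hω1 : ∃ f, Q.jac D f ≠ 0 := by
    refine ⟨b0, ?_⟩
    intro h0
    have := hD b0
    rw [h0, zero_smul] at this
    exact wedgeD_basis_ne_zero BK hBK this
  have hD'1 : ∃ f, Q.jac D' f ≠ 0 := by
    obtain ⟨f, hf⟩ := hω1
    refine ⟨fun i => algebraMap K L (f i), ?_⟩
    rw [hjac]
    exact (map_ne_zero _).2 hf
  obtain ⟨ωL, hωL0, hωL⟩ : ∃ ωL : ⋀[L]^(q + k) (Ω[L⁄ℂ]), ωL ≠ 0 ∧
      ∀ f : Fin (q + k) → L, wedgeD (q + k) f = Q.jac D' f • ωL := by
    obtain ⟨-, h1, h2⟩ := wedgeD_eq_jac BL hBL D' hD'1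
    exact ⟨_, h1, h2⟩
  obtain ⟨h0, f0, he1, he2⟩ := hpull
  have h1 : h0 * Q.jac D f0 = 1 := by
    have h2 := he1
    rw [hD f0, smul_smul] at h2
    have h4 : (1 : K) • ω = (h0 * Q.jac D f0) • ω := by rw [one_smul]; exact h2
    exact (smul_left_injective K hω h4).symm
  have hprod : (∏ l, Fin.tail x l) ≠ 0 := Finset.prod_ne_zero_iff.2 fun l _ => hx l
  rw [hωL (fun i => algebraMap K L (f0 i)), hωL, hjac, smul_smul, smul_smul, smul_smul,
    ← map_mul, h1, map_one] at he2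
  have h3 : h * (∏ l, Fin.tail x l)⁻¹ * Q.jac D' (Fin.append (Fin.tail x) z) = 1 :=
    smul_left_injective L hωL0 he2
  have h4 : h * Q.jac D' (Fin.append (Fin.tail x) z) * (∏ l, Fin.tail x l)⁻¹ = 1 := by
    rw [← h3]; ring
  rw [← div_eq_mul_inv, div_eq_one_iff_eq hprod] at h4
  exact h4

/-- Bounded klt complements for contractions to `X = Y / G`. -/
theorem main_qk (q k : ℕ) (hd : 0 < q + k) : ∃ c₀ : ℕ, 0 < c₀ ∧ ∀ ε : ℝ, 0 < ε →
    ∀ n : ℕ, c₀ ∣ n → (c₀ : ℝ) * (1 + 1 / ε) ≤ n →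
    ∀ (K L : Type) [Field K] [Field L] [Algebra ℂ K] [Algebra ℂ L]
      [Algebra K L] [IsScalarTower ℂ K L] (x : Fin (q + 1) → L) (z : Fin k → L)
      (g : MvPolynomial (Fin k) ℂ) (b : Fin k → ℚ) (G : Subgroup (L ≃ₐ[ℂ] L))
      (A : Subalgebra ℂ K), Q.IsQuotient x z g b G A →
    ∀ D : Fin (q + k) → Derivation ℂ K K, (∃ f, Q.jac D f ≠ 0) →
    ∀ (𝒞 : Set (Subalgebra ℂ K)) (B : ∀ C : Subalgebra ℂ K, Q.QDivisor C) (r : ℕ)
      (ψ : Subalgebra ℂ K → K), IsPair D A 𝒞 B r ψ →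
    ∀ (N : ℕ) (M : Fin (N + 1) → ℕ) (E : Fin (N + 1) → Fin k → ℤ),
      (∀ i j, E i j ≠ 0 → b j ≠ 0) → IsGenerated x z M E D 𝒞 r ψ →
      (∀ C ∈ 𝒞, Q.IsEpsLC D (B C) ε) → HasGlobalKltComplement D 𝒞 B n := by
  obtain ⟨c₀, hc₀, hmain⟩ := result_qk q k hd
  refine ⟨c₀, hc₀, ?_⟩
  intro ε hε n hn hn' K L _ _ _ _ _ _ x z g b G A H D hD 𝒞 B r ψ hP N M E hEb hgen hlc
  have hcoords := isCoords_of_quotient H
  have halg : Algebra.IsAlgebraic K L := isAlgebraic_of_quotient H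
  have htr : Algebra.trdeg ℂ L = ((q + k : ℕ) : Cardinal) := by
    rw [hcoords.trdeg_eq]; simp only [Fintype.card_sum, Fintype.card_fin, Nat.cast_add]
  obtain ⟨b0, hb0, hb0'⟩ := exists_common_basis (K := K) (L := L) htr
  obtain ⟨BK, hBK⟩ := exists_kaehler_basis b0 hb0
  obtain ⟨BL, hBL⟩ := exists_kaehler_basis _ hb0'
  obtain ⟨-, hω, hDω⟩ := wedgeD_eq_jac BK hBK D hD
  have hx : ∀ l, Fin.tail x l ≠ 0 := fun l => hcoords.ne_zero (Sum.inl l)
  have hz : ∀ j, z j ≠ 0 := fun j => hcoords.ne_zero (Sum.inr j)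
  obtain ⟨F₀, hF₀, hpull, -⟩ := Abs.exists_pullback H _ hω
  obtain ⟨D', hD', hh⟩ := exists_ext_of_pullback x z hx BK hBK BL hBL hω hDω F₀ hpull
  have hgen' := hgen D' F₀ hD' hh
  -- positivity of `n`
  have hnpos : (0 : ℝ) < n := by
    refine lt_of_lt_of_le ?_ hn'
    have : (0 : ℝ) < c₀ := by exact_mod_cast hc₀
    positivity
  have hψ : ∀ C ∈ 𝒞, ψ C ≠ 0 := fun C hC => (hP.cartier C hC).2.1
  -- everything is over some chart
  by_cases hne : 𝒞.Nonempty
  swap
  · rw [Set.not_nonempty_iff_eq_empty] at hne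
    subst hne
    exact ⟨1, one_ne_zero, fun C hC => absurd hC (Set.notMem_empty C)⟩
  have hr : 0 < r := by
    obtain ⟨C, hC⟩ := hne
    exact (hP.cartier C hC).1
  have hrR : (0 : ℝ) < r := by exact_mod_cast hr
  have hkap : ∀ C ∈ 𝒞, ∀ (v : AddValuation K (WithTop ℤ)) (w : AddValuation L (WithTop ℤ)) (e : ℕ),
      IsDivisorial (q + k) v → Q.IsOver C v → 0 < e → (∃ f, w f = 1) →
      (∀ f : K, w (algebraMap K L f) = e • v f) →
      (e : ℤ) * ov v (ψ C) = kap (q := q) z F₀ M E r w := by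
    intro C hC v w e hv hover he hw hvw
    exact hgen' C hC v w e (ov v (ψ C)) (ov w F₀) (fun j => ov w (z j)) (divisorial_iff.2 hv)
      hover he hw hvw (coe_ov v (hψ C hC)).symm (coe_ov w hF₀).symm
      (fun j => (coe_ov w (hz j)).symm)
  obtain ⟨φ, hφ0, hφ1, hφ2⟩ := hmain ε hε n hn hn' K L x z g b G A H _ hω F₀ hF₀ hpull N M E r hr
    hEb
    (by
      intro v w w' e hv hover he hw hw' hvw hvw'
      obtain ⟨C, hC, hC'⟩ := hP.proper v (divisorial_iff.2 hv) hover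
      rw [← hkap C hC v w e hv hC' he hw hvw, ← hkap C hC v w' e hv hC' he hw' hvw'])
    (by
      intro v w e m hv hover hm he hw hvw
      obtain ⟨C, hC, hC'⟩ := hP.proper v (divisorial_iff.2 hv) hover
      rw [← hkap C hC v w e hv hC' he hw hvw]
      have h1 := (hlc C hC).2 v (centreIdeal C v hC') r (ψ C) m (ov v (ψ C))
        (divisorial_iff.2 hv) hC' (fun a => Iff.rfl)
        ⟨hr, hψ C hC, fun u p m' k' hu _ hm' hk' =>
          (hP.cartier C hC).2.2 u p m' k' hu le_top hm' hk'⟩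
        ((formOrder_iff_jac hω hDω).2 hm) (coe_ov v (hψ C hC)).symm
      have heR : (0 : ℝ) < e := by exact_mod_cast he
      have h2 := mul_le_mul_of_nonneg_left h1 heR.le
      refine h2.trans (le_of_eq ?_)
      push_cast
      field_simp)
  refine ⟨φ, hφ0, ?_⟩
  intro C hC
  haveI : CharZero K := charZero_of_injective_algebraMap (algebraMap ℂ K).injective
  haveI : FiniteDimensional K L := by
    haveI : Algebra.EssFiniteType ℂ L := hcoords.essFiniteType
    haveI : Algebra.EssFiniteType K L := Algebra.EssFiniteType.of_comp ℂ K L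
    exact Algebra.finite_of_essFiniteType_of_isAlgebraic
  refine ⟨?_, ?_⟩
  · intro u p m k' hu hm hk'
    have hover : Q.IsOver A u := fun a => hu.2.1 ⟨a, hP.le C hC a.2⟩
    obtain ⟨w, e, he, hw1, hvw⟩ := exists_extension (L := L) u hu.1.normalized
    have h1 := hφ1 u w e (divisorial_iff.1 hu.1) hover he hw1 hvw
    rw [← hkap C hC u w e (divisorial_iff.1 hu.1) hu.2.1 he hw1 hvw, ov_eq_of u hk'] at h1
    have h2 := (hP.cartier C hC).2.2 u p m (ov u (ψ C)) hu le_top hm (coe_ov u (hψ C hC)).symm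
    have h3 := hP.effective C hC p
    have heR : (0 : ℝ) < e := by exact_mod_cast he
    have h4 : ((m : ℝ) + ((B C).coeff p : ℚ)) * n ≤ k' := by
      have h5 : (ov u (ψ C) : ℝ) = r * (m + ((B C).coeff p : ℚ)) := by exact_mod_cast h2
      have h6 : (e : ℝ) * (((m : ℝ) + ((B C).coeff p : ℚ)) * n) ≤ e * k' := by
        refine le_trans (le_of_eq ?_) h1
        push_cast
        rw [h5]
        field_simp
      exact le_of_mul_le_mul_left h6 heR
    have hnQ : (0 : ℚ) < n := by exact_mod_cast hnpos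
    have h7 : ((m : ℚ) + (B C).coeff p) * n ≤ k' := by exact_mod_cast h4
    have h8 : (m : ℚ) + (B C).coeff p ≤ (k' : ℚ) / n := by
      rw [le_div_iff₀ hnQ]; exact h7
    constructor <;> linarith only [h3, h8]
  · intro v m k' hv hover hm hk'
    have h1 := hφ2 v m (divisorial_iff.1 hv) (fun a => hover ⟨a, hP.le C hC a.2⟩)
      ((formOrder_iff_jac hω hDω).1 hm)
    rw [ov_eq_of v hk'] at h1
    have hnQ : (0 : ℚ) < n := by exact_mod_cast hnpos
    have h2 : (k' : ℚ) < n * (1 + m) := by exact_mod_cast h1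
    have h3 : (k' : ℚ) / n < 1 + m := by
      rw [div_lt_iff₀ hnQ]; linarith only [h2]
    linarith only [h3]

end Vale.Agent.P283.H207
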